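import Vale.Agent.P151.Clus

/-! Neighbourhoods and balls in a graph of bounded degree. -/

open Classical Finset

namespace Vale.Agent.P151

variable {V : Type*} (G : SimpleGraph V)

def nb (S : Set V) : ℕ → Set V
  | 0 => S
  | j + 1 => {v | v ∈ nb S j ∨ ∃ u ∈ nb S j, G.Adj u v}

def ball (x : V) (r : ℕ) : Set V := nb G {x} r

def inE (S : Set V) : Set (Sym2 V) := {e | e ∈ G.edgeSet ∧ ∀ v ∈ e, v ∈ S}

def DegLe (Δ : ℕ) : Prop := ∀ x, ∃ s : Finset V, s.card ≤ Δ ∧ ∀ y, G.Adj x y → y ∈ s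

variable {G}

lemma nb_succ {S : Set V} {j : ℕ} {v : V} :
    v ∈ nb G S (j + 1) ↔ v ∈ nb G S j ∨ ∃ u ∈ nb G S j, G.Adj u v := Iff.rfl

lemma nb_mono_set {S S' : Set V} (h : S ⊆ S') (j : ℕ) : nb G S j ⊆ nb G S' j := by
  induction j with
  | zero => exact h
  | succ j ih =>
    rintro v (hv | ⟨u, hu, huv⟩)
    · exact Or.inl (ih hv)
    · exact Or.inr ⟨u, ih hu, huv⟩

lemma nb_mono (S : Set V) {i j : ℕ} (h : i ≤ j) : nb G S i ⊆ nb G S j := by
  induction h with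
  | refl => exact subset_rfl
  | step _ ih => exact fun v hv => Or.inl (ih hv)

lemma subset_nb (S : Set V) (j : ℕ) : S ⊆ nb G S j := nb_mono S (Nat.zero_le j)

lemma nb_nb (S : Set V) (i j : ℕ) : nb G (nb G S i) j = nb G S (i + j) := by
  induction j with
  | zero => rfl
  | succ j ih => ext v; rw [← add_assoc, nb_succ, nb_succ, ih]

lemma mem_nb_iff {S : Set V} {j : ℕ} {v : V} : v ∈ nb G S j ↔ ∃ a ∈ S, v ∈ ball G a j := by
  constructor
  · intro h
    induction j generalizing v with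
    | zero => exact ⟨v, h, rfl⟩
    | succ j ih =>
      rcases h with h | ⟨u, hu, huv⟩
      · obtain ⟨a, ha, h'⟩ := ih h
        exact ⟨a, ha, Or.inl h'⟩
      · obtain ⟨a, ha, h'⟩ := ih hu
        exact ⟨a, ha, Or.inr ⟨u, h', huv⟩⟩
  · rintro ⟨a, ha, h⟩
    exact nb_mono_set (by simpa using ha) j h

lemma self_mem_ball (x : V) (r : ℕ) : x ∈ ball G x r := subset_nb _ r rfl

lemma ball_mono (x : V) {i j : ℕ} (h : i ≤ j) : ball G x i ⊆ ball G x j := nb_mono _ h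

lemma nb_trans {S : Set V} {i j : ℕ} {a v : V} (ha : a ∈ nb G S i) (hv : v ∈ ball G a j) :
    v ∈ nb G S (i + j) := by
  rw [← nb_nb]; exact mem_nb_iff.2 ⟨a, ha, hv⟩

lemma ball_trans {x a v : V} {i j : ℕ} (ha : a ∈ ball G x i) (hv : v ∈ ball G a j) :
    v ∈ ball G x (i + j) := nb_trans ha hv

lemma adj_mem_ball {x y : V} (h : G.Adj x y) : y ∈ ball G x 1 := Or.inr ⟨x, rfl, h⟩

lemma ball_adj {x u v : V} {i : ℕ} (hu : u ∈ ball G x i) (h : G.Adj u v) :
    v ∈ ball G x (i + 1) := Or.inr ⟨u, hu, h⟩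

lemma ball_symm {x y : V} {r : ℕ} (h : y ∈ ball G x r) : x ∈ ball G y r := by
  induction r generalizing y with
  | zero => exact (show y = x from h).symm
  | succ r ih =>
    rcases h with h | ⟨u, hu, huv⟩
    · exact Or.inl (ih h)
    · rw [add_comm]; exact ball_trans (adj_mem_ball huv.symm) (ih hu)

lemma inE_mono {S S' : Set V} (h : S ⊆ S') : inE G S ⊆ inE G S' :=
  fun _ he => ⟨he.1, fun v hv => h (he.2 v hv)⟩

lemma mk_mem_inE {S : Set V} {a b : V} : s(a, b) ∈ inE G S ↔ G.Adj a b ∧ a ∈ S ∧ b ∈ S := by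
  simp [inE]

lemma conn_of_ball {x v : V} {r : ℕ} {ω : Set (Sym2 V)} (hω : inE G (ball G x r) ⊆ ω)
    (hv : v ∈ ball G x r) : Conn ω x v := by
  induction r generalizing v with
  | zero => rw [show v = x from hv]; exact Conn.refl _ _
  | succ r ih =>
    have hω' : inE G (ball G x r) ⊆ ω := (inE_mono (ball_mono x (Nat.le_succ r))).trans hω
    rcases hv with hv | ⟨u, hu, huv⟩
    · exact ih hω' hv
    · exact (ih hω' hu).tail (hω (mk_mem_inE.2 ⟨huv, Or.inl hu, Or.inr ⟨u, hu, huv⟩⟩))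

lemma ball_card {Δ : ℕ} (hΔ : DegLe G Δ) (x : V) (r : ℕ) :
    ∃ s : Finset V, s.card ≤ (Δ + 1) ^ r ∧ ball G x r ⊆ s := by
  choose nbr hn1 hn2 using hΔ
  induction r with
  | zero => exact ⟨{x}, by simp, by simp [ball, nb]⟩
  | succ r ih =>
    obtain ⟨s, hs1, hs2⟩ := ih
    refine ⟨s ∪ s.biUnion nbr, ?_, ?_⟩
    · have h1 := Finset.card_union_le s (s.biUnion nbr)
      have h2 : (s.biUnion nbr).card ≤ s.card * Δ :=
        Finset.card_biUnion_le_card_mul s nbr Δ fun a _ => hn1 a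
      have h3 : s.card * (Δ + 1) ≤ (Δ + 1) ^ r * (Δ + 1) := Nat.mul_le_mul_right _ hs1
      rw [pow_succ]; nlinarith
    · rintro v (hv | ⟨u, hu, huv⟩)
      · exact Finset.mem_coe.2 (Finset.mem_union_left _ (hs2 hv))
      · exact Finset.mem_coe.2 (Finset.mem_union_right _
          (Finset.mem_biUnion.2 ⟨u, hs2 hu, hn2 u v huv⟩))

lemma inE_card {Δ : ℕ} (hΔ : DegLe G Δ) (x : V) (r : ℕ) :
    ∃ s : Finset (Sym2 V), s.card ≤ ((Δ + 1) ^ r) ^ 2 ∧ inE G (ball G x r) ⊆ s := by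
  obtain ⟨s, hs1, hs2⟩ := ball_card hΔ x r
  refine ⟨(s ×ˢ s).image (fun x => s(x.1, x.2)), ?_, ?_⟩
  · refine Finset.card_image_le.trans ?_
    rw [Finset.card_product, sq]
    exact Nat.mul_le_mul hs1 hs1
  · intro e he
    induction e using Sym2.ind with
    | _ a b =>
      obtain ⟨_, ha, hb⟩ := mk_mem_inE.1 he
      exact Finset.mem_coe.2 (Finset.mem_image.2
        ⟨(a, b), Finset.mem_product.2 ⟨hs2 ha, hs2 hb⟩, rfl⟩)

lemma inE_finite {Δ : ℕ} (hΔ : DegLe G Δ) (x : V) (r : ℕ) : (inE G (ball G x r)).Finite := by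
  obtain ⟨s, _, hs⟩ := inE_card hΔ x r
  exact s.finite_toSet.subset hs

lemma ball_finite {Δ : ℕ} (hΔ : DegLe G Δ) (x : V) (r : ℕ) : (ball G x r).Finite := by
  obtain ⟨s, _, hs⟩ := ball_card hΔ x r
  exact s.finite_toSet.subset hs

/-- Lipschitz functions on the graph -/
def Lip (G : SimpleGraph V) (Z : V → ℝ) (κ : ℝ) : Prop := ∀ u v, G.Adj u v → |Z u - Z v| ≤ κ

lemma Lip.ball {Z : V → ℝ} {κ : ℝ} (h : Lip G Z κ) (hκ : 0 ≤ κ) {x y : V} {r : ℕ}
    (hy : y ∈ ball G x r) : |Z y - Z x| ≤ κ * r := by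
  induction r generalizing y with
  | zero => rw [show y = x from hy]; simp
  | succ r ih =>
    push_cast
    rcases hy with hy | ⟨u, hu, huv⟩
    · have := ih hy; nlinarith
    · have h1 := ih hu
      have h2 := h u y huv
      rw [abs_le] at *
      constructor <;> nlinarith [h1.1, h1.2, h2.1, h2.2]

lemma iso_ball (γ : G ≃g G) {x y : V} {r : ℕ} (h : y ∈ ball G x r) : γ y ∈ ball G (γ x) r := by
  induction r generalizing y with
  | zero => rw [show y = x from h]; rfl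
  | succ r ih =>
    rcases h with h | ⟨u, hu, huv⟩
    · exact Or.inl (ih h)
    · exact Or.inr ⟨γ u, ih hu, γ.map_adj_iff.2 huv⟩

lemma exists_ball_of_reachable {x y : V} (h : G.Reachable x y) : ∃ r, y ∈ ball G x r := by
  obtain ⟨p⟩ := h
  induction p with
  | nil => exact ⟨0, rfl⟩
  | cons hadj _ ih =>
    obtain ⟨r, hr⟩ := ih
    exact ⟨1 + r, ball_trans (adj_mem_ball hadj) hr⟩

/-- leaving a set along an open path -/
lemma exit_of_conn {ω : Set (Sym2 V)} {R : Set V} {x y : V} (hω : ω ⊆ G.edgeSet)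
    (h : Conn ω x y) (hx : x ∈ R) (hy : y ∉ R) :
    ∃ u v, Conn (ω ∩ inE G R) x u ∧ u ∈ R ∧ s(u, v) ∈ ω ∧ v ∉ R := by
  by_contra hc
  push Not at hc
  have : Conn (ω ∩ inE G R) x y ∧ y ∈ R := by
    clear hy
    induction h with
    | refl => exact ⟨Conn.refl _ _, hx⟩
    | tail _ h2 ih =>
      have hb := hc _ _ ih.1 ih.2 h2
      exact ⟨ih.1.tail ⟨h2, mk_mem_inE.2 ⟨hω h2, ih.2, hb⟩⟩, hb⟩
  exact hy this.2

lemma conn_inE_mem {ω : Set (Sym2 V)} {R : Set V} {x y : V}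
    (h : Conn (ω ∩ inE G R) x y) (hx : x ∈ R) : y ∈ R := by
  induction h with
  | refl => exact hx
  | tail _ h2 _ => exact (mk_mem_inE.1 h2.2).2.2

end Vale.Agent.P151
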