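import Mathlib

/-! Finite product measures on sets of edges, written as finite sums. -/

open Classical Finset

namespace Vale.Agent.P151

variable {E : Type*}

noncomputable def wt (F : Finset E) (w : E → ℝ) (S : Finset E) : ℝ :=
  ∏ e ∈ F, if e ∈ S then w e else 1 - w e

noncomputable def Ex (F : Finset E) (w : E → ℝ) (f : Set E → ℝ) : ℝ :=
  ∑ S ∈ F.powerset, wt F w S * f S

/-- weights in the unit interval -/
def Ok (w : E → ℝ) : Prop := ∀ e, 0 ≤ w e ∧ w e ≤ 1

lemma wt_nonneg {F : Finset E} {w : E → ℝ} (hw : Ok w) (S : Finset E) : 0 ≤ wt F w S := by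
  unfold wt
  refine Finset.prod_nonneg fun e _ => ?_
  have := hw e
  split_ifs <;> linarith [this.1, this.2]

@[simp] lemma Ex_empty (w : E → ℝ) (f : Set E → ℝ) : Ex ∅ w f = f ∅ := by
  simp [Ex, wt]

lemma Ex_insert {F : Finset E} {a : E} (ha : a ∉ F) (w : E → ℝ) (f : Set E → ℝ) :
    Ex (insert a F) w f = w a * Ex F w (fun ω => f (insert a ω)) + (1 - w a) * Ex F w f := by
  unfold Ex
  rw [Finset.sum_powerset_insert ha, add_comm, Finset.mul_sum, Finset.mul_sum]
  congr 1
  · refine Finset.sum_congr rfl fun S hS => ?_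
    have hS' : S ⊆ F := Finset.mem_powerset.1 hS
    unfold wt
    rw [Finset.prod_insert ha]
    simp only [Finset.mem_insert, true_or, if_true, Finset.coe_insert]
    have : ∏ e ∈ F, (if e = a ∨ e ∈ S then w e else 1 - w e)
        = ∏ e ∈ F, (if e ∈ S then w e else 1 - w e) := by
      refine Finset.prod_congr rfl fun e he => ?_
      have : e ≠ a := fun h => ha (h ▸ he)
      simp [this]
    rw [this]; ring
  · refine Finset.sum_congr rfl fun S hS => ?_
    have hS' : S ⊆ F := Finset.mem_powerset.1 hS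
    unfold wt
    rw [Finset.prod_insert ha]
    have : a ∉ S := fun h => ha (hS' h)
    simp only [this, if_false]; ring

lemma Ex_congr {F : Finset E} {w : E → ℝ} {f g : Set E → ℝ}
    (h : ∀ ω : Set E, ω ⊆ F → f ω = g ω) : Ex F w f = Ex F w g := by
  unfold Ex
  refine Finset.sum_congr rfl fun S hS => ?_
  rw [h S (by exact_mod_cast Finset.mem_powerset.1 hS)]

lemma Ex_congr_w {F : Finset E} {w w' : E → ℝ} (f : Set E → ℝ)
    (h : ∀ e ∈ F, w e = w' e) : Ex F w f = Ex F w' f := by
  unfold Ex wt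
  refine Finset.sum_congr rfl fun S _ => ?_
  congr 1
  exact Finset.prod_congr rfl fun e he => by rw [h e he]

lemma Ex_add (F : Finset E) (w : E → ℝ) (f g : Set E → ℝ) :
    Ex F w (fun ω => f ω + g ω) = Ex F w f + Ex F w g := by
  simp [Ex, mul_add, Finset.sum_add_distrib]

lemma Ex_sub (F : Finset E) (w : E → ℝ) (f g : Set E → ℝ) :
    Ex F w (fun ω => f ω - g ω) = Ex F w f - Ex F w g := by
  simp [Ex, mul_sub, Finset.sum_sub_distrib]

lemma Ex_neg (F : Finset E) (w : E → ℝ) (f : Set E → ℝ) :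
    Ex F w (fun ω => - f ω) = - Ex F w f := by
  simp [Ex, Finset.sum_neg_distrib]

lemma Ex_const_mul (F : Finset E) (w : E → ℝ) (c : ℝ) (f : Set E → ℝ) :
    Ex F w (fun ω => c * f ω) = c * Ex F w f := by
  simp only [Ex, Finset.mul_sum]
  exact Finset.sum_congr rfl fun S _ => by ring

lemma Ex_mul_const (F : Finset E) (w : E → ℝ) (c : ℝ) (f : Set E → ℝ) :
    Ex F w (fun ω => f ω * c) = Ex F w f * c := by
  rw [mul_comm, ← Ex_const_mul]; simp [mul_comm]

lemma Ex_sum {ι : Type*} (F : Finset E) (w : E → ℝ) (s : Finset ι) (f : ι → Set E → ℝ) :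
    Ex F w (fun ω => ∑ i ∈ s, f i ω) = ∑ i ∈ s, Ex F w (f i) := by
  simp only [Ex, Finset.mul_sum]
  rw [Finset.sum_comm]

@[simp] lemma Ex_const (F : Finset E) (w : E → ℝ) (c : ℝ) : Ex F w (fun _ => c) = c := by
  induction F using Finset.induction_on with
  | empty => simp
  | insert a F ha ih => rw [Ex_insert ha, ih]; ring

lemma Ex_mono {F : Finset E} {w : E → ℝ} (hw : Ok w) {f g : Set E → ℝ}
    (h : ∀ ω : Set E, ω ⊆ F → f ω ≤ g ω) : Ex F w f ≤ Ex F w g := by
  unfold Ex
  refine Finset.sum_le_sum fun S hS => ?_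
  exact mul_le_mul_of_nonneg_left (h S (by exact_mod_cast Finset.mem_powerset.1 hS))
    (wt_nonneg hw S)

lemma Ex_nonneg {F : Finset E} {w : E → ℝ} (hw : Ok w) {f : Set E → ℝ}
    (h : ∀ ω : Set E, ω ⊆ F → 0 ≤ f ω) : 0 ≤ Ex F w f := by
  have := Ex_mono (F := F) hw (f := fun _ => 0) (g := f) h
  simpa using this

lemma Ex_le_const {F : Finset E} {w : E → ℝ} (hw : Ok w) {f : Set E → ℝ} {c : ℝ}
    (h : ∀ ω : Set E, ω ⊆ F → f ω ≤ c) : Ex F w f ≤ c := by
  have := Ex_mono (F := F) hw (f := f) (g := fun _ => c) h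
  simpa using this

lemma le_Ex_const {F : Finset E} {w : E → ℝ} (hw : Ok w) {f : Set E → ℝ} {c : ℝ}
    (h : ∀ ω : Set E, ω ⊆ F → c ≤ f ω) : c ≤ Ex F w f := by
  have := Ex_mono (F := F) hw (f := fun _ => c) (g := f) h
  simpa using this

lemma Ex_swap {E' : Type*} (F : Finset E) (w : E → ℝ) (F' : Finset E') (w' : E' → ℝ)
    (f : Set E → Set E' → ℝ) :
    Ex F w (fun ω => Ex F' w' (fun η => f ω η)) = Ex F' w' (fun η => Ex F w (fun ω => f ω η)) := by
  simp only [Ex, Finset.mul_sum]
  rw [Finset.sum_comm]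
  refine Finset.sum_congr rfl fun _ _ => Finset.sum_congr rfl fun _ _ => by ring

/-- Harris inequality. -/
lemma harris (F : Finset E) {w : E → ℝ} (hw : Ok w) {f g : Set E → ℝ}
    (hf : Monotone f) (hg : Monotone g) :
    Ex F w f * Ex F w g ≤ Ex F w (fun ω => f ω * g ω) := by
  induction F using Finset.induction_on generalizing f g with
  | empty => simp
  | insert a F ha ih =>
    rw [Ex_insert ha, Ex_insert ha, Ex_insert ha]
    have hf1 : Monotone fun ω => f (insert a ω) :=
      fun _ _ h => hf (Set.insert_subset_insert h)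
    have hg1 : Monotone fun ω => g (insert a ω) :=
      fun _ _ h => hg (Set.insert_subset_insert h)
    have h1 := ih hf1 hg1
    have h0 := ih hf hg
    have hfa : Ex F w f ≤ Ex F w fun ω => f (insert a ω) :=
      Ex_mono hw fun ω _ => hf (Set.subset_insert a ω)
    have hga : Ex F w g ≤ Ex F w fun ω => g (insert a ω) :=
      Ex_mono hw fun ω _ => hg (Set.subset_insert a ω)
    obtain ⟨h0a, h1a⟩ := hw a
    set A1 := Ex F w fun ω => f (insert a ω)
    set A0 := Ex F w f
    set B1 := Ex F w fun ω => g (insert a ω)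
    set B0 := Ex F w g
    have k1 := mul_le_mul_of_nonneg_left h1 h0a
    have k0 := mul_le_mul_of_nonneg_left h0 (sub_nonneg.2 h1a)
    have k2 : 0 ≤ w a * (1 - w a) * ((A1 - A0) * (B1 - B0)) :=
      mul_nonneg (mul_nonneg h0a (sub_nonneg.2 h1a))
        (mul_nonneg (sub_nonneg.2 hfa) (sub_nonneg.2 hga))
    nlinarith

lemma harris_anti (F : Finset E) {w : E → ℝ} (hw : Ok w) {f g : Set E → ℝ}
    (hf : Monotone f) (hg : Antitone g) :
    Ex F w (fun ω => f ω * g ω) ≤ Ex F w f * Ex F w g := by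
  have := harris F hw hf (g := fun ω => - g ω) (fun _ _ h => neg_le_neg (hg h))
  rw [Ex_neg] at this
  have h2 : Ex F w (fun ω => f ω * - g ω) = - Ex F w (fun ω => f ω * g ω) := by
    rw [← Ex_neg]; simp
  linarith

lemma harris_anti2 (F : Finset E) {w : E → ℝ} (hw : Ok w) {f g : Set E → ℝ}
    (hf : Antitone f) (hg : Antitone g) :
    Ex F w f * Ex F w g ≤ Ex F w (fun ω => f ω * g ω) := by
  have := harris F hw (f := fun ω => - f ω) (g := fun ω => - g ω)
    (fun _ _ h => neg_le_neg (hf h)) (fun _ _ h => neg_le_neg (hg h))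
  rw [Ex_neg, Ex_neg] at this
  simpa using this

/-- `ω` on `N`, `η` off `N`. -/
def mix (N ω η : Set E) : Set E := (ω ∩ N) ∪ (η \ N)

lemma mem_mix {N ω η : Set E} {e : E} :
    e ∈ mix N ω η ↔ (e ∈ ω ∧ e ∈ N) ∨ (e ∈ η ∧ e ∉ N) := Iff.rfl

lemma mix_subset {N ω η F : Set E} (h1 : ω ⊆ F) (h2 : η ⊆ F) : mix N ω η ⊆ F := by
  rintro e (h | h)
  · exact h1 h.1
  · exact h2 h.1

/-- Resampling outside a stopping set. -/
lemma resample (F : Finset E) (w : E → ℝ) (N : Set E → Set E)
    (hN : ∀ ω η, N (mix (N ω) ω η) = N ω) (f : Set E → ℝ) :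
    Ex F w f = Ex F w (fun ω => Ex F w (fun η => f (mix (N ω) ω η))) := by
  have h1 : Ex F w f = ∑ x ∈ F.powerset ×ˢ F.powerset, wt F w x.1 * wt F w x.2 * f x.1 := by
    rw [Finset.sum_product]
    have : Ex F w f = Ex F w (fun ω => Ex F w (fun _ => f ω)) := by simp
    rw [this]
    simp only [Ex, Finset.mul_sum]
    refine Finset.sum_congr rfl fun _ _ => Finset.sum_congr rfl fun _ _ => by ring
  have h2 : Ex F w (fun ω => Ex F w (fun η => f (mix (N ω) ω η)))
      = ∑ x ∈ F.powerset ×ˢ F.powerset,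
          wt F w x.1 * wt F w x.2 * f (mix (N x.1) x.1 x.2) := by
    rw [Finset.sum_product]
    simp only [Ex, Finset.mul_sum]
    refine Finset.sum_congr rfl fun _ _ => Finset.sum_congr rfl fun _ _ => by ring
  rw [h1, h2]
  let m : Set E → Finset E → Finset E → Finset E := fun M S T =>
    S.filter (· ∈ M) ∪ T.filter (· ∉ M)
  have hm : ∀ M S T, ((m M S T : Finset E) : Set E) = mix M S T := by
    intro M S T; ext e; simp [m, mem_mix]
  let σ : Finset E × Finset E → Finset E × Finset E := fun x =>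
    (m (N x.1) x.1 x.2, m (N x.1) x.2 x.1)
  have hσ : ∀ x, σ (σ x) = x := by
    rintro ⟨S, T⟩
    simp only [σ, hm, hN]
    refine Prod.ext ?_ ?_ <;> ext e <;> simp only [m, Finset.mem_union, Finset.mem_filter] <;>
      tauto
  have hmem : ∀ x ∈ F.powerset ×ˢ F.powerset, σ x ∈ F.powerset ×ˢ F.powerset := by
    rintro ⟨S, T⟩ hx
    simp only [Finset.mem_product, Finset.mem_powerset] at hx ⊢
    constructor <;> intro e he <;>
      simp only [σ, m, Finset.mem_union, Finset.mem_filter] at he <;>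
      rcases he with he | he
    · exact hx.1 he.1
    · exact hx.2 he.1
    · exact hx.2 he.1
    · exact hx.1 he.1
  symm
  refine Finset.sum_nbij' σ σ hmem hmem (fun x _ => hσ x) (fun x _ => hσ x) ?_
  rintro ⟨S, T⟩ _
  simp only [σ, hm]
  congr 1
  unfold wt
  rw [← Finset.prod_mul_distrib, ← Finset.prod_mul_distrib]
  refine Finset.prod_congr rfl fun e _ => ?_
  simp only [m, Finset.mem_union, Finset.mem_filter]
  by_cases h : e ∈ N S <;> simp [h, mul_comm]

lemma resample_fixed (F : Finset E) (w : E → ℝ) (N : Set E) (f : Set E → ℝ) :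
    Ex F w f = Ex F w (fun ω => Ex F w (fun η => f (mix N ω η))) :=
  resample F w (fun _ => N) (fun _ _ => rfl) f

/-- independence -/
lemma Ex_indep (F : Finset E) (w : E → ℝ) (N : Set E) {f g : Set E → ℝ}
    (hf : ∀ ω η, f (mix N ω η) = f ω) (hg : ∀ ω η, g (mix N ω η) = g η) :
    Ex F w (fun ω => f ω * g ω) = Ex F w f * Ex F w g := by
  rw [resample_fixed F w N]
  simp only [hf, hg, Ex_const_mul, Ex_mul_const]

/-- weights conditioned on the state `ω` of the edges in `N` -/
noncomputable def condW (N ω : Set E) (w : E → ℝ) : E → ℝ :=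
  fun e => if e ∈ N then (if e ∈ ω then 1 else 0) else w e

lemma condW_ok {N ω : Set E} {w : E → ℝ} (hw : Ok w) : Ok (condW N ω w) := by
  intro e
  unfold condW
  have := hw e
  split_ifs <;> simp [this.1, this.2]

lemma Ex_condW' (F : Finset E) (w : E → ℝ) (N ω : Set E) (f : Set E → ℝ) :
    Ex F (condW N ω w) f = Ex F w (fun η => f (mix N (ω ∩ F) η)) := by
  induction F using Finset.induction_on generalizing f with
  | empty => simp [mix]
  | insert a F ha ih =>
    rw [Ex_insert ha, Ex_insert ha, ih, ih]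
    by_cases hN : a ∈ N
    · by_cases hω : a ∈ ω
      · have e1 : ∀ η, mix N (ω ∩ ↑(insert a F)) (insert a η) = insert a (mix N (ω ∩ F) η) := by
          intro η; ext e; by_cases h : e = a <;> simp [mem_mix, h, hN, hω]
        have e2 : ∀ η, mix N (ω ∩ ↑(insert a F)) η = insert a (mix N (ω ∩ F) η) := by
          intro η; ext e; by_cases h : e = a <;> simp [mem_mix, h, hN, hω]
        simp only [e1, e2, condW, hN, hω, if_true]; ring
      · have e1 : ∀ η, mix N (ω ∩ ↑(insert a F)) (insert a η) = mix N (ω ∩ F) η := by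
          intro η; ext e; by_cases h : e = a <;> simp [mem_mix, h, hN, hω]
        have e2 : ∀ η, mix N (ω ∩ ↑(insert a F)) η = mix N (ω ∩ F) η := by
          intro η; ext e; by_cases h : e = a <;> simp [mem_mix, h, hN, hω]
        simp only [e1, e2, condW, hN, hω, if_true, if_false]; ring
    · have e1 : ∀ η, mix N (ω ∩ ↑(insert a F)) (insert a η) = insert a (mix N (ω ∩ F) η) := by
        intro η; ext e; by_cases h : e = a <;> simp [mem_mix, h, hN]
      have e2 : ∀ η, mix N (ω ∩ ↑(insert a F)) η = mix N (ω ∩ F) η := by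
        intro η; ext e; by_cases h : e = a <;> simp [mem_mix, h, hN]
      simp only [e1, e2, condW, hN, if_false]

lemma Ex_condW (F : Finset E) (w : E → ℝ) (N : Set E) {ω : Set E} (hω : ω ⊆ F)
    (f : Set E → ℝ) : Ex F (condW N ω w) f = Ex F w (fun η => f (mix N ω η)) := by
  rw [Ex_condW', Set.inter_eq_left.2 hω]

lemma Ex_restrict (F : Finset E) (w : E → ℝ) (U : Set E) (f : Set E → ℝ) :
    Ex F w (fun ω => f (ω ∩ U)) = Ex (F.filter (· ∈ U)) w f := by
  induction F using Finset.induction_on generalizing f with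
  | empty => simp
  | insert a F ha ih =>
    rw [Ex_insert ha, Finset.filter_insert]
    by_cases hU : a ∈ U
    · rw [if_pos hU, Ex_insert (by simp [ha]), ← ih, ← ih]
      have : ∀ ω : Set E, insert a ω ∩ U = insert a (ω ∩ U) := by
        intro ω; ext e; by_cases h : e = a <;> simp [h, hU]
      simp only [this]
    · rw [if_neg hU, ← ih]
      have : ∀ ω : Set E, insert a ω ∩ U = ω ∩ U := by
        intro ω; ext e; by_cases h : e = a <;> simp [h, hU]
      simp only [this]; ring

lemma Ex_restrict' {F F' : Finset E} (w : E → ℝ) {U : Set E} (h : ∀ e, e ∈ F' ↔ e ∈ F ∧ e ∈ U)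
    (f : Set E → ℝ) : Ex F w (fun ω => f (ω ∩ U)) = Ex F' w f := by
  rw [Ex_restrict]
  congr 1
  ext e; simp [h]

lemma Ex_map {E' : Type*} (φ : E ↪ E') (F : Finset E) (w : E' → ℝ) (f : Set E' → ℝ) :
    Ex (F.map φ) w f = Ex F (fun e => w (φ e)) (fun ω => f (φ '' ω)) := by
  induction F using Finset.induction_on generalizing f with
  | empty => simp
  | insert a F ha ih =>
    rw [Finset.map_insert, Ex_insert (by simpa using ha), Ex_insert ha, ih, ih]
    simp only [Set.image_insert_eq]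

lemma Ex_mono_w (F : Finset E) {w w' : E → ℝ} (hw : Ok w) (hw' : Ok w')
    (h : ∀ e ∈ F, w e ≤ w' e) {f : Set E → ℝ} (hf : Monotone f) : Ex F w f ≤ Ex F w' f := by
  induction F using Finset.induction_on generalizing f with
  | empty => simp
  | insert a F ha ih =>
    rw [Ex_insert ha, Ex_insert ha]
    have hf1 : Monotone fun ω => f (insert a ω) :=
      fun _ _ h => hf (Set.insert_subset_insert h)
    have h' : ∀ e ∈ F, w e ≤ w' e := fun e he => h e (Finset.mem_insert_of_mem he)
    have h1 := ih h' hf1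
    have h0 := ih h' hf
    have hfa : Ex F w' f ≤ Ex F w' fun ω => f (insert a ω) :=
      Ex_mono hw' fun ω _ => hf (Set.subset_insert a ω)
    have ha' := h a (Finset.mem_insert_self a F)
    obtain ⟨h0a, h1a⟩ := hw a
    nlinarith [mul_le_mul_of_nonneg_left h1 h0a, mul_le_mul_of_nonneg_left h0 (sub_nonneg.2 h1a),
      mul_nonneg (sub_nonneg.2 ha') (sub_nonneg.2 hfa)]

lemma Ex_continuous (F : Finset E) (w : ℝ → E → ℝ) (hw : ∀ e, Continuous fun s => w s e)
    (f : Set E → ℝ) : Continuous fun s => Ex F (w s) f := by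
  unfold Ex wt
  refine continuous_finset_sum _ fun S _ => Continuous.mul ?_ continuous_const
  refine continuous_finset_prod _ fun e _ => ?_
  split_ifs
  · exact hw e
  · exact continuous_const.sub (hw e)

lemma Ex_ge_closed {F : Finset E} {w : E → ℝ} (hw : Ok w) {f : Set E → ℝ}
    (h : ∀ ω : Set E, ω ⊆ F → 0 ≤ f ω) : (∏ e ∈ F, (1 - w e)) * f ∅ ≤ Ex F w f := by
  unfold Ex
  have := Finset.single_le_sum (s := F.powerset) (f := fun S => wt F w S * f S)
    (fun S hS => mul_nonneg (wt_nonneg hw S)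
      (h S (by exact_mod_cast Finset.mem_powerset.1 hS))) (Finset.empty_mem_powerset F)
  simpa [wt] using this

/-- indicator -/
noncomputable def ind (P : Prop) : ℝ := if P then 1 else 0

@[simp] lemma ind_true {P : Prop} (h : P) : ind P = 1 := by simp [ind, h]
@[simp] lemma ind_false {P : Prop} (h : ¬ P) : ind P = 0 := by simp [ind, h]
lemma ind_nonneg (P : Prop) : 0 ≤ ind P := by unfold ind; split_ifs <;> norm_num
lemma ind_le_one (P : Prop) : ind P ≤ 1 := by unfold ind; split_ifs <;> norm_num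
lemma ind_mono {P Q : Prop} (h : P → Q) : ind P ≤ ind Q := by
  unfold ind; by_cases hP : P
  · simp [hP, h hP]
  · simp only [hP, if_false]; split_ifs <;> norm_num
lemma ind_congr {P Q : Prop} (h : P ↔ Q) : ind P = ind Q := by rw [propext h]
lemma ind_and (P Q : Prop) : ind (P ∧ Q) = ind P * ind Q := by
  unfold ind; by_cases hP : P <;> by_cases hQ : Q <;> simp [hP, hQ]
lemma ind_not (P : Prop) : ind (¬ P) = 1 - ind P := by
  unfold ind; by_cases hP : P <;> simp [hP]
lemma ind_or_le (P Q : Prop) : ind (P ∨ Q) ≤ ind P + ind Q := by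
  unfold ind; by_cases hP : P <;> by_cases hQ : Q <;> simp [hP, hQ]

/-- probability of an event -/
noncomputable def Pr (F : Finset E) (w : E → ℝ) (A : Set E → Prop) : ℝ :=
  Ex F w (fun ω => ind (A ω))

lemma Pr_nonneg {F : Finset E} {w : E → ℝ} (hw : Ok w) (A : Set E → Prop) : 0 ≤ Pr F w A :=
  Ex_nonneg hw fun _ _ => ind_nonneg _

lemma Pr_le_one {F : Finset E} {w : E → ℝ} (hw : Ok w) (A : Set E → Prop) : Pr F w A ≤ 1 :=
  Ex_le_const hw fun _ _ => ind_le_one _

lemma Pr_mono {F : Finset E} {w : E → ℝ} (hw : Ok w) {A B : Set E → Prop}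
    (h : ∀ ω : Set E, ω ⊆ F → A ω → B ω) : Pr F w A ≤ Pr F w B :=
  Ex_mono hw fun ω hω => ind_mono (h ω hω)

lemma Pr_congr {F : Finset E} {w : E → ℝ} {A B : Set E → Prop}
    (h : ∀ ω : Set E, ω ⊆ F → (A ω ↔ B ω)) : Pr F w A = Pr F w B :=
  Ex_congr fun ω hω => ind_congr (h ω hω)

lemma Pr_not (F : Finset E) (w : E → ℝ) (A : Set E → Prop) :
    Pr F w (fun ω => ¬ A ω) = 1 - Pr F w A := by
  unfold Pr
  simp only [ind_not]
  rw [Ex_sub]; simp

lemma Pr_le_add {F : Finset E} {w : E → ℝ} (hw : Ok w) {A B C : Set E → Prop}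
    (h : ∀ ω : Set E, ω ⊆ F → A ω → B ω ∨ C ω) : Pr F w A ≤ Pr F w B + Pr F w C := by
  unfold Pr
  rw [← Ex_add]
  exact Ex_mono hw fun ω hω => (ind_mono (h ω hω)).trans (ind_or_le _ _)

lemma Pr_le_sum {ι : Type*} {F : Finset E} {w : E → ℝ} (hw : Ok w) {A : Set E → Prop}
    (s : Finset ι) {B : ι → Set E → Prop}
    (h : ∀ ω : Set E, ω ⊆ F → A ω → ∃ i ∈ s, B i ω) : Pr F w A ≤ ∑ i ∈ s, Pr F w (B i) := by
  unfold Pr
  rw [← Ex_sum]
  refine Ex_mono hw fun ω hω => ?_
  by_cases hA : A ω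
  · obtain ⟨i, hi, hB⟩ := h ω hω hA
    rw [ind_true hA]
    have := Finset.single_le_sum (s := s) (f := fun i => ind (B i ω))
      (fun i _ => ind_nonneg _) hi
    simpa [ind_true hB] using this
  · rw [ind_false hA]; exact Finset.sum_nonneg fun i _ => ind_nonneg _

/-- all edges of `s` open -/
lemma Pr_open {F s : Finset E} (hs : s ⊆ F) (w : E → ℝ) :
    Pr F w (fun ω => (s : Set E) ⊆ ω) = ∏ e ∈ s, w e := by
  have h1 : Pr F w (fun ω => (s : Set E) ⊆ ω)
      = Ex F w (fun ω => (fun η => ind ((s : Set E) ⊆ η)) (ω ∩ s)) := by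
    refine Ex_congr fun ω _ => ind_congr ?_
    simp
  rw [h1, Ex_restrict' (F' := s) w (fun e => ⟨fun h => ⟨hs h, h⟩, fun h => h.2⟩)
    (fun η => ind ((s : Set E) ⊆ η))]
  unfold Ex
  rw [Finset.sum_eq_single s]
  · simp only [subset_refl, ind_true, mul_one, wt]
    exact Finset.prod_congr rfl fun e he => by simp [he]
  · intro S hS hne
    beta_reduce
    rw [ind_false, mul_zero]
    intro h
    exact hne (Finset.Subset.antisymm (Finset.mem_powerset.1 hS) (by exact_mod_cast h))
  · intro h; exact absurd (Finset.mem_powerset_self s) h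

/-- all edges of `s` closed -/
lemma Pr_closed {F s : Finset E} (hs : s ⊆ F) (w : E → ℝ) :
    Pr F w (fun ω => ∀ e ∈ s, e ∉ ω) = ∏ e ∈ s, (1 - w e) := by
  have h1 : Pr F w (fun ω => ∀ e ∈ s, e ∉ ω)
      = Ex F w (fun ω => (fun η => ind (∀ e ∈ s, e ∉ η)) (ω ∩ s)) := by
    refine Ex_congr fun ω _ => ind_congr ?_
    simp only [Set.mem_inter_iff, Finset.mem_coe]
    exact ⟨fun h e he h' => h e he h'.1, fun h e he h' => h e he ⟨h', he⟩⟩
  rw [h1, Ex_restrict' (F' := s) w (fun e => ⟨fun h => ⟨hs h, h⟩, fun h => h.2⟩)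
    (fun η => ind (∀ e ∈ s, e ∉ η))]
  unfold Ex
  rw [Finset.sum_eq_single ∅]
  · simp [wt]
  · intro S hS hne
    beta_reduce
    rw [ind_false, mul_zero]
    intro h
    obtain ⟨e, he⟩ := Finset.nonempty_iff_ne_empty.2 hne
    exact h e (Finset.mem_powerset.1 hS he) (by exact_mod_cast he)
  · intro h; exact absurd (Finset.empty_mem_powerset s) h

end Vale.Agent.P151
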