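import Vale.Agent.P151.Coarse

/-! Base estimates: the seed reaches far, and leaves every strip. -/

open Classical Finset

namespace Vale.Agent.P151

variable {V : Type*} {G : SimpleGraph V}

def far (G : SimpleGraph V) (o : V) (R : ℕ) (ω : Set (Sym2 V)) : Prop :=
  ∃ u ∉ ball G o R, Conn ω o u

noncomputable def Fb {Δ : ℕ} (hΔ : DegLe G Δ) (o : V) (R : ℕ) : Finset (Sym2 V) :=
  (inE_finite hΔ o R).toFinset

lemma mem_Fb {Δ : ℕ} (hΔ : DegLe G Δ) {o : V} {R : ℕ} {e : Sym2 V} :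
    e ∈ Fb hΔ o R ↔ e ∈ inE G (ball G o R) := Set.Finite.mem_toFinset _

lemma Fb_sub {Δ : ℕ} (hΔ : DegLe G Δ) (o : V) (R : ℕ) :
    (Fb hΔ o R : Set (Sym2 V)) ⊆ G.edgeSet := fun _ he => ((mem_Fb hΔ).1 he).1

lemma far_mono {o : V} {R : ℕ} {ω η : Set (Sym2 V)} (h : ω ⊆ η) (hf : far G o R ω) :
    far G o R η := by
  obtain ⟨u, hu, hc⟩ := hf
  exact ⟨u, hu, hc.mono h⟩

lemma far_anti {o : V} {R R' : ℕ} (h : R ≤ R') {ω : Set (Sym2 V)} (hf : far G o R' ω) :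
    far G o R ω := by
  obtain ⟨u, hu, hc⟩ := hf
  exact ⟨u, fun h' => hu (ball_mono o h h'), hc⟩

lemma far_local {o : V} {R : ℕ} {ω : Set (Sym2 V)} (hω : ω ⊆ G.edgeSet) (hf : far G o R ω) :
    far G o R (ω ∩ inE G (ball G o (R + 1))) := by
  obtain ⟨u, hu, hc⟩ := hf
  obtain ⟨a, b, h1, h2, h3, h4⟩ := exit_of_conn hω hc (self_mem_ball o R) hu
  refine ⟨b, h4, Conn.tail (h1.mono (Set.inter_subset_inter_right _
    (inE_mono (ball_mono o (Nat.le_succ R))))) ⟨h3, ?_⟩⟩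
  exact mk_mem_inE.2 ⟨hω h3, ball_mono o (Nat.le_succ R) h2, ball_adj h2 (hω h3)⟩

/-- the one-arm probability -/
noncomputable def arm {Δ : ℕ} (hΔ : DegLe G Δ) (o : V) (p : ℝ) (R : ℕ) : ℝ :=
  Pr (Fb hΔ o (R + 1)) (fun _ => p) (far G o R)

lemma arm_eq {Δ : ℕ} (hΔ : DegLe G Δ) (o : V) (p : ℝ) (R : ℕ) {F : Finset (Sym2 V)}
    (hF : (F : Set (Sym2 V)) ⊆ G.edgeSet) (h : inE G (ball G o (R + 1)) ⊆ F) :
    Pr F (fun _ => p) (far G o R) = arm hΔ o p R := by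
  unfold arm Pr
  rw [← Ex_restrict' (F := F) (F' := Fb hΔ o (R + 1)) (U := inE G (ball G o (R + 1))) _
    (fun e => by rw [mem_Fb]; exact ⟨fun h' => ⟨h h', h'⟩, fun h' => h'.2⟩)]
  exact Ex_congr fun ω hω => ind_congr
    ⟨far_local (hω.trans hF), far_mono Set.inter_subset_left⟩

lemma Ex_wS {F : Finset (Sym2 V)} {S : Set (Sym2 V)} (hS : S ⊆ F) (p : ℝ)
    (f : Set (Sym2 V) → ℝ) : Ex F (wS p S) f = Ex F (fun _ => p) (fun η => f (η ∪ S)) := by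
  unfold wS
  rw [Ex_condW']
  refine Ex_congr fun η _ => ?_
  congr 1
  ext e
  have := @hS e
  simp only [mem_mix, Set.mem_inter_iff, Set.mem_univ, true_and, Set.mem_union]
  tauto

lemma base {Δ : ℕ} (hΔ : DegLe G Δ) (o : V) {p θ : ℝ} (hp0 : 0 ≤ p) (hp1 : p ≤ 1) (hθ : 0 < θ)
    (h : ∀ R, θ ≤ arm hΔ o p R) {ε : ℝ} (hε : 0 < ε) : ∃ m, ∀ R, m ≤ R → ∀ F : Finset (Sym2 V),
      (F : Set (Sym2 V)) ⊆ G.edgeSet → inE G (ball G o (R + 1)) ⊆ F →
      Pr F (wS p (inE G (ball G o m))) (fun ω => ¬ far G o R ω) ≤ ε := by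
  have hw : Ok (fun _ : Sym2 V => p) := fun _ => ⟨hp0, hp1⟩
  have hbdd : BddBelow (Set.range (arm hΔ o p)) := ⟨θ, by rintro _ ⟨R, rfl⟩; exact h R⟩
  set θ0 := ⨅ R, arm hΔ o p R with hθ0
  have h1 : θ ≤ θ0 := le_ciInf h
  have h2 : ∀ R, θ0 ≤ arm hΔ o p R := fun R => ciInf_le hbdd R
  obtain ⟨m0, hm0⟩ := exists_lt_of_ciInf_lt (f := arm hΔ o p) (a := θ0 + ε * θ0)
    (by rw [← hθ0]; nlinarith)
  refine ⟨m0 + 1, fun R hR F hF hFR => ?_⟩
  set S := inE G (ball G o (m0 + 1)) with hS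
  have hSF : S ⊆ F := (inE_mono (ball_mono o (by omega))).trans hFR
  unfold Pr
  rw [Ex_wS hSF]
  have a1 := arm_eq hΔ o p m0 hF hSF
  have a2 := arm_eq hΔ o p R hF hFR
  have a3 := Ex_indep F (fun _ => p) S (f := fun ω => ind (far G o m0 (ω ∩ S)))
    (g := fun ω => ind (¬ far G o R (ω ∪ S)))
    (fun ω η => by
      have : mix S ω η ∩ S = ω ∩ S := by ext e; simp only [mem_mix, Set.mem_inter_iff]; tauto
      rw [this])
    (fun ω η => by
      have : mix S ω η ∪ S = η ∪ S := by ext e; simp only [mem_mix, Set.mem_union]; tauto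
      rw [this])
  have a4 : Ex F (fun _ => p) (fun ω => ind (far G o m0 (ω ∩ S))) = arm hΔ o p m0 := by
    rw [← a1]
    exact Ex_congr fun ω hω => ind_congr
      ⟨far_mono Set.inter_subset_left, far_local (hω.trans hF)⟩
  have a5 : Ex F (fun _ => p) (fun ω => ind (far G o m0 (ω ∩ S)) * ind (¬ far G o R (ω ∪ S)))
      ≤ arm hΔ o p m0 - arm hΔ o p R := by
    rw [← a1, ← a2]
    unfold Pr
    rw [← Ex_sub]
    refine Ex_mono hw fun ω _ => ?_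
    rw [← ind_and]
    by_cases hc : far G o m0 (ω ∩ S) ∧ ¬ far G o R (ω ∪ S)
    · rw [ind_true hc, ind_true (far_mono Set.inter_subset_left hc.1),
        ind_false fun h' => hc.2 (far_mono Set.subset_union_left h')]
      norm_num
    · rw [ind_false hc]
      exact sub_nonneg.2 (ind_mono (far_anti (by omega)))
  rw [a3, a4] at a5
  have a6 := h2 R
  have a7 := h2 m0
  have a8 : 0 ≤ Ex F (fun _ => p) (fun ω => ind (¬ far G o R (ω ∪ S))) :=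
    Ex_nonneg hw fun _ _ => ind_nonneg _
  by_contra hc
  push Not at hc
  nlinarith

def Spread (G : SimpleGraph V) (x y : V → ℝ) : Prop :=
  ∀ l : ℝ, 0 < l → ∃ D : ℕ, ∀ α β : ℝ, l ≤ |α| + |β| → ∀ a, ∃ u ∈ ball G a D,
    1 < |α * x u + β * y u|

lemma strip {Δ : ℕ} (hΔ : DegLe G Δ) {o : V} {p ε : ℝ} (hp0 : 0 < p) (hp1 : p < 1)
    {x y : V → ℝ} (hS : Spread G x y) {m : ℕ} (hε : 0 < ε)
    (hb : ∀ R, m ≤ R → ∀ F : Finset (Sym2 V),
      (F : Set (Sym2 V)) ⊆ G.edgeSet → inE G (ball G o (R + 1)) ⊆ F →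
      Pr F (wS p (inE G (ball G o m))) (fun ω => ¬ far G o R ω) ≤ ε)
    {l : ℝ} (hl : 0 < l) : ∃ r0, m + 1 ≤ r0 ∧ ∀ α β : ℝ, l ≤ |α| + |β| →
      ∀ F : Finset (Sym2 V), inE G (ball G o r0) ⊆ F →
      Pr F (wS p (inE G (ball G o m))) (fun ω =>
        o ∉ cl {u | 1 < |α * x u + β * y u|} (ω ∩ inE G (ball G o r0))) ≤ 2 * ε := by
  obtain ⟨D, hD⟩ := hS l hl
  obtain ⟨ε', hε', hst⟩ := step hΔ hε
  obtain ⟨J, hJ⟩ := hst p p hp0 hp1.le hp0.le hp1 D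
  set r1 := m + D + J with hr1
  refine ⟨r1 + 2 * D + 2, by omega, fun α β hαβ F hF => ?_⟩
  set w := wS p (inE G (ball G o m)) with hwdef
  have hw : Ok w := wS_ok hp0.le hp1.le _
  set T := {u | 1 < |α * x u + β * y u|}
  unfold Pr
  rw [Ex_restrict' (F := F) (F' := Fb hΔ o (r1 + 2 * D + 2)) _
    (fun e => by rw [mem_Fb]; exact ⟨fun h' => ⟨hF h', h'⟩, fun h' => h'.2⟩)
    (fun ω => ind (o ∉ cl T ω))]
  have hout : ∀ v ∈ nb G (ball G o r1)ᶜ (D + J), v ∉ ball G o m := by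
    intro v hv hvm
    obtain ⟨a, ha, hva⟩ := mem_nb_iff.1 hv
    exact ha (ball_mono o (by omega) (ball_trans hvm (ball_symm hva)))
  have a1 := hJ (Fb hΔ o (r1 + 2 * D + 2)) w (ball G o r1)ᶜ T o (Fb_sub hΔ o _) hw
    (fun h => hout o h (self_mem_ball _ _))
    (by
      rintro e _ ⟨v, hv, hve⟩
      rw [hwdef, wS_of_not_mem fun h => hout v hv (h.2 v hve)])
    (by
      intro a _ ha
      rw [compl_compl] at ha
      have ha' : a ∈ ball G o (r1 + (D + 1)) := by rw [ball, ← nb_nb]; exact ha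
      constructor
      · intro e he
        refine ⟨(mem_Fb hΔ).2 (inE_mono (fun v hv => ?_) he), wS_ge hp1.le _ _⟩
        exact ball_mono o (by omega) (ball_trans ha' hv)
      · obtain ⟨u, hu1, hu2⟩ := hD α β hαβ a
        refine Ex_le_const hw fun η _ => ?_
        rw [ind_false]
        · exact hε'.le
        · exact not_not.2 ⟨u, hu2, (conn_of_ball Set.subset_union_right hu1).symm⟩)
  have a2 := hb r1 (by omega) (Fb hΔ o (r1 + 2 * D + 2)) (Fb_sub hΔ o _)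
    (fun e he => (mem_Fb hΔ).2 (inE_mono (ball_mono o (by omega)) he))
  refine le_trans (Pr_le_add hw fun ω _ h => ?_) ((add_le_add a1 a2).trans (by linarith))
  by_cases hf : far G o r1 ω
  · obtain ⟨u, hu, hc⟩ := hf
    exact Or.inl ⟨⟨u, hu, hc.symm⟩, h⟩
  · exact Or.inr hf

lemma pigeon {E ι : Type*} {F : Finset E} {w : E → ℝ} (hw : Ok w) (I : Finset ι)
    (hI : I.Nonempty) (A : Set E → Prop) (B : ι → Set E → Prop)
    (hB : ∀ i ω η, ω ⊆ η → B i ω → B i η) (hAB : ∀ ω : Set E, ω ⊆ F → A ω → ∃ i ∈ I, B i ω)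
    {ε : ℝ} (hε : 0 < ε) (h : Pr F w (fun ω => ¬ A ω) ≤ ε ^ I.card) :
    ∃ i ∈ I, Pr F w (fun ω => ¬ B i ω) ≤ ε := by
  have key : ∀ s : Finset ι, ∏ i ∈ s, Pr F w (fun ω => ¬ B i ω)
      ≤ Pr F w (fun ω => ∀ i ∈ s, ¬ B i ω) := by
    intro s
    induction s using Finset.induction_on with
    | empty => simp [Pr]
    | insert a s ha ih =>
      rw [Finset.prod_insert ha]
      refine (mul_le_mul_of_nonneg_left ih (Pr_nonneg hw _)).trans ?_
      refine (harris_anti2 F hw (f := fun ω => ind (¬ B a ω))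
        (g := fun ω => ind (∀ i ∈ s, ¬ B i ω))
        (fun ω η hh => ind_mono fun h1 h2 => h1 (hB a ω η hh h2))
        (fun ω η hh => ind_mono fun h1 i hi h2 => h1 i hi (hB i ω η hh h2))).trans ?_
      refine le_of_eq (Ex_congr fun ω _ => ?_)
      rw [← ind_and]; exact ind_congr (by simp)
  by_contra hc
  push Not at hc
  have h1 := Finset.prod_lt_prod_of_nonempty (s := I) (f := fun _ => ε) (fun _ _ => hε) hc hI
  rw [Finset.prod_const] at h1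
  have h2 : Pr F w (fun ω => ∀ i ∈ I, ¬ B i ω) ≤ Pr F w (fun ω => ¬ A ω) :=
    Pr_mono hw fun ω hω h1 h2 => by
      obtain ⟨i, hi, hb⟩ := hAB ω hω h2
      exact h1 i hi hb
  linarith [key I]

lemma two_split {E : Type*} {F : Finset E} {w : E → ℝ} (hw : Ok w) {A B C : Set E → Prop}
    (hB : ∀ ω η, ω ⊆ η → B ω → B η) (hC : ∀ ω η, ω ⊆ η → C ω → C η)
    (hA : ∀ ω : Set E, ω ⊆ F → A ω → B ω ∨ C ω) {ε : ℝ} (hε : 0 < ε)
    (h : Pr F w (fun ω => ¬ A ω) ≤ ε ^ 2) (hb : ε < Pr F w (fun ω => ¬ B ω)) :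
    Pr F w (fun ω => ¬ C ω) ≤ ε := by
  have h1 := harris_anti2 F hw (f := fun ω => ind (¬ B ω)) (g := fun ω => ind (¬ C ω))
    (fun ω η hh => ind_mono fun h1 h2 => h1 (hB ω η hh h2))
    (fun ω η hh => ind_mono fun h1 h2 => h1 (hC ω η hh h2))
  have h2 : Ex F w (fun ω => ind (¬ B ω) * ind (¬ C ω)) ≤ Pr F w (fun ω => ¬ A ω) :=
    Ex_mono hw fun ω hω => by
      rw [← ind_and]
      exact ind_mono fun h1 h2 => (hA ω hω h2).elim h1.1 h1.2
  by_contra hc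
  push Not at hc
  unfold Pr at *
  nlinarith

/-- leaving `R` into `Q` -/
def Ext (G : SimpleGraph V) (o : V) (R Q : Set V) (ω : Set (Sym2 V)) : Prop :=
  ∃ u v, Conn (ω ∩ inE G R) o u ∧ s(u, v) ∈ ω ∧ v ∉ R ∧ v ∈ Q

lemma Ext_mono {o : V} {R Q : Set V} (ω η : Set (Sym2 V)) (h : ω ⊆ η) (he : Ext G o R Q ω) :
    Ext G o R Q η := by
  obtain ⟨u, v, h1, h2, h3, h4⟩ := he
  exact ⟨u, v, h1.mono (Set.inter_subset_inter_left _ h), h h2, h3, h4⟩

lemma Ext_shrink {o : V} {R R' Q : Set V} (ho : o ∈ R') (hR : R' ⊆ R) {ω : Set (Sym2 V)}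
    (he : Ext G o R Q ω) : Ext G o R' R ω ∨ Ext G o R' Q ω := by
  obtain ⟨u, v, h1, h2, h3, h4⟩ := he
  by_cases hu : u ∈ R'
  · by_cases hc : Conn (ω ∩ inE G R') o u
    · exact Or.inr ⟨u, v, hc, h2, fun h => h3 (hR h), h4⟩
    · left
      by_contra hn
      apply hc
      clear hc hu h2
      have : Conn (ω ∩ inE G R') o u ∧ u ∈ R' := by
        induction h1 with
        | refl => exact ⟨Conn.refl _ _, ho⟩
        | @tail a b _ h6 ih =>
          have h7 := mk_mem_inE.1 h6.2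
          have hb : b ∈ R' := by
            by_contra hb
            exact hn ⟨a, b, ih.1, h6.1, hb, h7.2.2⟩
          exact ⟨ih.1.tail ⟨h6.1, mk_mem_inE.2 ⟨h7.1, ih.2, hb⟩⟩, hb⟩
      exact this.1
  · obtain ⟨a, b, h5, _, h7, h8⟩ := exit_of_conn (G := G) (fun e he => he.2.1) h1 ho hu
    refine Or.inl ⟨a, b, h5.mono fun e he => ?_, h7.1, h8, (mk_mem_inE.1 h7.2).2.2⟩
    exact ⟨he.1.1, he.2⟩

lemma grid {a b : ℤ} (hab : a ≤ b) {z c : ℝ} (hc : 0 ≤ c) (h1 : a / 1000 - c ≤ z)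
    (h2 : z ≤ b / 1000 + c) : ∃ j ∈ Finset.Icc a b, |z - j / 1000| ≤ 1 / 1000 + c := by
  have hab' : (a : ℝ) ≤ b := by exact_mod_cast hab
  by_cases h3 : z ≤ a / 1000
  · exact ⟨a, Finset.mem_Icc.2 ⟨le_rfl, hab⟩, abs_le.2 ⟨by linarith, by linarith⟩⟩
  by_cases h4 : (b : ℝ) / 1000 ≤ z
  · exact ⟨b, Finset.mem_Icc.2 ⟨hab, le_rfl⟩, abs_le.2 ⟨by linarith, by linarith⟩⟩
  push Not at h3 h4
  have f1 := Int.floor_le (1000 * z)
  have f2 := Int.lt_floor_add_one (1000 * z)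
  refine ⟨⌊1000 * z⌋, Finset.mem_Icc.2 ⟨Int.le_floor.2 (by linarith), ?_⟩,
    abs_le.2 ⟨by linarith, by linarith⟩⟩
  have : (⌊1000 * z⌋ : ℝ) ≤ b := by linarith
  exact_mod_cast this

end Vale.Agent.P151
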