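import Vale.Agent.P151.Defs
import Vale.Agent.P151.Exit

/-! From the product measure to finite sums. -/

open Classical Finset MeasureTheory ProbabilityTheory unitInterval

namespace Vale.Agent.P151

lemma meas_cyl {E : Type*} (F S : Finset E) : MeasurableSet {ω : Set E | ω ∩ F = S} := by
  by_cases hS : S ⊆ F
  · have : {ω : Set E | ω ∩ F = S} = ⋂ e ∈ F, {ω : Set E | e ∈ ω ↔ e ∈ S} := by
      ext ω
      simp only [Set.mem_setOf_eq, Set.mem_iInter, Set.ext_iff, Set.mem_inter_iff, Finset.mem_coe]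
      refine ⟨fun h e he => by rw [← h e]; simp [he], fun h e => ⟨fun h' => (h e h'.2).1 h'.1,
        fun h' => ⟨(h e (hS h')).2 h', hS h'⟩⟩⟩
    rw [this]
    refine Finset.measurableSet_biInter F fun e _ => ?_
    by_cases he : e ∈ S
    · simpa [he] using measurableSet_mem e
    · simpa [he] using measurable_set_notMem e
  · have : {ω : Set E | ω ∩ F = S} = ∅ := by
      ext ω
      simp only [Set.mem_setOf_eq, Set.mem_empty_iff_false, iff_false]
      intro h
      exact hS (by rw [← Finset.coe_subset, ← h]; exact Set.inter_subset_right)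
    rw [this]; exact MeasurableSet.empty

lemma cyl_measure {E : Type*} (u : Set E) (p : I) {F S : Finset E} (hF : (F : Set E) ⊆ u)
    (hS : S ⊆ F) : setBernoulli u p {ω : Set E | ω ∩ F = S}
      = ENNReal.ofReal (wt F (fun _ => (p : ℝ)) S) := by
  rw [setBernoulli_apply']
  have : ((fun p : E → Prop => {i | p i}) ⁻¹' {ω : Set E | ω ∩ F = S})
      = Set.pi (F : Set E) (fun e => {P : Prop | P ↔ e ∈ S}) := by
    ext f
    simp only [Set.mem_preimage, Set.mem_setOf_eq, Set.mem_pi, Set.ext_iff, Set.mem_inter_iff,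
      Finset.mem_coe]
    refine ⟨fun h e he => by rw [← h e]; simp [he], fun h e => ⟨fun h' => (h e h'.2).1 h'.1,
        fun h' => ⟨(h e (hS h')).2 h', hS h'⟩⟩⟩
  rw [this, Measure.infinitePi_pi _ (fun _ _ => MeasurableSet.of_discrete)]
  unfold wt
  rw [ENNReal.ofReal_prod_of_nonneg (fun e _ => by
    split_ifs
    · exact p.2.1
    · linarith [p.2.2])]
  refine Finset.prod_congr rfl fun e he => ?_
  have heu : e ∈ u := hF he
  by_cases h : e ∈ S
  · rw [if_pos h, Measure.add_apply, Measure.smul_apply, Measure.smul_apply,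
      Measure.dirac_apply' _ MeasurableSet.of_discrete,
      Measure.dirac_apply' _ MeasurableSet.of_discrete]
    simp only [h, heu, Set.indicator, Set.mem_setOf_eq]
    simp [← ENNReal.ofReal_coe_nnreal]
  · rw [if_neg h, Measure.add_apply, Measure.smul_apply, Measure.smul_apply,
      Measure.dirac_apply' _ MeasurableSet.of_discrete,
      Measure.dirac_apply' _ MeasurableSet.of_discrete]
    simp only [h, heu, Set.indicator, Set.mem_setOf_eq]
    simp [← ENNReal.ofReal_coe_nnreal]

lemma local_eq {E : Type*} (F : Finset E) (A : Set E → Prop) :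
    {ω : Set E | A (ω ∩ F)} = ⋃ S ∈ F.powerset.filter (fun S : Finset E => A S),
      {ω : Set E | ω ∩ F = S} := by
  ext ω
  simp only [Set.mem_setOf_eq, Set.mem_iUnion, Finset.mem_filter, Finset.mem_powerset]
  constructor
  · intro h
    have : ((F.filter (· ∈ ω) : Finset E) : Set E) = ω ∩ F := by ext e; simp [and_comm]
    exact ⟨F.filter (· ∈ ω), ⟨Finset.filter_subset _ _, this ▸ h⟩, this.symm⟩
  · rintro ⟨S, ⟨_, h⟩, h'⟩
    rwa [h']

lemma meas_local {E : Type*} (F : Finset E) (A : Set E → Prop) :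
    MeasurableSet {ω : Set E | A (ω ∩ F)} := by
  rw [local_eq]
  exact Finset.measurableSet_biUnion _ fun S _ => meas_cyl F S

lemma local_measure {E : Type*} (u : Set E) (p : I) {F : Finset E} (hF : (F : Set E) ⊆ u)
    (A : Set E → Prop) : setBernoulli u p {ω : Set E | A (ω ∩ F)}
      = ENNReal.ofReal (Pr F (fun _ => (p : ℝ)) A) := by
  have hw : Ok (fun _ : E => (p : ℝ)) := fun _ => p.2
  rw [local_eq, measure_biUnion_finset _ (fun S _ => meas_cyl F S)]
  · unfold Pr Ex
    rw [ENNReal.ofReal_sum_of_nonneg (fun S _ => mul_nonneg (wt_nonneg hw S) (ind_nonneg _)),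
      Finset.sum_filter]
    refine Finset.sum_congr rfl fun S hS => ?_
    by_cases h : A S
    · rw [if_pos h, ind_true h, mul_one, cyl_measure u p hF (Finset.mem_powerset.1 hS)]
    · rw [if_neg h, ind_false h, mul_zero, ENNReal.ofReal_zero]
  · intro S _ T _ hST
    rw [Function.onFun, Set.disjoint_left]
    intro ω h1 h2
    exact hST (Finset.coe_injective (h1.symm.trans h2))

variable {V : Type*} {G : SimpleGraph V}

lemma conn_iff_reach {ω : Set (Sym2 V)} {x y : V} :
    Conn ω x y ↔ (SimpleGraph.fromEdgeSet ω).Reachable x y := by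
  constructor
  · intro h
    induction h with
    | refl => rfl
    | @tail a b _ h2 ih =>
      by_cases hab : a = b
      · exact hab ▸ ih
      · exact ih.trans (SimpleGraph.Adj.reachable ((SimpleGraph.fromEdgeSet_adj _).2 ⟨h2, hab⟩))
  · intro h
    rw [SimpleGraph.reachable_iff_reflTransGen] at h
    induction h with
    | refl => exact Conn.refl _ _
    | tail _ h2 ih => exact ih.tail ((SimpleGraph.fromEdgeSet_adj _).1 h2).1

lemma countable_of {Δ : ℕ} (hΔ : DegLe G Δ) (hc : G.Connected) : Countable V := by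
  obtain ⟨o⟩ := hc.nonempty
  rw [← Set.countable_univ_iff]
  refine (Set.countable_iUnion fun r => (ball_finite hΔ o r).countable).mono fun v _ => ?_
  exact Set.mem_iUnion.2 (exists_ball_of_reachable (hc o v))

lemma arm_of_perc {Δ : ℕ} (hΔ : DegLe G Δ) (hc : G.Connected) {p : I} (h : 0 < percProb G p) :
    ∃ o, ∃ θ > 0, ∀ R, θ ≤ arm hΔ o p R := by
  haveI := countable_of hΔ hc
  unfold percProb at h
  have h1 : {ω : Set (Sym2 V) | HasInfCluster ω}
      = ⋃ x, {ω | {y | (SimpleGraph.fromEdgeSet ω).Reachable x y}.Infinite} := by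
    ext ω; simp [HasInfCluster]
  rw [h1, pos_iff_ne_zero, Ne, measure_iUnion_null_iff, not_forall] at h
  obtain ⟨o, ho⟩ := h
  refine ⟨o, (setBernoulli G.edgeSet p
    {ω | {y | (SimpleGraph.fromEdgeSet ω).Reachable o y}.Infinite}).toReal,
    ENNReal.toReal_pos ho (measure_ne_top _ _), fun R => ?_⟩
  refine ENNReal.toReal_le_of_le_ofReal (Pr_nonneg (fun _ => p.2) _) ?_
  unfold arm
  rw [← local_measure G.edgeSet p (Fb_sub hΔ o _), setBernoulli_apply_eq_apply_subsets]
  refine measure_mono ?_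
  rintro ω ⟨h1, h2⟩
  obtain ⟨u, hu1, hu2⟩ := Set.Infinite.exists_notMem_finite h1 (ball_finite hΔ o R)
  refine far_mono ?_ (far_local h2 ⟨u, hu2, conn_iff_reach.2 hu1⟩)
  exact fun e he => ⟨he.1, (mem_Fb hΔ).2 he.2⟩

lemma perc_of_arm {Δ : ℕ} (hΔ : DegLe G Δ) (hc : G.Connected) {p : I} {o : V} {θ : ℝ}
    (hθ : 0 < θ) (h : ∀ R, θ ≤ arm hΔ o p R) : 0 < percProb G p := by
  let A : ℕ → Set (Set (Sym2 V)) := fun R => {ω | far G o R (ω ∩ Fb hΔ o (R + 1))}
  have hA : Antitone A := by
    refine antitone_nat_of_succ_le fun R ω hω => ?_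
    refine far_mono ?_ (far_local (Set.inter_subset_right.trans (Fb_sub hΔ o _))
      (far_anti (Nat.le_succ R) hω))
    exact fun e he => ⟨he.1.1, (mem_Fb hΔ).2 he.2⟩
  have h1 := hA.measure_iInter (μ := setBernoulli G.edgeSet p)
    (fun R => (meas_local _ _).nullMeasurableSet) ⟨0, measure_ne_top _ _⟩
  have h2 : ENNReal.ofReal θ ≤ setBernoulli G.edgeSet p (⋂ R, A R) := by
    rw [h1]
    refine le_iInf fun R => ?_
    simp only [A]
    rw [local_measure G.edgeSet p (Fb_sub hΔ o _)]
    exact ENNReal.ofReal_le_ofReal (h R)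
  refine lt_of_lt_of_le (ENNReal.ofReal_pos.2 hθ) (h2.trans (measure_mono fun ω hω => ⟨o, ?_⟩))
  intro hfin
  choose r hr using fun v => exists_ball_of_reachable (hc o v)
  obtain ⟨R, hR⟩ := (hfin.image r).bddAbove
  obtain ⟨u, hu, hcu⟩ := Set.mem_iInter.1 hω R
  exact hu (ball_mono o (hR ⟨u, conn_iff_reach.1 (hcu.mono Set.inter_subset_left), rfl⟩) (hr u))

lemma Ex_zero {E : Type*} (F : Finset E) (f : Set E → ℝ) : Ex F (fun _ => 0) f = f ∅ := by
  induction F using Finset.induction_on generalizing f with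
  | empty => simp
  | insert a F ha ih => rw [Ex_insert ha, ih, ih]; ring

lemma arm_zero {Δ : ℕ} (hΔ : DegLe G Δ) (o : V) : arm hΔ o 0 0 = 0 := by
  unfold arm Pr
  rw [Ex_zero, ind_false]
  rintro ⟨u, hu, hc⟩
  have : u ∈ cl {o} ∅ := mem_cl_single.2 hc
  rw [cl_nil] at this
  exact hu this

end Vale.Agent.P151
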