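import Vale.Agent.P151.Step

/-! Chains of steps along a corridor. -/

open Classical Finset

namespace Vale.Agent.P151

variable {V : Type*} {G : SimpleGraph V}

def Mv (G : SimpleGraph V) (p ε : ℝ) (m : ℕ) (a : V) (Rg T : Set V) : Prop :=
  ∀ (F : Finset (Sym2 V)) (w : Sym2 V → ℝ), Ok w → (∀ e ∈ inE G Rg, e ∈ F ∧ p ≤ w e) →
    Pr F w (fun η => a ∉ cl T (η ∪ inE G (ball G a m))) ≤ ε

def box (X Y : V → ℝ) (x0 x1 y0 y1 : ℝ) : Set V :=
  {v | x0 ≤ X v ∧ X v ≤ x1 ∧ y0 ≤ Y v ∧ Y v ≤ y1}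

lemma box_swap (X Y : V → ℝ) (x0 x1 y0 y1 : ℝ) : box Y X y0 y1 x0 x1 = box X Y x0 x1 y0 y1 := by
  ext v; simp only [box, Set.mem_setOf_eq]; tauto

def MoveX (G : SimpleGraph V) (p ε : ℝ) (m r : ℕ) (X Y : V → ℝ) : Prop :=
  ∀ a, Mv G p ε m a (ball G a r ∩ box X Y (X a - 4) (X a + 4) (Y a - 4) (Y a + 4))
    (ball G a r ∩ box X Y (X a + 1 - 1 / 200) (X a + 1 + 1 / 200) (Y a - 1 / 200) (Y a + 1 / 200))

noncomputable def Lk (F : Finset (Sym2 V)) (w : Sym2 V → ℝ) (o : V) (A B : Set V) : ℝ :=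
  Pr F w (fun ω => o ∈ cl A ω ∧ o ∉ cl B ω)

lemma Lk_trans {F : Finset (Sym2 V)} {w : Sym2 V → ℝ} (hw : Ok w) (o : V) (A B C : Set V) :
    Lk F w o A C ≤ Lk F w o A B + Lk F w o B C := by
  refine Pr_le_add hw fun ω _ h => ?_
  by_cases hB : o ∈ cl B ω
  · exact Or.inr ⟨hB, h.2⟩
  · exact Or.inl ⟨h.1, hB⟩

lemma Lk_mono {F : Finset (Sym2 V)} {w : Sym2 V → ℝ} (hw : Ok w) (o : V) {A A' B B' : Set V}
    (hA : A' ⊆ A) (hB : B ⊆ B') : Lk F w o A' B' ≤ Lk F w o A B :=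
  Pr_mono hw fun _ _ h => ⟨cl_mono hA subset_rfl h.1, fun h' => h.2 (cl_mono hB subset_rfl h')⟩

lemma Lk_self {F : Finset (Sym2 V)} {w : Sym2 V → ℝ} (hw : Ok w) (o : V) (A : Set V) :
    Lk F w o A A ≤ 0 := by
  unfold Lk Pr
  exact Ex_le_const hw fun _ _ => (ind_false fun h => h.2 h.1).le

/-- the hypotheses on the weights in a corridor -/
structure Corr (G : SimpleGraph V) (F : Finset (Sym2 V)) (w : Sym2 V → ℝ) (o : V) (p ph : ℝ)
    (X Y : V → ℝ) (xa xb ya yb : ℝ) (ρ : ℕ) : Prop where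
  hD : ∀ e ∈ inE G (box X Y (xa - 5) (xb + 5) (ya - 5) (yb + 5) ∩ ball G o ρ), e ∈ F ∧ p ≤ w e
  hZ : ∀ v ∈ box X Y (xa - 1 / 100) (xb + 1 / 100) (ya - 1 / 100) (yb + 1 / 100),
    v ≠ o ∧ ∀ e ∈ F, v ∈ e → w e ≤ ph

lemma Corr.swap {F : Finset (Sym2 V)} {w : Sym2 V → ℝ} {o : V} {p ph : ℝ}
    {X Y : V → ℝ} {xa xb ya yb : ℝ} {ρ : ℕ} (h : Corr G F w o p ph X Y xa xb ya yb ρ) :
    Corr G F w o p ph Y X ya yb xa xb ρ :=
  ⟨by rw [box_swap]; exact h.hD, by rw [box_swap]; exact h.hZ⟩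

/-- the standing data -/
structure Dat (G : SimpleGraph V) (pl p ph η ε κ : ℝ) (m J r : ℕ) (X Y : V → ℝ) : Prop where
  step : StepP G pl ph η ε m J
  hpl : pl ≤ p
  hε : 0 ≤ ε
  hκ : 0 ≤ κ
  lipX : Lip G X κ
  lipY : Lip G Y κ
  small : κ * (m + J + 1) ≤ 1 / 200
  hr : m + 1 ≤ r
  mX : MoveX G p ε m r X Y
  mY : MoveX G p ε m r Y X

lemma Dat.swap {pl p ph η ε κ : ℝ} {m J r : ℕ} {X Y : V → ℝ}
    (h : Dat G pl p ph η ε κ m J r X Y) : Dat G pl p ph η ε κ m J r Y X :=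
  ⟨h.step, h.hpl, h.hε, h.hκ, h.lipY, h.lipX, h.small, h.hr, h.mY, h.mX⟩

lemma Dat.near {pl p ph η ε κ : ℝ} {m J r : ℕ} {X Y : V → ℝ}
    (h : Dat G pl p ph η ε κ m J r X Y) {a v : V} {k : ℕ} (hk : k ≤ m + J + 1)
    (hv : v ∈ ball G a k) : |X v - X a| ≤ 1 / 200 ∧ |Y v - Y a| ≤ 1 / 200 := by
  have h1 : κ * k ≤ κ * (m + J + 1) :=
    mul_le_mul_of_nonneg_left (by exact_mod_cast hk) h.hκ
  exact ⟨(h.lipX.ball h.hκ hv).trans (h1.trans h.small),
    (h.lipY.ball h.hκ hv).trans (h1.trans h.small)⟩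

variable {pl p ph η ε κ : ℝ} {m J r : ℕ} {X Y : V → ℝ}
  {F : Finset (Sym2 V)} {w : Sym2 V → ℝ} {o : V}

lemma step1 (h : Dat G pl p ph η ε κ m J r X Y) (hF : (F : Set (Sym2 V)) ⊆ G.edgeSet) (hw : Ok w)
    {xa xb ya yb : ℝ} {ρm : ℕ} (hc : Corr G F w o p ph X Y xa xb ya yb ρm)
    {x0 x1 y0 y1 θ x' : ℝ} {ρ : ℕ} (h1 : xa ≤ x0) (h2 : x1 ≤ xb) (h3 : ya ≤ y0) (h4 : y1 ≤ yb)
    (h5 : ρ + (J + r) ≤ ρm) (h6 : θ + 1 ≤ x1) (h7 : x' ≤ x0 + 1) (h8 : x' ≤ θ) :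
    Lk F w o (box X Y x0 x1 y0 y1 ∩ ball G o ρ)
      (box X Y (x' - 1 / 100) (x1 + 1 / 100) (y0 - 1 / 100) (y1 + 1 / 100)
        ∩ ball G o (ρ + (J + r))) ≤ η := by
  have hnb : ∀ k ≤ m + J, ∀ v ∈ nb G (box X Y x0 x1 y0 y1 ∩ ball G o ρ) k,
      v ∈ box X Y (x0 - 1 / 200) (x1 + 1 / 200) (y0 - 1 / 200) (y1 + 1 / 200)
        ∧ v ∈ ball G o (ρ + k) := by
    intro k hk v hv
    obtain ⟨a, ⟨⟨a1, a2, a3, a4⟩, a5⟩, hva⟩ := mem_nb_iff.1 hv
    obtain ⟨b1, b2⟩ := h.near (by omega) hva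
    rw [abs_le] at b1 b2
    exact ⟨⟨by linarith, by linarith, by linarith, by linarith⟩, ball_trans a5 hva⟩
  have hthin : ∀ v ∈ nb G (box X Y x0 x1 y0 y1 ∩ ball G o ρ) (m + J),
      v ≠ o ∧ ∀ e ∈ F, v ∈ e → w e ≤ ph := by
    intro v hv
    obtain ⟨⟨a1, a2, a3, a4⟩, -⟩ := hnb _ le_rfl v hv
    exact hc.hZ v ⟨by linarith, by linarith, by linarith, by linarith⟩
  refine h.step F w _ _ o hF hw (fun ho => (hthin o ho).1 rfl) ?_ ?_
  · rintro e he ⟨v, hv, hve⟩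
    exact (hthin v hv).2 e he hve
  · intro a ha _
    obtain ⟨⟨a1, a2, a3, a4⟩, a5⟩ := hnb J (by omega) a ha
    have hsub : ball G a r ∩ box X Y (X a - 4) (X a + 4) (Y a - 4) (Y a + 4)
        ⊆ box X Y (xa - 5) (xb + 5) (ya - 5) (yb + 5) ∩ ball G o ρm := by
      rintro v ⟨b0, b1, b2, b3, b4⟩
      exact ⟨⟨by linarith, by linarith, by linarith, by linarith⟩,
        ball_mono o (by omega) (ball_trans a5 b0)⟩
    constructor
    · intro e he
      have : e ∈ inE G (ball G a r ∩ box X Y (X a - 4) (X a + 4) (Y a - 4) (Y a + 4)) := by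
        refine inE_mono (fun v hv => ?_) he
        refine ⟨ball_mono a h.hr hv, ?_⟩
        obtain ⟨b1, b2⟩ := h.near (by omega) hv
        rw [abs_le] at b1 b2
        exact ⟨by linarith, by linarith, by linarith, by linarith⟩
      obtain ⟨c1, c2⟩ := hc.hD e (inE_mono hsub this)
      exact ⟨c1, h.hpl.trans c2⟩
    · by_cases hθ : θ ≤ X a
      · refine Ex_le_const hw fun ζ _ => ?_
        rw [ind_false]
        · exact h.hε
        · refine not_not.2 (self_mem_cl ?_ _)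
          exact ⟨⟨by linarith, by linarith, by linarith, by linarith⟩,
            ball_mono o (by omega) a5⟩
      · push Not at hθ
        refine le_trans (Pr_mono hw fun ζ _ hz => ?_)
          (h.mX a F w hw fun e he => hc.hD e (inE_mono hsub he))
        refine fun hz' => hz (cl_mono ?_ subset_rfl hz')
        rintro v ⟨b0, b1, b2, b3, b4⟩
        exact ⟨⟨by linarith, by linarith, by linarith, by linarith⟩,
          ball_mono o (by omega) (ball_trans a5 b0)⟩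

lemma phase (h : Dat G pl p ph η ε κ m J r X Y) (hF : (F : Set (Sym2 V)) ⊆ G.edgeSet) (hw : Ok w)
    {xa xb ya yb : ℝ} {ρm : ℕ} (hc : Corr G F w o p ph X Y xa xb ya yb ρm)
    {x0 x1 y0 y1 θ : ℝ} {ρ : ℕ} (h6 : θ + 1 ≤ x1) (h7 : x0 ≤ θ) (n : ℕ)
    (h1 : xa ≤ x0 - n / 100) (h2 : x1 + n / 100 ≤ xb) (h3 : ya ≤ y0 - n / 100)
    (h4 : y1 + n / 100 ≤ yb) (h5 : ρ + n * (J + r) ≤ ρm) :
    Lk F w o (box X Y x0 x1 y0 y1 ∩ ball G o ρ)
      (box X Y (min (x0 + n) θ - n / 100) (x1 + n / 100) (y0 - n / 100) (y1 + n / 100)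
        ∩ ball G o (ρ + n * (J + r))) ≤ n * η := by
  induction n with
  | zero => simpa [min_eq_left h7] using Lk_self hw o _
  | succ n ih =>
    push_cast at h1 h2 h3 h4 ⊢
    have hn : (0 : ℝ) ≤ n := Nat.cast_nonneg n
    have e1 : (n + 1) * (J + r) = n * (J + r) + (J + r) := by ring
    have a1 := ih (by linarith) (by linarith) (by linarith) (by linarith) (by omega)
    have hmin : x0 ≤ min (x0 + n) θ := le_min (by linarith) h7
    have a2 := step1 h hF hw hc (x0 := min (x0 + n) θ - n / 100) (x1 := x1 + n / 100)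
      (y0 := y0 - n / 100) (y1 := y1 + n / 100) (θ := θ)
      (x' := min (x0 + (n + 1)) θ - n / 100) (ρ := ρ + n * (J + r))
      (by linarith) (by linarith) (by linarith) (by linarith) (by omega) (by linarith)
      (by
        rcases le_total (x0 + n) θ with hh | hh
        · rw [min_eq_left hh]; linarith [min_le_left (x0 + (n + 1)) θ]
        · rw [min_eq_right hh]; linarith [min_le_right (x0 + (n + 1)) θ])
      (by linarith [min_le_right (x0 + (n + 1)) θ])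
    have a3 := Lk_trans (F := F) hw o (box X Y x0 x1 y0 y1 ∩ ball G o ρ) _
      (box X Y (min (x0 + (n + 1)) θ - n / 100 - 1 / 100) (x1 + n / 100 + 1 / 100)
        (y0 - n / 100 - 1 / 100) (y1 + n / 100 + 1 / 100)
        ∩ ball G o (ρ + n * (J + r) + (J + r))) |>.trans (add_le_add a1 a2)
    refine le_trans (Lk_mono hw o subset_rfl ?_) (a3.trans (by linarith))
    rintro v ⟨⟨b1, b2, b3, b4⟩, b0⟩
    exact ⟨⟨by linarith, by linarith, by linarith, by linarith⟩, ball_mono o (by omega) b0⟩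

lemma edge (h : Dat G pl p ph η ε κ m J r X Y) (hF : (F : Set (Sym2 V)) ⊆ G.edgeSet) (hw : Ok w)
    {x y : ℝ} {ρ : ℕ}
    (hc : Corr G F w o p ph X Y (x - 1 / 4) (x + 23) (y - 1 / 4) (y + 3) (ρ + 23 * (J + r))) :
    Lk F w o (box X Y x (x + 2) y (y + 2) ∩ ball G o ρ)
      (box X Y (x + 20) (x + 22) (y + 1) (y + 3) ∩ ball G o (ρ + 23 * (J + r))) ≤ 23 * η := by
  have a1 := phase h hF hw hc (x0 := x) (x1 := x + 43 / 2) (y0 := y) (y1 := y + 2)
    (θ := x + 41 / 2) (ρ := ρ) (by linarith) (by linarith) 21 (by push_cast; linarith)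
    (by push_cast; linarith) (by push_cast; linarith) (by push_cast; linarith) (by omega)
  have a2 := phase h.swap hF hw hc.swap (x0 := y - 21 / 100) (x1 := y + 5 / 2)
    (y0 := x + 41 / 2 - 21 / 100) (y1 := x + 43 / 2 + 21 / 100)
    (θ := y + 3 / 2) (ρ := ρ + 21 * (J + r)) (by linarith) (by linarith) 2 (by push_cast; linarith)
    (by push_cast; linarith) (by push_cast; linarith) (by push_cast; linarith) (by omega)
  push_cast at a1 a2
  rw [min_eq_right (by linarith)] at a1 a2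
  have a3 : Lk F w o (box X Y x (x + 2) y (y + 2) ∩ ball G o ρ)
      (box Y X (y - 21 / 100) (y + 5 / 2) (x + 41 / 2 - 21 / 100) (x + 43 / 2 + 21 / 100)
        ∩ ball G o (ρ + 21 * (J + r))) ≤ 21 * η := by
    refine le_trans (Lk_mono hw o ?_ ?_) a1
    · rintro v ⟨⟨b1, b2, b3, b4⟩, b0⟩
      exact ⟨⟨by linarith, by linarith, by linarith, by linarith⟩, b0⟩
    · rintro v ⟨⟨b1, b2, b3, b4⟩, b0⟩
      exact ⟨⟨by linarith, by linarith, by linarith, by linarith⟩, b0⟩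
  refine (Lk_trans hw o _ _ _).trans ((add_le_add a3 (le_trans (Lk_mono hw o subset_rfl ?_)
    a2)).trans (by linarith))
  rintro v ⟨⟨b1, b2, b3, b4⟩, b0⟩
  exact ⟨⟨by linarith, by linarith, by linarith, by linarith⟩, ball_mono o (by omega) b0⟩

end Vale.Agent.P151
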