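import Vale.Agent.P151.Basic

/-! Clusters and the spatial Markov property. -/

open Classical Finset

namespace Vale.Agent.P151

variable {V : Type*}

def Conn (ω : Set (Sym2 V)) (x y : V) : Prop :=
  Relation.ReflTransGen (fun a b => s(a, b) ∈ ω) x y

def cl (Y : Set V) (ω : Set (Sym2 V)) : Set V := {v | ∃ y ∈ Y, Conn ω y v}

def touch (S : Set V) : Set (Sym2 V) := {e | ∃ v ∈ S, v ∈ e}

def del (S : Set V) (ω : Set (Sym2 V)) : Set (Sym2 V) := ω \ touch S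

lemma Conn.refl (ω : Set (Sym2 V)) (x : V) : Conn ω x x := Relation.ReflTransGen.refl

lemma Conn.trans {ω : Set (Sym2 V)} {x y z : V} (h : Conn ω x y) (h' : Conn ω y z) :
    Conn ω x z := Relation.ReflTransGen.trans h h'

lemma Conn.single {ω : Set (Sym2 V)} {x y : V} (h : s(x, y) ∈ ω) : Conn ω x y :=
  Relation.ReflTransGen.single h

lemma Conn.tail {ω : Set (Sym2 V)} {x y z : V} (h : Conn ω x y) (h' : s(y, z) ∈ ω) :
    Conn ω x z := Relation.ReflTransGen.tail h h'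

lemma Conn.symm {ω : Set (Sym2 V)} {x y : V} (h : Conn ω x y) : Conn ω y x := by
  induction h with
  | refl => exact Conn.refl _ _
  | tail _ h2 ih => exact (Conn.single (by rwa [Sym2.eq_swap])).trans ih

lemma Conn.mono {ω η : Set (Sym2 V)} (hs : ω ⊆ η) {x y : V} (h : Conn ω x y) : Conn η x y := by
  induction h with
  | refl => exact Conn.refl _ _
  | tail _ h2 ih => exact ih.tail (hs h2)

lemma mem_cl_single {ω : Set (Sym2 V)} {x v : V} : v ∈ cl {x} ω ↔ Conn ω x v := by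
  simp [cl]

lemma self_mem_cl {Y : Set V} {y : V} (h : y ∈ Y) (ω : Set (Sym2 V)) : y ∈ cl Y ω :=
  ⟨y, h, Conn.refl _ _⟩

lemma cl_conn {Y : Set V} {ω : Set (Sym2 V)} {a b : V} (h : a ∈ cl Y ω) (h' : Conn ω a b) :
    b ∈ cl Y ω := by
  obtain ⟨y, hy, hc⟩ := h
  exact ⟨y, hy, hc.trans h'⟩

lemma cl_mono {Y Y' : Set V} {ω η : Set (Sym2 V)} (hY : Y ⊆ Y') (hs : ω ⊆ η) :
    cl Y ω ⊆ cl Y' η := by
  rintro v ⟨y, hy, hc⟩
  exact ⟨y, hY hy, hc.mono hs⟩

lemma touch_mono {S S' : Set V} (h : S ⊆ S') : touch S ⊆ touch S' := by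
  rintro e ⟨v, hv, he⟩
  exact ⟨v, h hv, he⟩

lemma mk_mem_touch {S : Set V} {a b : V} : s(a, b) ∈ touch S ↔ a ∈ S ∨ b ∈ S := by
  constructor
  · rintro ⟨v, hv, he⟩
    rcases Sym2.mem_iff.1 he with rfl | rfl
    · exact Or.inl hv
    · exact Or.inr hv
  · rintro (h | h)
    · exact ⟨a, h, Sym2.mem_mk_left a b⟩
    · exact ⟨b, h, Sym2.mem_mk_right a b⟩

lemma del_mono {S S' : Set V} {ω η : Set (Sym2 V)} (hS : S' ⊆ S) (hs : ω ⊆ η) :
    del S ω ⊆ del S' η := fun _ he => ⟨hs he.1, fun h => he.2 (touch_mono hS h)⟩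

lemma del_subset (S : Set V) (ω : Set (Sym2 V)) : del S ω ⊆ ω := fun _ he => he.1

@[simp] lemma del_empty (ω : Set (Sym2 V)) : del ∅ ω = ω := by
  ext e; simp [del, touch]

@[simp] lemma del_nil (S : Set V) : del S ∅ = ∅ := by
  ext e; simp [del]

@[simp] lemma cl_nil (Y : Set V) : cl Y ∅ = Y := by
  ext v
  constructor
  · rintro ⟨y, hy, hc⟩
    induction hc with
    | refl => exact hy
    | tail _ h2 _ => exact absurd h2 (by simp)
  · intro h; exact self_mem_cl h _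

lemma cl_eq_of_agree {Y : Set V} {ω η : Set (Sym2 V)}
    (h : ∀ e ∈ touch (cl Y ω), e ∈ ω ↔ e ∈ η) : cl Y η = cl Y ω := by
  ext v
  constructor
  · rintro ⟨y, hy, hc⟩
    induction hc with
    | refl => exact self_mem_cl hy _
    | tail _ h2 ih =>
      exact cl_conn ih (Conn.single ((h _ (mk_mem_touch.2 (Or.inl ih))).2 h2))
  · rintro ⟨y, hy, hc⟩
    induction hc with
    | refl => exact self_mem_cl hy _
    | tail h1 h2 ih =>
      exact cl_conn ih (Conn.single ((h _ (mk_mem_touch.2 (Or.inl ⟨y, hy, h1⟩))).1 h2))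

lemma cl_del_of_disjoint {Z S : Set V} {ω : Set (Sym2 V)} (h : ∀ v ∈ cl Z ω, v ∉ S) :
    cl Z (del S ω) = cl Z ω := by
  refine Set.Subset.antisymm (cl_mono subset_rfl (del_subset _ _)) ?_
  rintro v ⟨y, hy, hc⟩
  induction hc with
  | refl => exact self_mem_cl hy _
  | tail h1 h2 ih =>
    refine cl_conn ih (Conn.single ⟨h2, fun ht => ?_⟩)
    rcases mk_mem_touch.1 ht with h3 | h3
    · exact h _ ⟨y, hy, h1⟩ h3
    · exact h _ ⟨y, hy, Conn.tail h1 h2⟩ h3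

/-- `S` meets `Z` -/
def hit (Z S : Set V) : Prop := ∃ z ∈ Z, z ∈ S

lemma mem_cl_iff {Y : Set V} {ω : Set (Sym2 V)} {z : V} : z ∈ cl Y ω ↔ hit Y (cl {z} ω) := by
  constructor
  · rintro ⟨y, hy, hc⟩
    exact ⟨y, hy, mem_cl_single.2 hc.symm⟩
  · rintro ⟨y, hy, hc⟩
    exact ⟨y, hy, (mem_cl_single.1 hc).symm⟩

lemma hit_mono {Z S S' : Set V} (h : S ⊆ S') (hh : hit Z S) : hit Z S' := by
  obtain ⟨z, hz, hs⟩ := hh
  exact ⟨z, hz, h hs⟩

lemma not_mem_cl_of {Y : Set V} {ω : Set (Sym2 V)} {z : V} (hz : z ∉ cl Y ω) :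
    ∀ v ∈ cl {z} ω, v ∉ cl Y ω :=
  fun _ hv h => hz (cl_conn h (mem_cl_single.1 hv).symm)

lemma not_mem_cl_of' {Y : Set V} {ω : Set (Sym2 V)} {z : V} (hz : z ∉ cl Y ω) :
    ∀ v ∈ cl Y ω, v ∉ cl {z} ω :=
  fun v hv h => not_mem_cl_of hz v h hv

lemma cl_eq_of_conn {ω : Set (Sym2 V)} {a b : V} (h : Conn ω a b) : cl {a} ω = cl {b} ω := by
  ext v
  simp only [mem_cl_single]
  exact ⟨fun h' => h.symm.trans h', fun h' => h.trans h'⟩

lemma mem_cl_insert {Y : Set V} {ω : Set (Sym2 V)} {x z : V} :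
    z ∈ cl (insert x Y) ω ↔ Conn ω x z ∨ z ∈ cl Y ω := by
  simp [cl]

lemma del_mix_touch (W : Set V) (ω η : Set (Sym2 V)) :
    del W (mix (touch W) ω η) = del W η := by
  ext e; simp only [del, Set.mem_diff, mem_mix]; tauto

lemma markov (F : Finset (Sym2 V)) (w : Sym2 V → ℝ) (K Y : Set V)
    (Φ : Set V → Set (Sym2 V) → ℝ) :
    Ex F w (fun ω => Φ (cl Y (del K ω)) (del (cl Y (del K ω)) ω))
      = Ex F w (fun ω => Ex F w (fun η => Φ (cl Y (del K ω)) (del (cl Y (del K ω)) η))) := by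
  have key : ∀ ω η, cl Y (del K (mix (touch (cl Y (del K ω))) ω η)) = cl Y (del K ω) := by
    intro ω η
    apply cl_eq_of_agree
    intro e he
    simp only [del, Set.mem_diff, mem_mix] at he ⊢
    tauto
  rw [resample F w (fun ω => touch (cl Y (del K ω))) (fun ω η => by rw [key])]
  simp only [key, del_mix_touch]

lemma markov0 (F : Finset (Sym2 V)) (w : Sym2 V → ℝ) (Y : Set V)
    (Φ : Set V → Set (Sym2 V) → ℝ) :
    Ex F w (fun ω => Φ (cl Y ω) (del (cl Y ω) ω))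
      = Ex F w (fun ω => Ex F w (fun η => Φ (cl Y ω) (del (cl Y ω) η))) := by
  simpa using markov F w ∅ Y Φ

end Vale.Agent.P151
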