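import Vale.Agent.P151.Basic

/-! A contour (Peierls) bound obtained by following the wall of a finite set of sites. -/

open Classical Finset

namespace Vale.Agent.P151

abbrev Site := ℤ × ℤ

def rot (d : Site) : Site := (-d.2, d.1)

def mv (k : Fin 3) (x : Site × Site) : Site × Site :=
  if k = 0 then (x.1 + rot x.2 + x.2, -rot x.2)
  else if k = 1 then (x.1 + rot x.2, x.2) else (x.1, rot x.2)

def st (s : ℕ → Fin 3) : ℕ → Site × Site
  | 0 => ((0, 0), (-1, 0))
  | n + 1 => mv (s n) (st s n)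

def ext3 {L : ℕ} (s : Fin L → Fin 3) : ℕ → Fin 3 := fun n => if h : n < L then s ⟨n, h⟩ else 0

def up (d : Site) : Prop := d = (1, 0) ∨ d = (0, 1)

noncomputable def wset (L : ℕ) (s : ℕ → Fin 3) : Finset Site :=
  ((range L).filter fun n => up (st s n).2).image fun n => (st s n).1

noncomputable def kA (A : Finset Site) (x : Site × Site) : Fin 3 :=
  if x.1 + rot x.2 + x.2 ∈ A then 0 else if x.1 + rot x.2 ∈ A then 1 else 2

noncomputable def fA (A : Finset Site) (x : Site × Site) : Site × Site := mv (kA A x) x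

def dirs : Finset Site := {(1, 0), (0, 1), (-1, 0), (0, -1)}

noncomputable def Bd (A : Finset Site) : Finset (Site × Site) :=
  (A ×ˢ dirs).filter fun x => x.1 + x.2 ∉ A

lemma mem_Bd {A : Finset Site} {x : Site × Site} :
    x ∈ Bd A ↔ x.1 ∈ A ∧ x.2 ∈ dirs ∧ x.1 + x.2 ∉ A := by
  simp [Bd, and_assoc]

lemma fA_cases (A : Finset Site) (x : Site × Site) :
    (x.1 + rot x.2 + x.2 ∈ A ∧ fA A x = (x.1 + rot x.2 + x.2, -rot x.2)) ∨
    (x.1 + rot x.2 + x.2 ∉ A ∧ x.1 + rot x.2 ∈ A ∧ fA A x = (x.1 + rot x.2, x.2)) ∨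
    (x.1 + rot x.2 + x.2 ∉ A ∧ x.1 + rot x.2 ∉ A ∧ fA A x = (x.1, rot x.2)) := by
  unfold fA kA mv
  by_cases h1 : x.1 + rot x.2 + x.2 ∈ A
  · simp [h1]
  · by_cases h2 : x.1 + rot x.2 ∈ A <;> simp [h1, h2]

lemma rot_dirs {d : Site} (h : d ∈ dirs) : rot d ∈ dirs ∧ -rot d ∈ dirs := by
  simp only [dirs, Finset.mem_insert, Finset.mem_singleton] at h
  rcases h with rfl | rfl | rfl | rfl <;> decide

lemma fA_mem {A : Finset Site} {x : Site × Site} (h : x ∈ Bd A) : fA A x ∈ Bd A := by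
  obtain ⟨h1, h2, h3⟩ := mem_Bd.1 h
  rcases fA_cases A x with ⟨a, e⟩ | ⟨a, b, e⟩ | ⟨a, b, e⟩ <;> rw [e, mem_Bd]
  · refine ⟨a, (rot_dirs h2).2, ?_⟩
    have : x.1 + rot x.2 + x.2 + -rot x.2 = x.1 + x.2 := by abel
    simpa [this] using h3
  · exact ⟨b, h2, a⟩
  · exact ⟨h1, (rot_dirs h2).1, b⟩

lemma fA_inj {A : Finset Site} {x y : Site × Site} (hx : x ∈ Bd A) (hy : y ∈ Bd A)
    (h : fA A x = fA A y) : x = y := by
  obtain ⟨⟨c1, c2⟩, ⟨d1, d2⟩⟩ := x
  obtain ⟨⟨c3, c4⟩, ⟨d3, d4⟩⟩ := y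
  obtain ⟨h1, -, h3⟩ := mem_Bd.1 hx
  obtain ⟨h4, -, h6⟩ := mem_Bd.1 hy
  have hA : ∀ a b a' b' : ℤ, (a, b) ∈ A → (a', b') ∉ A → ¬ (a = a' ∧ b = b') := by
    rintro a b a' b' h h' ⟨rfl, rfl⟩; exact h' h
  rcases fA_cases A ((c1, c2), (d1, d2)) with ⟨a, e⟩ | ⟨a, b, e⟩ | ⟨a, b, e⟩ <;>
    rcases fA_cases A ((c3, c4), (d3, d4)) with ⟨a', e'⟩ | ⟨a', b', e'⟩ | ⟨a', b', e'⟩ <;>
    rw [e, e'] at h <;>
    simp only [rot, Prod.mk_add_mk, Prod.neg_mk, Prod.mk.injEq] at * <;>
    first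
      | omega
      | (exfalso; exact hA _ _ _ _ h1 h6 (by omega))
      | (exfalso; exact hA _ _ _ _ h4 h3 (by omega))
      | (exfalso; exact hA _ _ _ _ h1 a' (by omega))
      | (exfalso; exact hA _ _ _ _ h4 a (by omega))

/-- potential -/
def pot (x : Site × Site) : ℤ :=
  (2 * x.1.2 + x.2.2 - (rot x.2).2) - (2 * x.1.1 + x.2.1 - (rot x.2).1)

lemma pot_mv (k : Fin 3) {x : Site × Site} (h : x.2 ∈ dirs) :
    pot (mv k x) = pot x + (if up x.2 then 2 else -2) := by
  obtain ⟨⟨c1, c2⟩, d⟩ := x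
  simp only [dirs, Finset.mem_insert, Finset.mem_singleton] at h
  unfold mv
  rcases h with rfl | rfl | rfl | rfl <;> split_ifs <;> simp_all [pot, rot, up] <;> omega

lemma st_congr {s t : ℕ → Fin 3} {n : ℕ} (h : ∀ i < n, s i = t i) : st s n = st t n := by
  induction n with
  | zero => rfl
  | succ n ih =>
    simp only [st]
    rw [ih fun i hi => h i (by omega), h n (by omega)]

theorem contour (A : Finset Site) (h0 : ((0, 0) : Site) ∈ A) (h1 : ((-1, 0) : Site) ∉ A) :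
    ∃ L, 1 ≤ L ∧ L ≤ A.card * 4 ∧ ∃ s : Fin L → Fin 3, L ≤ 4 * (wset L (ext3 s)).card ∧
      ∀ c ∈ wset L (ext3 s), c ∈ A ∧ (c + (1, 0) ∉ A ∨ c + (0, 1) ∉ A) := by
  let x0 : Site × Site := ((0, 0), (-1, 0))
  have hx0 : x0 ∈ Bd A := mem_Bd.2 ⟨h0, by decide, by simpa [x0] using h1⟩
  let f : Bd A → Bd A := fun x => ⟨fA A x, fA_mem x.2⟩
  have hf : Function.Injective f := fun x y h =>
    Subtype.ext (fA_inj x.2 y.2 (congrArg Subtype.val h))
  have hper : (⟨x0, hx0⟩ : Bd A) ∈ Function.periodicPts f := hf.mem_periodicPts _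
  set L := Function.minimalPeriod f ⟨x0, hx0⟩ with hL
  have hL0 : 0 < L := Function.minimalPeriod_pos_of_mem_periodicPts hper
  let y : ℕ → Bd A := fun n => f^[n] ⟨x0, hx0⟩
  let s0 : ℕ → Fin 3 := fun n => kA A (y n)
  have hst : ∀ n, st s0 n = y n := by
    intro n
    induction n with
    | zero => rfl
    | succ n ih =>
      simp only [st, ih, y, Function.iterate_succ_apply']
      rfl
  have hinj : Set.InjOn y (Set.Iio L) := Function.iterate_injOn_Iio_minimalPeriod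
  have hyL : y L = y 0 := Function.iterate_minimalPeriod
  let s : Fin L → Fin 3 := fun n => s0 n
  have hst' : ∀ n < L, st (ext3 s) n = y n := by
    intro n hn
    rw [← hst]
    refine st_congr fun i hi => ?_
    simp [ext3, s, show i < L by omega]
  have hpot : ∀ n, pot (y n) = pot x0 + ∑ i ∈ range n, (if up (y i : Site × Site).2 then 2 else -2) := by
    intro n
    induction n with
    | zero => simp [y]
    | succ n ih =>
      rw [Finset.sum_range_succ, ← add_assoc, ← ih, ← hst (n + 1)]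
      simp only [st, hst]
      exact pot_mv _ (mem_Bd.1 (y n).2).2.1
  set U := (range L).filter fun n => up (y n : Site × Site).2 with hU
  have hUc : L = 2 * U.card := by
    have a1 := hpot L
    have a2 := hpot 0
    rw [Finset.range_zero, Finset.sum_empty] at a2
    rw [hyL, a2, Finset.sum_ite] at a1
    have a3 := Finset.card_filter_add_card_filter_not (s := range L)
      (fun n => up (y n : Site × Site).2)
    simp only [Finset.sum_const, Finset.range_zero, Finset.sum_empty, add_zero, Finset.card_range,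
      nsmul_eq_mul] at a1 a3
    rw [← hU] at a1 a3
    omega
  have hw : wset L (ext3 s) = U.image fun n => (y n : Site × Site).1 := by
    unfold wset
    have : ((range L).filter fun n => up (st (ext3 s) n).2) = U := by
      refine Finset.filter_congr fun n hn => ?_
      rw [hst' n (Finset.mem_range.1 hn)]
    rw [this]
    refine Finset.image_congr fun n hn => ?_
    have := Finset.mem_range.1 (Finset.mem_filter.1 hn).1
    simp only [hst' n this]
  refine ⟨L, hL0, ?_, s, ?_, ?_⟩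
  · have a1 : L ≤ (Bd A).card := by
      have := Function.minimalPeriod_le_card (f := f) (x := ⟨x0, hx0⟩)
      simpa using this
    refine a1.trans ((Finset.card_filter_le _ _).trans ?_)
    rw [Finset.card_product]; rfl
  · rw [hw]
    have a1 : U.card ≤ ((U.image fun n => (y n : Site × Site).1) ×ˢ
        ({(1, 0), (0, 1)} : Finset Site)).card := by
      refine Finset.card_le_card_of_injOn (fun n => (y n : Site × Site)) ?_ ?_
      · intro n hn
        refine Finset.mem_coe.2 (Finset.mem_product.2 ⟨Finset.mem_image_of_mem _ hn, ?_⟩)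
        simpa [up] using (Finset.mem_filter.1 hn).2
      · intro n hn m hm h
        exact hinj (Finset.mem_range.1 (Finset.mem_filter.1 hn).1)
          (Finset.mem_range.1 (Finset.mem_filter.1 hm).1) (Subtype.ext h)
    rw [Finset.card_product] at a1
    have a2 : ({(1, 0), (0, 1)} : Finset Site).card = 2 := rfl
    rw [a2] at a1
    omega
  · rw [hw]
    intro c hc
    obtain ⟨n, hn, rfl⟩ := Finset.mem_image.1 hc
    obtain ⟨b1, -, b3⟩ := mem_Bd.1 (y n).2
    refine ⟨b1, ?_⟩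
    rcases (Finset.mem_filter.1 hn).2 with h | h
    · exact Or.inl (h ▸ b3)
    · exact Or.inr (h ▸ b3)

variable {E : Type*}

lemma bad_prod {F : Finset E} {w : E → ℝ} (hw : Ok w) (Bad : Site → Set E → Prop)
    (N : Site → Set E) {η : ℝ} (hη : 0 ≤ η)
    (h1 : ∀ u v, toLex u < toLex v → ∀ ω ζ, Bad u (mix (N v) ω ζ) ↔ Bad u ω)
    (h2 : ∀ v (ω : Set E), ω ⊆ F → Pr F w (fun ζ => Bad v (mix (N v) ω ζ)) ≤ η)
    (W : Finset Site) : Pr F w (fun ω => ∀ v ∈ W, Bad v ω) ≤ η ^ W.card := by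
  induction W using Finset.induction_on_max_value (f := fun v : Site => toLex v) with
  | empty => simp [Pr]
  | insert a W ha hmax ih =>
    rw [Finset.card_insert_of_notMem ha, pow_succ]
    refine le_trans ?_ (mul_le_mul_of_nonneg_right ih hη)
    unfold Pr
    rw [resample_fixed F w (N a), ← Ex_mul_const]
    refine Ex_mono hw fun ω hω => ?_
    have hlt : ∀ u ∈ W, toLex u < toLex a := fun u hu =>
      lt_of_le_of_ne (hmax u hu) fun h => ha (toLex.injective h ▸ hu)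
    by_cases hW : ∀ v ∈ W, Bad v ω
    · rw [ind_true hW, one_mul]
      exact le_trans (Pr_mono hw fun ζ _ h => h a (Finset.mem_insert_self _ _)) (h2 a ω hω)
    · rw [ind_false hW, zero_mul]
      refine Ex_le_const hw fun ζ _ => ?_
      rw [ind_false]
      exact fun h => hW fun v hv =>
        (h1 v a (hlt v hv) ω ζ).1 (h v (Finset.mem_insert_of_mem hv))

theorem peierls {F : Finset E} {w : E → ℝ} (hw : Ok w) (Bad : Site → Set E → Prop)
    (hB : ∀ W : Finset Site, Pr F w (fun ω => ∀ v ∈ W, Bad v ω) ≤ (1 / 6561) ^ W.card)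
    (n : ℕ) (Die : Set E → Prop)
    (hD : ∀ ω : Set E, ω ⊆ F → Die ω → ∃ A : Finset Site, A.card ≤ n ∧ (0, 0) ∈ A ∧
      (-1, 0) ∉ A ∧ ∀ c ∈ A, (c + (1, 0) ∉ A ∨ c + (0, 1) ∉ A) → Bad c ω) :
    Pr F w Die ≤ 1 / 2 := by
  have h1 : Pr F w Die ≤ ∑ L ∈ range (n * 4), Pr F w (fun ω => ∃ s : Fin (L + 1) → Fin 3,
      L + 1 ≤ 4 * (wset (L + 1) (ext3 s)).card ∧ ∀ c ∈ wset (L + 1) (ext3 s), Bad c ω) := by
    refine Pr_le_sum hw _ fun ω hω h => ?_
    obtain ⟨A, a1, a2, a3, a4⟩ := hD ω hω h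
    obtain ⟨L, b1, b2, s, b3, b4⟩ := contour A a2 a3
    obtain ⟨L, rfl⟩ : ∃ L', L = L' + 1 := ⟨L - 1, by omega⟩
    exact ⟨L, Finset.mem_range.2 (by omega), s, b3, fun c hc => a4 c (b4 c hc).1 (b4 c hc).2⟩
  have h2 : ∀ L : ℕ, Pr F w (fun ω => ∃ s : Fin (L + 1) → Fin 3,
      L + 1 ≤ 4 * (wset (L + 1) (ext3 s)).card ∧ ∀ c ∈ wset (L + 1) (ext3 s), Bad c ω)
        ≤ (1 / 3) ^ (L + 1) := by
    intro L
    refine (Pr_le_sum hw Finset.univ (B := fun s ω => L + 1 ≤ 4 * (wset (L + 1) (ext3 s)).card ∧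
      ∀ c ∈ wset (L + 1) (ext3 s), Bad c ω) fun ω _ ⟨s, hs⟩ => ⟨s, Finset.mem_univ _, hs⟩).trans ?_
    refine (Finset.sum_le_card_nsmul _ _ ((1 / 9 : ℝ) ^ (L + 1)) fun s _ => ?_).trans ?_
    · by_cases hs : L + 1 ≤ 4 * (wset (L + 1) (ext3 s)).card
      · refine (Pr_mono hw fun ω _ h => h.2).trans ((hB _).trans ?_)
        rw [show (1 / 6561 : ℝ) = (1 / 9) ^ 4 by norm_num, ← pow_mul]
        exact pow_le_pow_of_le_one (by norm_num) (by norm_num) hs
      · refine Ex_le_const hw fun ω _ => ?_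
        rw [ind_false fun h => hs h.1]; positivity
    · simp only [Finset.card_univ, Fintype.card_pi, Fintype.card_fin, Finset.prod_const,
        nsmul_eq_mul]
      push_cast
      rw [← mul_pow]; norm_num
  refine h1.trans ((Finset.sum_le_sum fun L _ => h2 L).trans ?_)
  have h3 : ∀ k : ℕ, ∑ L ∈ range k, (1 / 3 : ℝ) ^ (L + 1) = 1 / 2 - (1 / 3) ^ k / 2 := by
    intro k
    induction k with
    | zero => simp
    | succ k ih => rw [Finset.sum_range_succ, ih]; ring
  rw [h3]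
  have : (0 : ℝ) ≤ (1 / 3) ^ (n * 4) / 2 := by positivity
  linarith

end Vale.Agent.P151
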