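import Vale.Agent.P151.Chain
import Vale.Agent.P151.Contour

/-! The coarse oriented process. -/

open Classical Finset

namespace Vale.Agent.P151

variable {V : Type*} {G : SimpleGraph V}

noncomputable def cell (X Y : V → ℝ) (v : V) : Site :=
  (⌊(20 * (X v - 3 / 2) - (Y v - 1 / 2)) / 399 + 1 / 2⌋,
    ⌊(20 * (Y v - 1 / 2) - (X v - 3 / 2)) / 399 + 1 / 2⌋)

noncomputable def xs (c : Site) : ℝ := 1 / 2 + 20 * c.1 + c.2
noncomputable def ys (c : Site) : ℝ := -1 / 2 + c.1 + 20 * c.2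

def Vc (X Y : V → ℝ) (c : Site) : Set V := {v | cell X Y v = c}
def Vle (X Y : V → ℝ) (c : Site) : Set V := {v | toLex (cell X Y v) ≤ toLex c}

def rad (r q : ℕ) (c : Site) : ℕ := r + (c.1 + c.2).toNat * q

def Mc (G : SimpleGraph V) (o : V) (X Y : V → ℝ) (r q : ℕ) (c : Site) : Set V :=
  box X Y (xs c) (xs c + 2) (ys c) (ys c + 2) ∩ ball G o (rad r q c)

lemma cell_eq {X Y : V → ℝ} {v : V} {c : Site}
    (h1 : -399 / 2 ≤ 20 * (X v - xs c - 1) - (Y v - ys c - 1))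
    (h2 : 20 * (X v - xs c - 1) - (Y v - ys c - 1) < 399 / 2)
    (h3 : -399 / 2 ≤ 20 * (Y v - ys c - 1) - (X v - xs c - 1))
    (h4 : 20 * (Y v - ys c - 1) - (X v - xs c - 1) < 399 / 2) : cell X Y v = c := by
  unfold xs ys at *
  refine Prod.ext ?_ ?_ <;> simp only [cell] <;> rw [Int.floor_eq_iff] <;>
    constructor <;> linarith

lemma xs_add1 (c : Site) : xs (c + (1, 0)) = xs c + 20 := by simp [xs]; ring
lemma ys_add1 (c : Site) : ys (c + (1, 0)) = ys c + 1 := by simp [ys]; ring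
lemma xs_add2 (c : Site) : xs (c + (0, 1)) = xs c + 1 := by simp [xs]; ring
lemma ys_add2 (c : Site) : ys (c + (0, 1)) = ys c + 20 := by simp [ys]; ring

lemma corr_cell1 {X Y : V → ℝ} {c : Site} {v : V}
    (hv : v ∈ box X Y (xs c - 1 / 4 - 5) (xs c + 23 + 5) (ys c - 1 / 4 - 5) (ys c + 3 + 5)) :
    v ∈ Vc X Y c ∨ v ∈ Vc X Y (c + (1, 0)) := by
  obtain ⟨h1, h2, h3, h4⟩ := hv
  by_cases h : 20 * (X v - xs c - 1) - (Y v - ys c - 1) < 399 / 2
  · exact Or.inl (cell_eq (by linarith) h (by linarith) (by linarith))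
  · refine Or.inr (cell_eq ?_ ?_ ?_ ?_) <;> rw [xs_add1, ys_add1] <;> linarith

lemma corr_cell2 {X Y : V → ℝ} {c : Site} {v : V}
    (hv : v ∈ box Y X (ys c - 1 / 4 - 5) (ys c + 23 + 5) (xs c - 1 / 4 - 5) (xs c + 3 + 5)) :
    v ∈ Vc X Y c ∨ v ∈ Vc X Y (c + (0, 1)) := by
  obtain ⟨h1, h2, h3, h4⟩ := hv
  by_cases h : 20 * (Y v - ys c - 1) - (X v - xs c - 1) < 399 / 2
  · exact Or.inl (cell_eq (by linarith) (by linarith) (by linarith) h)
  · refine Or.inr (cell_eq ?_ ?_ ?_ ?_) <;> rw [xs_add2, ys_add2] <;> linarith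

lemma lex_lt1 (c : Site) : toLex c < toLex (c + (1, 0)) := by
  rw [Prod.Lex.toLex_lt_toLex]; left; simp

lemma lex_lt2 (c : Site) : toLex c < toLex (c + (0, 1)) := by
  rw [Prod.Lex.toLex_lt_toLex]; right; simp

lemma not_touch_of_le {X Y : V → ℝ} {c c' : Site} (h : toLex c < toLex c') {e : Sym2 V}
    (he : e ∈ inE G (Vle X Y c)) : e ∉ touch (Vc X Y c') := by
  rintro ⟨v, hv, hve⟩
  have h1 : toLex (cell X Y v) ≤ toLex c := he.2 v hve
  rw [show cell X Y v = c' from hv] at h1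
  exact absurd h (not_lt.2 h1)

/-- weights with the seed at `o` opened -/
noncomputable def wS (p : ℝ) (S : Set (Sym2 V)) : Sym2 V → ℝ := condW S Set.univ fun _ => p

lemma wS_ok {p : ℝ} (h0 : 0 ≤ p) (h1 : p ≤ 1) (S : Set (Sym2 V)) : Ok (wS p S) :=
  condW_ok fun _ => ⟨h0, h1⟩

lemma wS_ge {p : ℝ} (h1 : p ≤ 1) (S : Set (Sym2 V)) (e : Sym2 V) : p ≤ wS p S e := by
  unfold wS condW; split_ifs <;> simp_all

lemma wS_of_mem {p : ℝ} {S : Set (Sym2 V)} {e : Sym2 V} (h : e ∈ S) : wS p S e = 1 := by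
  simp [wS, condW, h]

lemma wS_of_not_mem {p : ℝ} {S : Set (Sym2 V)} {e : Sym2 V} (h : e ∉ S) : wS p S e = p := by
  simp [wS, condW, h]

lemma Ex_open {E : Type*} {F : Finset E} {w : E → ℝ} {S : Set E}
    (h : ∀ e ∈ S, e ∈ F ∧ w e = 1) (f : Set E → ℝ) :
    Ex F w f = Ex F w (fun η => f (η ∪ S)) := by
  rw [Ex_congr_w (w' := condW S Set.univ w) f, Ex_condW']
  · refine Ex_congr fun η _ => ?_
    congr 1
    ext e
    have := h e
    simp only [mem_mix, Set.mem_inter_iff, Set.mem_univ, true_and, Finset.mem_coe, Set.mem_union]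
    tauto
  · intro e _
    unfold condW
    by_cases he : e ∈ S
    · simp [he, (h e he).2]
    · simp [he]

section
variable (G) (F : Finset (Sym2 V)) (w : Sym2 V → ℝ) (o : V) (X Y : V → ℝ) (r q : ℕ)

noncomputable def yf (c : Site) (ω : Set (Sym2 V)) : ℝ :=
  Pr F w fun ζ => o ∉ cl (Mc G o X Y r q c) (mix (touch (Vc X Y c))ᶜ ω ζ ∩ inE G (Vle X Y c))

noncomputable def zc (c c' : Site) (ω : Set (Sym2 V)) : ℝ :=
  Pr F w fun ζ => o ∉ cl (Mc G o X Y r q c')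
    (mix (touch (Vc X Y c'))ᶜ ω ζ ∩ inE G (Vle X Y c ∪ Vc X Y c'))

def Bad (δ : ℝ) (N : ℕ) (c : Site) (ω : Set (Sym2 V)) : Prop :=
  0 ≤ c.1 ∧ 0 ≤ c.2 ∧ c.1 + c.2 < N ∧ yf G F w o X Y r q c ω ≤ δ ∧
    (δ < zc G F w o X Y r q c (c + (1, 0)) ω ∨ δ < zc G F w o X Y r q c (c + (0, 1)) ω)

end

variable {F : Finset (Sym2 V)} {w : Sym2 V → ℝ} {o : V} {X Y : V → ℝ} {r q : ℕ}

lemma yf_le_zc (hw : Ok w) {c c' : Site} (h : toLex c < toLex c') (ω : Set (Sym2 V)) :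
    yf G F w o X Y r q c' ω ≤ zc G F w o X Y r q c c' ω := by
  refine Pr_mono hw fun ζ _ h1 => ?_
  refine fun h2 => h1 (cl_mono subset_rfl (Set.inter_subset_inter_right _ (inE_mono ?_)) h2)
  rintro v (hv | hv)
  · exact le_trans hv h.le
  · exact le_of_eq (congrArg toLex hv)

lemma yf_mix {u v : Site} (h : toLex u < toLex v) (ω ζ : Set (Sym2 V)) :
    yf G F w o X Y r q u (mix (touch (Vc X Y v))ᶜ ω ζ) = yf G F w o X Y r q u ω := by
  unfold yf
  have : ∀ ξ, mix (touch (Vc X Y u))ᶜ (mix (touch (Vc X Y v))ᶜ ω ζ) ξ ∩ inE G (Vle X Y u)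
      = mix (touch (Vc X Y u))ᶜ ω ξ ∩ inE G (Vle X Y u) := by
    intro ξ; ext e
    have := @not_touch_of_le _ G X Y _ _ h e
    simp only [mem_mix, Set.mem_inter_iff, Set.mem_compl_iff]
    tauto
  simp only [this]

lemma zc_mix {u v : Site} (c' : Site) (h : toLex u < toLex v) (ω ζ : Set (Sym2 V)) :
    zc G F w o X Y r q u c' (mix (touch (Vc X Y v))ᶜ ω ζ) = zc G F w o X Y r q u c' ω := by
  unfold zc
  have : ∀ ξ, mix (touch (Vc X Y c'))ᶜ (mix (touch (Vc X Y v))ᶜ ω ζ) ξ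
      ∩ inE G (Vle X Y u ∪ Vc X Y c')
      = mix (touch (Vc X Y c'))ᶜ ω ξ ∩ inE G (Vle X Y u ∪ Vc X Y c') := by
    intro ξ; ext e
    have h1 := @not_touch_of_le _ G X Y _ _ h e
    have h2 : e ∈ inE G (Vle X Y u ∪ Vc X Y c') → e ∉ touch (Vc X Y c') →
        e ∈ inE G (Vle X Y u) := fun a b =>
      ⟨a.1, fun x hx => (a.2 x hx).resolve_right fun h' => b ⟨x, h', hx⟩⟩
    simp only [mem_mix, Set.mem_inter_iff, Set.mem_compl_iff]
    tauto
  simp only [this]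

lemma child_bound (hw : Ok w) {c c' : Site} (h : toLex c < toLex c') {ω : Set (Sym2 V)}
    (hω : ω ⊆ F) {δ t : ℝ} (hδ : 0 < δ)
    (hL : Lk (F.filter (· ∈ inE G (Vle X Y c ∪ Vc X Y c')))
      (condW (touch (Vc X Y c) ∪ touch (Vc X Y c'))ᶜ ω w) o
      (Mc G o X Y r q c) (Mc G o X Y r q c') ≤ t) :
    Pr F w (fun ζ => o ∈ cl (Mc G o X Y r q c)
        (mix (touch (Vc X Y c))ᶜ ω ζ ∩ inE G (Vle X Y c)) ∧
      δ < zc G F w o X Y r q c c' (mix (touch (Vc X Y c))ᶜ ω ζ)) ≤ t / δ := by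
  set U := Vle X Y c ∪ Vc X Y c'
  set N := (touch (Vc X Y c) ∪ touch (Vc X Y c'))ᶜ with hN
  unfold Lk Pr at hL
  rw [← Ex_restrict' (F := F) (U := inE G U) _ (fun e => Finset.mem_filter),
    Ex_condW F w N hω, resample_fixed F w (touch (Vc X Y c'))ᶜ] at hL
  rw [le_div_iff₀ hδ]
  refine le_trans ?_ hL
  unfold Pr
  rw [← Ex_mul_const]
  refine Ex_mono hw fun ζ _ => ?_
  have e1 : ∀ ξ, mix N ω (mix (touch (Vc X Y c'))ᶜ ζ ξ)
      = mix (touch (Vc X Y c'))ᶜ (mix (touch (Vc X Y c))ᶜ ω ζ) ξ := by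
    intro ξ; ext e
    simp only [hN, mem_mix, Set.mem_compl_iff, Set.mem_union]; tauto
  simp only [e1]
  by_cases hE : o ∈ cl (Mc G o X Y r q c)
        (mix (touch (Vc X Y c))ᶜ ω ζ ∩ inE G (Vle X Y c)) ∧
      δ < zc G F w o X Y r q c c' (mix (touch (Vc X Y c))ᶜ ω ζ)
  · rw [ind_true hE, one_mul]
    refine hE.2.le.trans (Pr_mono hw fun ξ _ h1 => ⟨cl_mono subset_rfl ?_ hE.1, h1⟩)
    rintro e ⟨h2, h3⟩
    exact ⟨Or.inl ⟨h2, not_touch_of_le h h3⟩, inE_mono Set.subset_union_left h3⟩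
  · rw [ind_false hE, zero_mul]
    exact Ex_nonneg hw fun _ _ => ind_nonneg _

variable {pl p ph η ε κ : ℝ} {m J : ℕ}

lemma corr_of (h : Dat G pl p ph η ε κ m J r X Y) (hp1 : p ≤ 1) (hph : p ≤ ph) (hX : X o = 0)
    {c c' : Site} {ω : Set (Sym2 V)} {A B : V → ℝ} {xa xb ya yb : ℝ} {ρ : ℕ}
    (hρ : ∀ e ∈ inE G (ball G o ρ), e ∈ F)
    (hcell : ∀ v ∈ box A B (xa - 5) (xb + 5) (ya - 5) (yb + 5), v ∈ Vc X Y c ∨ v ∈ Vc X Y c')
    (hpos : ∀ v ∈ box A B (xa - 1 / 100) (xb + 1 / 100) (ya - 1 / 100) (yb + 1 / 100),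
      1 / 10 ≤ X v) :
    Corr G (F.filter (· ∈ inE G (Vle X Y c ∪ Vc X Y c')))
      (condW (touch (Vc X Y c) ∪ touch (Vc X Y c'))ᶜ ω (wS p (inE G (ball G o m)))) o p ph
      A B xa xb ya yb ρ := by
  have hcond : ∀ e v, v ∈ e → v ∈ Vc X Y c ∨ v ∈ Vc X Y c' →
      condW (touch (Vc X Y c) ∪ touch (Vc X Y c'))ᶜ ω (wS p (inE G (ball G o m))) e
        = wS p (inE G (ball G o m)) e := by
    intro e v hve hv
    have : e ∈ touch (Vc X Y c) ∪ touch (Vc X Y c') :=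
      hv.elim (fun h => Or.inl ⟨v, h, hve⟩) (fun h => Or.inr ⟨v, h, hve⟩)
    unfold condW
    exact if_neg (not_not.2 this)
  constructor
  · intro e he
    refine ⟨Finset.mem_filter.2 ⟨hρ e (inE_mono Set.inter_subset_right he), he.1, ?_⟩, ?_⟩
    · intro v hv
      rcases hcell v (he.2 v hv).1 with h' | h'
      · exact Or.inl (le_of_eq (congrArg toLex h'))
      · exact Or.inr h'
    · rw [hcond e _ (Sym2.out_fst_mem e) (hcell _ (he.2 _ (Sym2.out_fst_mem e)).1)]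
      exact wS_ge hp1 _ _
  · intro v hv
    have a1 := hpos v hv
    have a2 : v ∉ ball G o m := by
      intro h'
      have := (h.near (by omega) h').1
      rw [hX, sub_zero, abs_le] at this
      linarith
    refine ⟨fun h' => a2 (h' ▸ self_mem_ball _ _), fun e _ hve => ?_⟩
    obtain ⟨b1, b2, b3, b4⟩ := hv
    rw [hcond e v hve (hcell v ⟨by linarith, by linarith, by linarith, by linarith⟩),
      wS_of_not_mem fun h' => a2 (h'.2 v hve)]
    exact hph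

lemma bad_le (h : Dat G pl p ph (1 / 10 ^ 10) ε κ m J r X Y) (hp0 : 0 ≤ p) (hp1 : p ≤ 1)
    (hph : p ≤ ph) (hX : X o = 0) (hF : (F : Set (Sym2 V)) ⊆ G.edgeSet) (N : ℕ)
    (hρ : ∀ e ∈ inE G (ball G o (r + N * (23 * (J + r)))), e ∈ F)
    (c : Site) (ω : Set (Sym2 V)) (hω : ω ⊆ F) :
    Pr F (wS p (inE G (ball G o m))) (fun ζ => Bad G F (wS p (inE G (ball G o m))) o X Y r
      (23 * (J + r)) (1 / 20000) N c (mix (touch (Vc X Y c))ᶜ ω ζ)) ≤ 1 / 6561 := by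
  set w := wS p (inE G (ball G o m)) with hwdef
  have hw : Ok w := wS_ok hp0 hp1 _
  set q := 23 * (J + r) with hq
  have e1 : ∀ ζ, yf G F w o X Y r q c (mix (touch (Vc X Y c))ᶜ ω ζ) = yf G F w o X Y r q c ω := by
    intro ζ; simp only [yf, mix_mix]
  by_cases hc : 0 ≤ c.1 ∧ 0 ≤ c.2 ∧ c.1 + c.2 < N ∧ yf G F w o X Y r q c ω ≤ 1 / 20000
  swap
  · refine Ex_le_const hw fun ζ _ => ?_
    rw [ind_false]
    · norm_num
    · intro hB
      exact hc ⟨hB.1, hB.2.1, hB.2.2.1, e1 ζ ▸ hB.2.2.2.1⟩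
  obtain ⟨c1, c2, c3, c4⟩ := hc
  have c1' : (0 : ℝ) ≤ c.1 := by exact_mod_cast c1
  have c2' : (0 : ℝ) ≤ c.2 := by exact_mod_cast c2
  have hrad : rad r q c + q ≤ r + N * q := by
    unfold rad
    have : (c.1 + c.2).toNat + 1 ≤ N := by omega
    nlinarith
  have hρ' : ∀ e ∈ inE G (ball G o (rad r q c + 23 * (J + r))), e ∈ F :=
    fun e he => hρ e (inE_mono (ball_mono o hrad) he)
  have hF' : ∀ U : Set (Sym2 V), ((F.filter (· ∈ U) : Finset _) : Set (Sym2 V)) ⊆ G.edgeSet :=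
    fun U e he => hF (Finset.mem_filter.1 he).1
  have r1 : rad r q (c + (1, 0)) = rad r q c + 23 * (J + r) := by
    unfold rad
    have : ((c + (1, 0)).1 + (c + (1, 0)).2).toNat = (c.1 + c.2).toNat + 1 := by
      simp only [Prod.fst_add, Prod.snd_add]; omega
    rw [this]; ring
  have r2 : rad r q (c + (0, 1)) = rad r q c + 23 * (J + r) := by
    unfold rad
    have : ((c + (0, 1)).1 + (c + (0, 1)).2).toNat = (c.1 + c.2).toNat + 1 := by
      simp only [Prod.fst_add, Prod.snd_add]; omega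
    rw [this]; ring
  have b1 := child_bound (G := G) (o := o) (X := X) (Y := Y) (r := r) (q := q) hw (lex_lt1 c) hω
    (δ := 1 / 20000) (t := 23 * (1 / 10 ^ 10)) (by norm_num) (by
      have := edge h (hF' _) (condW_ok hw) (corr_of (c := c) (c' := c + (1, 0)) (ω := ω)
        h hp1 hph hX hρ' (fun v hv => corr_cell1 hv) (fun v hv => by
          have := hv.1; unfold xs at this; linarith))
      unfold Mc
      rw [xs_add1, ys_add1, r1]
      convert this using 3 <;> ring_nf)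
  have b2 := child_bound (G := G) (o := o) (X := X) (Y := Y) (r := r) (q := q) hw (lex_lt2 c) hω
    (δ := 1 / 20000) (t := 23 * (1 / 10 ^ 10)) (by norm_num) (by
      have := edge h.swap (hF' _) (condW_ok hw) (corr_of (c := c) (c' := c + (0, 1)) (ω := ω)
        h hp1 hph hX hρ' (fun v hv => corr_cell2 hv) (fun v hv => by
          have := hv.2.2.1; unfold xs at this; linarith))
      rw [box_swap X Y, box_swap X Y] at this
      unfold Mc
      rw [xs_add2, ys_add2, r2]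
      convert this using 3 <;> ring_nf)
  refine le_trans (Pr_le_add hw (B := fun ζ => o ∉ cl (Mc G o X Y r q c)
    (mix (touch (Vc X Y c))ᶜ ω ζ ∩ inE G (Vle X Y c))) (C := fun ζ =>
      (o ∈ cl (Mc G o X Y r q c) (mix (touch (Vc X Y c))ᶜ ω ζ ∩ inE G (Vle X Y c)) ∧
        1 / 20000 < zc G F w o X Y r q c (c + (1, 0)) (mix (touch (Vc X Y c))ᶜ ω ζ)) ∨
      (o ∈ cl (Mc G o X Y r q c) (mix (touch (Vc X Y c))ᶜ ω ζ ∩ inE G (Vle X Y c)) ∧
        1 / 20000 < zc G F w o X Y r q c (c + (0, 1)) (mix (touch (Vc X Y c))ᶜ ω ζ)))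
    fun ζ _ hB => ?_) ?_
  · have := hB.2.2.2.2
    tauto
  · have b3 := Pr_le_add (F := F) hw (fun ζ _ h => h) |>.trans (add_le_add b1 b2)
    have : Pr F w (fun ζ => o ∉ cl (Mc G o X Y r q c)
      (mix (touch (Vc X Y c))ᶜ ω ζ ∩ inE G (Vle X Y c))) ≤ 1 / 20000 := c4
    refine (add_le_add this b3).trans (by norm_num)

lemma cell_o (hX : X o = 0) (hY : Y o = 0) : cell X Y o = (0, 0) := by
  refine cell_eq ?_ ?_ ?_ ?_ <;> simp [xs, ys, hX, hY] <;> norm_num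

lemma init_le (h : Dat G pl p ph η ε κ m J r X Y) (hp0 : 0 ≤ p) (hp1 : p ≤ 1)
    (hX : X o = 0) (hY : Y o = 0) (hρ : ∀ e ∈ inE G (ball G o r), e ∈ F)
    (ω : Set (Sym2 V)) (hω : ω ⊆ F) :
    yf G F (wS p (inE G (ball G o m))) o X Y r q (0, 0) ω ≤ ε := by
  set w := wS p (inE G (ball G o m)) with hwdef
  have hw : Ok w := wS_ok hp0 hp1 _
  have hbox : ∀ v ∈ box X Y (X o - 4) (X o + 4) (Y o - 4) (Y o + 4), v ∈ Vc X Y (0, 0) := by
    rintro v ⟨h1, h2, h3, h4⟩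
    rw [hX] at h1 h2; rw [hY] at h3 h4
    refine cell_eq ?_ ?_ ?_ ?_ <;> simp only [xs, ys] <;> push_cast <;> linarith
  have key : ∀ e ∈ inE G (ball G o r ∩ box X Y (X o - 4) (X o + 4) (Y o - 4) (Y o + 4)),
      e ∈ F.filter (· ∈ inE G (Vle X Y (0, 0))) ∧
        condW (touch (Vc X Y (0, 0)))ᶜ ω w e = w e := by
    intro e he
    refine ⟨Finset.mem_filter.2 ⟨hρ e (inE_mono Set.inter_subset_left he), he.1, fun v hv =>
      le_of_eq (congrArg toLex (hbox v (he.2 v hv).2))⟩, ?_⟩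
    unfold condW
    exact if_neg (not_not.2 ⟨_, hbox _ (he.2 _ (Sym2.out_fst_mem e)).2, Sym2.out_fst_mem e⟩)
  have a1 := h.mX o _ _ (condW_ok (N := (touch (Vc X Y (0, 0)))ᶜ) (ω := ω) hw)
    (fun e he => ⟨(key e he).1, (key e he).2 ▸ wS_ge hp1 _ _⟩)
  refine le_trans ?_ a1
  unfold yf Pr
  rw [← Ex_condW F w _ hω (fun ξ => ind (o ∉ cl (Mc G o X Y r q (0, 0))
    (ξ ∩ inE G (Vle X Y (0, 0))))), Ex_restrict' (F' := F.filter (· ∈ inE G (Vle X Y (0, 0)))) _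
    (fun e => Finset.mem_filter) (fun ξ => ind (o ∉ cl (Mc G o X Y r q (0, 0)) ξ)),
    Ex_open (S := inE G (ball G o m))]
  · refine Ex_mono (condW_ok hw) fun ξ _ => ind_mono fun h1 h2 => h1 (cl_mono ?_ subset_rfl h2)
    rintro v ⟨b0, b1, b2, b3, b4⟩
    rw [hX] at b1 b2; rw [hY] at b3 b4
    refine ⟨⟨?_, ?_, ?_, ?_⟩, ball_mono o (by simp [rad]) b0⟩ <;> simp only [xs, ys] <;>
      push_cast <;> linarith
  · intro e he
    have : e ∈ inE G (ball G o r ∩ box X Y (X o - 4) (X o + 4) (Y o - 4) (Y o + 4)) := by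
      refine inE_mono (fun v hv => ?_) he
      refine ⟨ball_mono o (by have := h.hr; omega) hv, ?_⟩
      obtain ⟨b1, b2⟩ := h.near (by omega) hv
      rw [abs_le] at b1 b2
      exact ⟨by linarith, by linarith, by linarith, by linarith⟩
    exact ⟨(key e this).1, (key e this).2.trans (wS_of_mem he)⟩

lemma far_of (h : Dat G pl p ph η ε κ m J r X Y) (hw : Ok w) (hX : X o = 0) (hY : Y o = 0)
    (hF : (F : Set (Sym2 V)) ⊆ G.edgeSet) {R : ℕ} {c : Site} (hc : c.1 + c.2 = R + 1)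
    {ω : Set (Sym2 V)} (hω : ω ⊆ F) (hy : yf G F w o X Y r q c ω < 1) :
    ∃ u ∉ ball G o R, Conn ω o u := by
  by_contra hcon
  push Not at hcon
  unfold yf Pr at hy
  refine absurd hy (not_lt.2 (le_Ex_const hw fun ζ hζ => le_of_eq ?_))
  rw [ind_true]
  rintro ⟨y, hy, hc'⟩
  have hyc : y ∈ Vc X Y c := by
    obtain ⟨⟨h1, h2, h3, h4⟩, -⟩ := hy
    exact cell_eq (by linarith) (by linarith) (by linarith) (by linarith)
  have hoc : o ∉ Vc X Y c := by
    intro h'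
    have h1 : cell X Y o = c := h'
    rw [cell_o hX hY] at h1
    rw [← h1] at hc
    simp only at hc
    omega
  obtain ⟨u, v, b1, b2, b3, b4⟩ := exit_of_conn (G := G) (R := (Vc X Y c)ᶜ)
    (fun e he => he.2.1) hc'.symm hoc (not_not.2 hyc)
  have b5 : Conn ω o u := by
    refine b1.mono ?_
    rintro e ⟨⟨h1 | h1, -⟩, h2⟩
    · exact h1.1
    · obtain ⟨x, hx, hxe⟩ := not_not.1 h1.2
      exact absurd hx (h2.2 x hxe)
  have b6 : u ∈ ball G o R := by
    by_contra h'; exact hcon u h' b5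
  have b7 : v ∈ ball G o (R + 1) := ball_adj b6 b3.2.1
  have hκ1 : κ ≤ 1 / 200 := by
    have := h.small
    have h0 : (0 : ℝ) ≤ m + J := by positivity
    nlinarith [h.hκ]
  have b8 := h.lipX.ball h.hκ b7
  have b9 := h.lipY.ball h.hκ b7
  rw [hX, sub_zero, abs_le] at b8
  rw [hY, sub_zero, abs_le] at b9
  have b10 : cell X Y v = c := not_not.1 b4
  have d1 := Int.floor_le ((20 * (X v - 3 / 2) - (Y v - 1 / 2)) / 399 + 1 / 2)
  have d2 := Int.floor_le ((20 * (Y v - 1 / 2) - (X v - 3 / 2)) / 399 + 1 / 2)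
  have d3 : ((cell X Y v).1 : ℝ) + (cell X Y v).2 = R + 1 := by
    rw [b10]; exact_mod_cast hc
  simp only [cell] at d3
  push_cast at b8 b9
  have hR : (0 : ℝ) ≤ R := Nat.cast_nonneg R
  nlinarith [b8.2, b9.2]

theorem coarse {Δ : ℕ} (hΔ : DegLe G Δ) (h : Dat G pl p ph (1 / 10 ^ 10) ε κ m J r X Y)
    (hε : ε ≤ 1 / 20000) (hp0 : 0 ≤ p) (hp1 : p ≤ 1) (hph : p ≤ ph) (hX : X o = 0) (hY : Y o = 0)
    (R : ℕ) : ∃ F : Finset (Sym2 V), (F : Set (Sym2 V)) ⊆ G.edgeSet ∧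
      inE G (ball G o (R + 1)) ⊆ F ∧ inE G (ball G o m) ⊆ F ∧
      1 / 2 ≤ Pr F (wS p (inE G (ball G o m))) (fun ω => ∃ u ∉ ball G o R, Conn ω o u) := by
  set N := R + 1 with hN
  set q := 23 * (J + r) with hq
  have hr := h.hr
  let F := (inE_finite hΔ o (r + N * q)).toFinset
  have hρ : ∀ e ∈ inE G (ball G o (r + N * q)), e ∈ F := fun e he =>
    (Set.Finite.mem_toFinset _).2 he
  have hF : (F : Set (Sym2 V)) ⊆ G.edgeSet := fun e he => ((Set.Finite.mem_toFinset _).1 he).1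
  set w := wS p (inE G (ball G o m)) with hwdef
  have hw : Ok w := wS_ok hp0 hp1 _
  refine ⟨F, hF, fun e he => hρ e (inE_mono (ball_mono o (by nlinarith)) he),
    fun e he => hρ e (inE_mono (ball_mono o (by omega)) he), ?_⟩
  have hB := bad_prod (F := F) hw (Bad G F w o X Y r q (1 / 20000) N)
    (fun c => (touch (Vc X Y c))ᶜ) (η := 1 / 6561) (by norm_num)
    (fun u v huv ω ζ => by simp only [Bad, yf_mix huv, zc_mix _ huv])
    (fun c ω hω => bad_le h hp0 hp1 hph hX hF N hρ c ω hω)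
  let A0 : Finset Site := Finset.Icc (0 : ℤ) N ×ˢ Finset.Icc (0 : ℤ) N
  have := peierls hw _ hB A0.card (fun ω => ¬ ∃ u ∉ ball G o R, Conn ω o u) (by
    intro ω hω hd
    refine ⟨A0.filter fun c => c.1 + c.2 ≤ N ∧ yf G F w o X Y r q c ω ≤ 1 / 20000,
      Finset.card_filter_le _ _, ?_, ?_, ?_⟩
    · refine Finset.mem_filter.2 ⟨by simp [A0], by simp, ?_⟩
      exact (init_le h hp0 hp1 hX hY
        (fun e he => hρ e (inE_mono (ball_mono o (by omega)) he)) ω hω).trans hε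
    · simp [A0]
    · intro c hc hch
      obtain ⟨a1, a2, a3⟩ := Finset.mem_filter.1 hc
      simp only [A0, Finset.mem_product, Finset.mem_Icc] at a1
      have a4 : c.1 + c.2 < N := by
        by_contra h'
        exact hd (far_of h hw hX hY hF (c := c) (by omega) hω (a3.trans_lt (by norm_num)))
      refine ⟨a1.1.1, a1.2.1, a4, a3, ?_⟩
      rcases hch with h' | h'
      · left
        refine lt_of_lt_of_le ?_ (yf_le_zc hw (lex_lt1 c) ω)
        by_contra h''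
        refine h' (Finset.mem_filter.2 ⟨?_, ?_, not_lt.1 h''⟩)
        · simp only [A0, Finset.mem_product, Finset.mem_Icc, Prod.fst_add, Prod.snd_add]; omega
        · simp only [Prod.fst_add, Prod.snd_add]; omega
      · right
        refine lt_of_lt_of_le ?_ (yf_le_zc hw (lex_lt2 c) ω)
        by_contra h''
        refine h' (Finset.mem_filter.2 ⟨?_, ?_, not_lt.1 h''⟩)
        · simp only [A0, Finset.mem_product, Finset.mem_Icc, Prod.fst_add, Prod.snd_add]; omega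
        · simp only [Prod.fst_add, Prod.snd_add]; omega)
  rw [Pr_not] at this
  linarith

end Vale.Agent.P151
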