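import Vale.Agent.P151.Moves

/-! The percolating set of parameters is open. -/

open Classical Finset

namespace Vale.Agent.P151

variable {V : Type*} {G : SimpleGraph V}

def Rg0 (G : SimpleGraph V) (o : V) (r : ℕ) (X Y : V → ℝ) : Set V :=
  ball G o r ∩ box X Y (-3) 3 (-3) 3

def Tg0 (G : SimpleGraph V) (o : V) (r : ℕ) (X Y : V → ℝ) : Set V :=
  ball G o r ∩ box X Y (1 - 1 / 500) (1 + 1 / 500) (-(1 / 500)) (1 / 500)

noncomputable def loc {Δ : ℕ} (hΔ : DegLe G Δ) (o : V) (r m : ℕ) (X Y : V → ℝ) (q : ℝ) : ℝ :=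
  Pr (Fb hΔ o r) (fun _ => q) fun η =>
    o ∉ cl (Tg0 G o r X Y) ((η ∪ inE G (ball G o m)) ∩ inE G (Rg0 G o r X Y))

lemma loc_le {Δ : ℕ} (hΔ : DegLe G Δ) {o : V} {r m : ℕ} (hm : m ≤ r) {X Y : V → ℝ} {p ε : ℝ}
    (hp0 : 0 ≤ p) (hp1 : p ≤ 1) {R Q : Set V} (ho : o ∈ R) (hR : R ⊆ box X Y (-3) 3 (-3) 3)
    (hQ : Q ⊆ box X Y (1 - 1 / 500) (1 + 1 / 500) (-(1 / 500)) (1 / 500))
    (h : Pr (Fb hΔ o r) (wS p (inE G (ball G o m))) (fun ω => ¬ Ext G o R Q ω) ≤ ε) :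
    loc hΔ o r m X Y p ≤ ε := by
  unfold loc Pr
  rw [← Ex_wS (fun e he => (mem_Fb hΔ).2 (inE_mono (ball_mono o hm) he)) p
    (fun ζ => ind (o ∉ cl (Tg0 G o r X Y) (ζ ∩ inE G (Rg0 G o r X Y))))]
  refine le_trans (Pr_mono (wS_ok hp0 hp1 _) fun ω hω h1 => ?_) h
  refine fun h2 => h1 ?_
  obtain ⟨u, v, c1, c2, c3, c4, -, c6, c7, c8, -⟩ := Ext_imp hΔ ho hω h2
  refine ⟨v, ⟨c4, hQ c6⟩, Conn.symm (Conn.tail (c7.mono fun e he => ?_) ⟨c8, ?_⟩)⟩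
  · exact ⟨he.1, he.2.1, fun z hz => ⟨((mem_Fb hΔ).1 (hω he.1)).2 z hz, hR (he.2.2 z hz)⟩⟩
  · obtain ⟨d1, d2, d3, d4⟩ := hQ c6
    exact mk_mem_inE.2 ⟨c2, ⟨c3, hR c1⟩, c4, by linarith, by linarith, by linarith, by linarith⟩

lemma frac_bound {a b s D t : ℝ} (hD : 1 ≤ D) (hs : |s| ≤ 1) (h : |a| + |b| ≤ t) :
    |(a - s * b) / D| ≤ t := by
  rw [abs_div, abs_of_pos (by linarith : 0 < D), div_le_iff₀ (by linarith)]
  have h1 : |a - s * b| ≤ |a| + |b| := by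
    refine (abs_sub _ _).trans ?_
    rw [abs_mul]; nlinarith [abs_nonneg b]
  have h2 : 0 ≤ t := le_trans (by positivity) h
  nlinarith

theorem pieces {Δ : ℕ} (hΔ : DegLe G Δ) {o : V} {p ε κ c : ℝ} (hp0 : 0 ≤ p) (hp1 : p ≤ 1)
    {x y ξ ζ : V → ℝ} (hx : x o = 0) (hy : y o = 0) {r m : ℕ} (hm : m ≤ r) (hε : 0 < ε)
    (hε1 : ε ≤ 1) (hκ : 0 ≤ κ) (hκ1 : κ ≤ 1 / 3000) (l1 : Lin x y ξ) (l2 : Lin x y ζ)
    (l3 : Lip G ξ κ) (l4 : Lip G ζ κ) (hc1 : 1 ≤ c) (hc2 : c ≤ 1 + κ)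
    (hside : Pr (Fb hΔ o r) (wS p (inE G (ball G o m)))
        (fun ω => ¬ Ext G o {v | |ζ v| ≤ 1 ∧ |ξ v| ≤ 1} {v | |ζ v| ≤ 1} ω) ≤ ε ^ 4002)
    (htop : ∀ τ : ℝ, τ = 1 ∨ τ = -1 → Pr (Fb hΔ o r) (wS p (inE G (ball G o m)))
        (fun ω => ¬ Ext G o {v | |ζ v| ≤ 1 ∧ |ξ v| ≤ c} {v | 1 < ζ v ∧ -(2 * κ) ≤ τ * ξ v} ω)
          ≤ ε ^ 4002) :
    ∃ X Y : V → ℝ, Lin x y X ∧ Lin x y Y ∧ Lip G X (2 * κ) ∧ Lip G Y (2 * κ) ∧
      loc hΔ o r m X Y p ≤ ε ∧ loc hΔ o r m Y X p ≤ ε := by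
  have hw := wS_ok hp0 hp1 (inE G (ball G o m))
  have hξo : ξ o = 0 := by obtain ⟨a, b, h⟩ := l1; rw [h, hx, hy]; ring
  have hζo : ζ o = 0 := by obtain ⟨a, b, h⟩ := l2; rw [h, hx, hy]; ring
  have ho1 : o ∈ {v | |ζ v| ≤ 1 ∧ |ξ v| ≤ 1} := by simp [hξo, hζo]
  have ho2 : o ∈ {v | |ζ v| ≤ 1 ∧ |ξ v| ≤ c} := by simp [hξo, hζo]; linarith
  obtain ⟨⟨σ, j⟩, hj, hA⟩ := pigeon hw (({1, -1} : Finset ℝ) ×ˢ Finset.Icc (-1000 : ℤ) 1000)
    ⟨(1, 0), by simp⟩ _ (fun i => Ext G o {v | |ζ v| ≤ 1 ∧ |ξ v| ≤ 1}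
      {v | |i.1 * ξ v - 1| ≤ κ ∧ |ζ v - i.2 / 1000| ≤ 1 / 1000}) (fun _ => Ext_mono)
    (fun ω hω h => by
      obtain ⟨u, v, c1, c2, -, -, c5, c6, -, -, c9⟩ := Ext_imp hΔ ho1 hω h
      have d1 : |ζ v| ≤ 1 := c6
      have d2 : 1 < |ξ v| := not_le.1 fun h => c5 ⟨d1, h⟩
      have d3 := abs_le.1 (l3 u v c2)
      have d4 := abs_le.1 c1.2
      have d5 := abs_le.1 d1
      obtain ⟨j, hj1, hj2⟩ := grid (a := -1000) (b := 1000) (z := ζ v) (c := 0) (by norm_num)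
        le_rfl (by push_cast; linarith) (by push_cast; linarith)
      rw [add_zero] at hj2
      rcases lt_abs.1 d2 with d6 | d6
      · exact ⟨(1, j), by simpa using hj1, c9 _ ⟨abs_le.2 ⟨by linarith, by linarith⟩, hj2⟩⟩
      · exact ⟨(-1, j), by simpa using hj1, c9 _ ⟨abs_le.2 ⟨by linarith, by linarith⟩, hj2⟩⟩)
    hε (by
      rw [Finset.card_product, Finset.card_pair (by norm_num),
        show (Finset.Icc (-1000 : ℤ) 1000).card = 2001 by simp]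
      exact hside)
  simp only [Finset.mem_product, Finset.mem_insert, Finset.mem_singleton, Finset.mem_Icc] at hj hA
  obtain ⟨hσ, hj1, hj2⟩ := hj
  set t : ℝ := j / 1000 with ht
  have ht1 : |t| ≤ 1 := by
    have a1 : (-1000 : ℝ) ≤ j := by exact_mod_cast hj1
    have a2 : (j : ℝ) ≤ 1000 := by exact_mod_cast hj2
    rw [ht, abs_le]; constructor <;> linarith
  have hσ1 : |σ| = 1 := by rcases hσ with rfl | rfl <;> simp
  obtain ⟨τ, hτ, hτt⟩ : ∃ τ : ℝ, (τ = 1 ∨ τ = -1) ∧ τ * t ≤ 0 := by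
    rcases le_total t 0 with h | h
    · exact ⟨1, Or.inl rfl, by linarith⟩
    · exact ⟨-1, Or.inr rfl, by linarith⟩
  have hτ1 : |τ| = 1 := by rcases hτ with rfl | rfl <;> simp
  obtain ⟨k, hk, hB⟩ := pigeon hw (Finset.Icc (0 : ℤ) 1000) ⟨0, by simp⟩ _
    (fun i => Ext G o {v | |ζ v| ≤ 1 ∧ |ξ v| ≤ c}
      {v | |ζ v - 1| ≤ κ ∧ |σ * ξ v - τ * (i / 1000)| ≤ 1 / 1000 + 2 * κ}) (fun _ => Ext_mono)
    (fun ω hω h => by
      obtain ⟨u, v, c1, c2, -, -, -, ⟨d1, d2⟩, -, -, c9⟩ := Ext_imp hΔ ho2 hω h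
      have d3 := abs_le.1 (l3 u v c2)
      have d4 := abs_le.1 (l4 u v c2)
      have d5 := abs_le.1 c1.1
      have d6 := abs_le.1 c1.2
      obtain ⟨j, hj1, hj2⟩ := grid (a := 0) (b := 1000) (z := τ * σ * ξ v) (c := 2 * κ)
        (by norm_num) (by linarith) (by push_cast; linarith) (by
          push_cast
          rcases hσ with rfl | rfl <;> rcases hτ with rfl | rfl <;> linarith)
      refine ⟨j, hj1, c9 _ ⟨abs_le.2 ⟨by linarith, by linarith⟩, ?_⟩⟩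
      have d7 := abs_le.1 hj2
      rcases hτ with rfl | rfl <;> exact abs_le.2 ⟨by linarith, by linarith⟩)
    hε ((htop (τ * σ) (by rcases hσ with rfl | rfl <;> rcases hτ with rfl | rfl <;> simp)).trans
      (pow_le_pow_of_le_one hε.le hε1 (by simp)))
  rw [Finset.mem_Icc] at hk
  set s : ℝ := τ * (k / 1000) with hs
  have k1 : (0 : ℝ) ≤ k := by exact_mod_cast hk.1
  have k2 : (k : ℝ) ≤ 1000 := by exact_mod_cast hk.2
  have hs1 : |s| ≤ 1 := by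
    rw [hs, abs_mul, hτ1, one_mul, abs_le]; constructor <;> linarith
  set D : ℝ := 1 - s * t with hD
  have hD1 : 1 ≤ D := by
    have : s * t = τ * t * (k / 1000) := by rw [hs]; ring
    have : τ * t * (k / 1000) ≤ 0 := mul_nonpos_of_nonpos_of_nonneg hτt (by positivity)
    linarith
  have hD0 : D ≠ 0 := by linarith
  have hab : ∀ v, |σ * ξ v| = |ξ v| := fun v => by rw [abs_mul, hσ1, one_mul]
  let X : V → ℝ := fun v => (σ * ξ v - s * ζ v) / D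
  let Y : V → ℝ := fun v => (ζ v - t * (σ * ξ v)) / D
  have hbox : ∀ v, |ζ v| ≤ 1 → |ξ v| ≤ c → |X v| ≤ 3 ∧ |Y v| ≤ 3 := fun v h1 h2 =>
    ⟨frac_bound hD1 hs1 (by rw [hab]; linarith), frac_bound hD1 ht1 (by rw [hab]; linarith)⟩
  have hX1 : ∀ v, X v - 1 = ((σ * ξ v - 1) - s * (ζ v - t)) / D := fun v => by
    simp only [X]; field_simp; rw [hD]; ring
  have hY1 : ∀ v, Y v = ((ζ v - t) - t * (σ * ξ v - 1)) / D := fun v => by
    simp only [Y]; ring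
  have hX2 : ∀ v, X v = ((σ * ξ v - s) - s * (ζ v - 1)) / D := fun v => by
    simp only [X]; ring
  have hY2 : ∀ v, Y v - 1 = ((ζ v - 1) - t * (σ * ξ v - s)) / D := fun v => by
    simp only [Y]; field_simp; rw [hD]; ring
  refine ⟨X, Y, ?_, ?_, ?_, ?_, ?_, ?_⟩
  · have := l1.comb l2 (σ / D) (-s / D)
    convert this using 2; simp only [X]; ring
  · have := l1.comb l2 (-t * σ / D) (1 / D)
    convert this using 2; simp only [Y]; ring
  · intro u v huv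
    have : X u - X v = (σ * (ξ u - ξ v) - s * (ζ u - ζ v)) / D := by simp only [X]; ring
    rw [this]
    refine frac_bound hD1 hs1 ?_
    rw [abs_mul, hσ1]; linarith [l3 u v huv, l4 u v huv]
  · intro u v huv
    have : Y u - Y v = ((ζ u - ζ v) - t * (σ * (ξ u - ξ v))) / D := by simp only [Y]; ring
    rw [this]
    refine frac_bound hD1 ht1 ?_
    rw [abs_mul, hσ1]; linarith [l3 u v huv, l4 u v huv]
  · refine loc_le hΔ hm hp0 hp1 ho1 (fun v hv => ?_) (fun v hv => ?_) hA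
    · obtain ⟨a1, a2⟩ := hbox v hv.1 (hv.2.trans hc1)
      rw [abs_le] at a1 a2
      exact ⟨a1.1, a1.2, a2.1, a2.2⟩
    · have a1 : |X v - 1| ≤ 1 / 500 := by
        rw [hX1]; exact frac_bound hD1 hs1 (by linarith [hv.1, hv.2])
      have a2 : |Y v| ≤ 1 / 500 := by
        rw [hY1]; exact frac_bound hD1 ht1 (by linarith [hv.1, hv.2])
      rw [abs_le] at a1 a2
      exact ⟨by linarith, by linarith, a2.1, a2.2⟩
  · refine loc_le hΔ hm hp0 hp1 ho2 (fun v hv => ?_) (fun v hv => ?_) hB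
    · obtain ⟨a1, a2⟩ := hbox v hv.1 hv.2
      rw [abs_le] at a1 a2
      exact ⟨a2.1, a2.2, a1.1, a1.2⟩
    · have a1 : |Y v - 1| ≤ 1 / 500 := by
        rw [hY2]; exact frac_bound hD1 ht1 (by linarith [hv.1, hv.2])
      have a2 : |X v| ≤ 1 / 500 := by
        rw [hX2]; exact frac_bound hD1 hs1 (by linarith [hv.1, hv.2])
      rw [abs_le] at a1 a2
      exact ⟨by linarith, by linarith, a2.1, a2.2⟩

def Cover (G : SimpleGraph V) (o : V) (x y : V → ℝ) (R0 : ℕ) : Prop :=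
  ∀ a, ∃ γ : G ≃g G, a ∈ ball G (γ o) R0 ∧
    ∀ v, x (γ v) = x v + x (γ o) ∧ y (γ v) = y v + y (γ o)

lemma conn_map {ω : Set (Sym2 V)} (f : V → V) {a b : V} (h : Conn ω a b) :
    Conn (Sym2.map f '' ω) (f a) (f b) := by
  induction h with
  | refl => exact Conn.refl _ _
  | tail _ h2 ih => exact ih.tail ⟨_, h2, by simp⟩

lemma inE_map (γ : G ≃g G) {S S' : Set V} (h : ∀ v ∈ S, γ v ∈ S') :
    Sym2.map γ '' inE G S ⊆ inE G S' := by
  rintro _ ⟨e, he, rfl⟩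
  induction e using Sym2.ind with
  | _ a b =>
    obtain ⟨h1, h2, h3⟩ := mk_mem_inE.1 he
    rw [Sym2.map_mk]
    exact mk_mem_inE.2 ⟨γ.map_adj_iff.2 h1, h a h2, h b h3⟩

theorem move_of_loc {Δ : ℕ} (hΔ : DegLe G Δ) {o : V} {x y X Y : V → ℝ} {r m R0 : ℕ} {q ε κ : ℝ}
    (hq0 : 0 ≤ q) (hq1 : q ≤ 1) (hx : x o = 0) (hy : y o = 0) (hC : Cover G o x y R0)
    (l1 : Lin x y X) (l2 : Lin x y Y) (l3 : Lip G X κ) (l4 : Lip G Y κ) (hκ : 0 ≤ κ)
    (hκ1 : κ * (m + R0) ≤ 1 / 1000) (hm : m ≤ r) (h : loc hΔ o r m X Y q ≤ ε) :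
    MoveX G q ε (m + R0) (r + R0) X Y := by
  intro a F w hw hF
  obtain ⟨γ, ha, hγ⟩ := hC a
  have hXo : X o = 0 := by obtain ⟨a, b, h⟩ := l1; rw [h, hx, hy]; ring
  have hYo : Y o = 0 := by obtain ⟨a, b, h⟩ := l2; rw [h, hx, hy]; ring
  have eX : ∀ v, X (γ v) = X v + X (γ o) := fun v => by
    obtain ⟨a, b, h⟩ := l1; rw [h, h, h, (hγ v).1, (hγ v).2]; ring
  have eY : ∀ v, Y (γ v) = Y v + Y (γ o) := fun v => by
    obtain ⟨a, b, h⟩ := l2; rw [h, h, h, (hγ v).1, (hγ v).2]; ring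
  have m0 : (0 : ℝ) ≤ m := Nat.cast_nonneg _
  have r0 : (0 : ℝ) ≤ R0 := Nat.cast_nonneg _
  have dX := abs_le.1 ((l3.ball hκ ha).trans (show κ * R0 ≤ 1 / 1000 by nlinarith))
  have dY := abs_le.1 ((l4.ball hκ ha).trans (show κ * R0 ≤ 1 / 1000 by nlinarith))
  have hball : ∀ k, ∀ v ∈ ball G o k, γ v ∈ ball G a (k + R0) := fun k v hv => by
    rw [add_comm]; exact ball_trans (ball_symm ha) (iso_ball γ hv)
  let φ : Sym2 V ↪ Sym2 V := ⟨Sym2.map γ, Sym2.map.injective γ.injective⟩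
  set S := inE G (ball G o m) with hS
  let F1 := (Fb hΔ o r).filter (· ∈ inE G (Rg0 G o r X Y))
  have hSR : S ⊆ inE G (Rg0 G o r X Y) := by
    refine inE_mono fun v hv => ⟨ball_mono o hm hv, ?_⟩
    have d1 := abs_le.1 ((l3.ball hκ hv).trans (show κ * m ≤ 1 / 1000 by nlinarith))
    have d2 := abs_le.1 ((l4.ball hκ hv).trans (show κ * m ≤ 1 / 1000 by nlinarith))
    rw [hXo] at d1; rw [hYo] at d2
    exact ⟨by linarith, by linarith, by linarith, by linarith⟩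
  have hF1 : ∀ e ∈ F1.map φ, e ∈ F ∧ q ≤ w e := by
    intro e he
    obtain ⟨e', he', rfl⟩ := Finset.mem_map.1 he
    refine hF _ (inE_map γ (S := Rg0 G o r X Y) ?_ ⟨e', (Finset.mem_filter.1 he').2, rfl⟩)
    rintro v ⟨b0, b1, b2, b3, b4⟩
    refine ⟨hball _ v b0, ?_, ?_, ?_, ?_⟩ <;> simp only [eX v, eY v] <;> linarith
  set T := ball G a (r + R0) ∩
    box X Y (X a + 1 - 1 / 200) (X a + 1 + 1 / 200) (Y a - 1 / 200) (Y a + 1 / 200) with hT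
  let f : Set (Sym2 V) → ℝ := fun η => - ind (a ∉ cl T (η ∪ inE G (ball G a (m + R0))))
  have hf : Monotone f := fun η η' hη => neg_le_neg (ind_mono fun h1 h2 =>
    h1 (cl_mono subset_rfl (Set.union_subset_union_left _ hη) h2))
  have a1 : Ex F w (fun η => f (η ∩ (F1.map φ : Finset _))) ≤ Ex F w f :=
    Ex_mono hw fun η _ => hf Set.inter_subset_left
  rw [Ex_restrict' (F' := F1.map φ) w (fun e => ⟨fun h => ⟨(hF1 e h).1, h⟩, fun h => h.2⟩)] at a1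
  have a2 := Ex_mono_w (F1.map φ) (w := fun _ => q) (fun _ => ⟨hq0, hq1⟩) hw
    (fun e he => (hF1 e he).2) hf
  rw [Ex_map] at a2
  have a3 : loc hΔ o r m X Y q = Ex F1 (fun _ => q) (fun η => ind (o ∉ cl (Tg0 G o r X Y)
      (η ∪ S))) := by
    unfold loc Pr
    rw [← Ex_restrict' (F := Fb hΔ o r) (F' := F1) (U := inE G (Rg0 G o r X Y)) _
      (fun e => Finset.mem_filter)]
    refine Ex_congr fun η _ => ?_
    beta_reduce
    rw [Set.union_inter_distrib_right, Set.inter_eq_left.2 hSR]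
  have a4 : - loc hΔ o r m X Y q ≤ Ex F1 (fun _ => q) (fun η => f (φ '' η)) := by
    rw [a3, ← Ex_neg]
    refine Ex_mono (fun _ => ⟨hq0, hq1⟩) fun η _ => neg_le_neg (ind_mono fun h1 h2 => h1 ?_)
    obtain ⟨v, ⟨b0, b1, b2, b3, b4⟩, hc⟩ := h2
    refine ⟨γ v, ⟨hball _ v b0, ?_, ?_, ?_, ?_⟩, ?_⟩
    iterate 4 (simp only [eX v, eY v]; linarith)
    refine ((conn_map γ hc).mono ?_).trans (conn_of_ball Set.subset_union_right
      (ball_mono a (by omega) (ball_symm ha))).symm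
    rw [Set.image_union]
    exact Set.union_subset_union subset_rfl (inE_map γ (hball m))
  have a5 : Ex F w f = - Pr F w (fun η => a ∉ cl T (η ∪ inE G (ball G a (m + R0)))) :=
    Ex_neg F w _
  linarith

lemma StepP.mono {pl ph η ε ε' : ℝ} {m J : ℕ} (h : StepP G pl ph η ε m J) (hε : ε' ≤ ε) :
    StepP G pl ph η ε' m J := fun F w M T o h1 h2 h3 h4 h5 =>
  h F w M T o h1 h2 h3 h4 fun a ha ha' => ⟨(h5 a ha ha').1, (h5 a ha ha').2.trans hε⟩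

lemma arm_of_dat {Δ : ℕ} (hΔ : DegLe G Δ) {o : V} {pl p ph ε κ : ℝ} {m J r : ℕ} {X Y : V → ℝ}
    (h : Dat G pl p ph (1 / 10 ^ 10) ε κ m J r X Y) (hε : ε ≤ 1 / 20000) (hp0 : 0 < p)
    (hp1 : p ≤ 1) (hph : p ≤ ph) (hX : X o = 0) (hY : Y o = 0) :
    ∃ θ > 0, ∀ R, θ ≤ arm hΔ o p R := by
  refine ⟨p ^ (Fb hΔ o m).card * (1 / 2), by positivity, fun R => ?_⟩
  obtain ⟨F, h1, h2, h3, h4⟩ := coarse hΔ h hε hp0.le hp1 hph hX hY R
  have hw : Ok (fun _ : Sym2 V => p) := fun _ => ⟨hp0.le, hp1⟩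
  set S := inE G (ball G o m) with hS
  have hSF : ((Fb hΔ o m : Finset _) : Set (Sym2 V)) = S := by ext e; simp [mem_Fb, hS]
  rw [← arm_eq hΔ o p R h1 h2]
  unfold Pr at h4
  rw [Ex_wS h3] at h4
  have a1 := Pr_open (F := F) (s := Fb hΔ o m) (fun e he => h3 ((mem_Fb hΔ).1 he)) (fun _ => p)
  rw [hSF, Finset.prod_const] at a1
  have a2 := Ex_indep F (fun _ => p) S (f := fun ω => ind (S ⊆ ω))
    (g := fun ω => ind (far G o R (ω ∪ S)))
    (fun ω η => ind_congr ⟨fun h e he => (h he).elim (·.1) (fun h' => absurd he h'.2),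
      fun h e he => Or.inl ⟨h he, he⟩⟩)
    (fun ω η => by
      have : mix S ω η ∪ S = η ∪ S := by ext e; simp only [mem_mix, Set.mem_union]; tauto
      rw [this])
  have a3 : Ex F (fun _ => p) (fun ω => ind (S ⊆ ω) * ind (far G o R (ω ∪ S)))
      ≤ Pr F (fun _ => p) (far G o R) := by
    refine Ex_mono hw fun ω _ => ?_
    rw [← ind_and]
    exact ind_mono fun h => by rw [← Set.union_eq_left.2 h.1]; exact h.2
  rw [a2] at a3
  refine le_trans ?_ a3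
  unfold Pr at a1
  rw [a1]
  exact mul_le_mul_of_nonneg_left h4 (by positivity)

theorem crit {Δ : ℕ} (hΔ : DegLe G Δ) {o : V} {x y : V → ℝ} (hx : x o = 0) (hy : y o = 0)
    {L : ℝ} (hL : 1 ≤ L) (lx : Lip G x L) (ly : Lip G y L) (hS : Spread G x y) {R0 : ℕ}
    (hC : Cover G o x y R0) {p θ : ℝ} (hp0 : 0 < p) (hp1 : p < 1) (hθ : 0 < θ)
    (h : ∀ R, θ ≤ arm hΔ o p R) : ∃ q, 0 < q ∧ q < p ∧ ∃ θ' > 0, ∀ R, θ' ≤ arm hΔ o q R := by
  obtain ⟨ε1, hε1, hst⟩ := step hΔ (η := 1 / 10 ^ 10) (by positivity)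
  set ε := min ε1 (1 / 20000) with hε
  have hε0 : 0 < ε := lt_min hε1 (by norm_num)
  have hε2 : ε ≤ 1 / 20000 := min_le_right _ _
  have hε3 : (ε / 2) ^ 4002 < 1 := pow_lt_one₀ (by positivity) (by linarith) (by norm_num)
  obtain ⟨m, hm⟩ := base hΔ o hp0.le hp1.le hθ h (ε := ((ε / 2) ^ 4002) ^ 8 / 2) (by positivity)
  obtain ⟨J, hJ⟩ := hst (p / 2) p (by positivity) (by linarith) hp0.le hp1 (m + R0)
  set κ : ℝ := 1 / (3000 * ((m + R0 : ℕ) + J + 1)) with hκ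
  have hpos : (1 : ℝ) ≤ (m + R0 : ℕ) + J + 1 := by
    have : (0 : ℝ) ≤ (m + R0 : ℕ) + J := by positivity
    linarith
  have hκ0 : 0 < κ := by positivity
  have hκ1 : κ * ((m + R0 : ℕ) + J + 1) = 1 / 3000 := by rw [hκ]; field_simp
  have hκ2 : κ ≤ 1 / 3000 := by nlinarith
  obtain ⟨r, hr, ξ, ζ, l1, l2, l3, l4, c, hc1, hc2, hside, htop⟩ := shape hΔ hp0 hp1 hx hy hL lx ly
    hS (ε := (ε / 2) ^ 4002) (by positivity) (by positivity) hε3 (le_of_eq (by ring)) hm hκ0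
    (by linarith)
  obtain ⟨X, Y, k1, k2, k3, k4, k5, k6⟩ := pieces hΔ hp0.le hp1.le hx hy (by omega)
    (ε := ε / 2) (by positivity) (by linarith) hκ0.le hκ2 l1 l2 l3 l4 hc1 hc2 hside htop
  have hcont : ∀ X Y : V → ℝ, Continuous (loc hΔ o r m X Y) := fun X Y => by
    unfold loc Pr
    exact Ex_continuous _ (fun s _ => s) (fun _ => continuous_id) _
  have e1 := (hcont X Y).continuousAt.eventually_lt (g := fun _ => ε) continuousAt_const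
    (show loc hΔ o r m X Y p < ε by linarith)
  have e2 := (hcont Y X).continuousAt.eventually_lt (g := fun _ => ε) continuousAt_const
    (show loc hΔ o r m Y X p < ε by linarith)
  have e3 : ∀ᶠ q in nhds p, p / 2 < q := lt_mem_nhds (by linarith)
  obtain ⟨q, ⟨q1, q2, q3⟩, q4⟩ := ((((e1.and (e2.and e3)).filter_mono
    (nhdsWithin_le_nhds (s := Set.Iio p))).and self_mem_nhdsWithin)).exists
  have q4' : q < p := q4
  have hq0 : 0 < q := by linarith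
  have hsm : 2 * κ * (m + R0) ≤ 1 / 1000 := by
    have : (0 : ℝ) ≤ J := Nat.cast_nonneg _
    push_cast at hκ1
    nlinarith
  have hXo : X o = 0 := by obtain ⟨a, b, h⟩ := k1; rw [h, hx, hy]; ring
  have hYo : Y o = 0 := by obtain ⟨a, b, h⟩ := k2; rw [h, hx, hy]; ring
  refine ⟨q, hq0, q4', arm_of_dat hΔ (pl := p / 2) (ph := p) (ε := ε) (κ := 2 * κ) (m := m + R0)
    (J := J) (r := r + R0) (X := X) (Y := Y) ⟨hJ.mono (min_le_left _ _), q3.le, hε0.le,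
      by positivity, k3, k4, by linarith, by omega,
      move_of_loc hΔ hq0.le (by linarith) hx hy hC k1 k2 k3 k4 (by positivity) hsm (by omega) q1.le,
      move_of_loc hΔ hq0.le (by linarith) hx hy hC k2 k1 k4 k3 (by positivity) hsm (by omega) q2.le⟩
    hε2 hq0 (by linarith) q4'.le hXo hYo⟩

end Vale.Agent.P151
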