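import Mathlib

/-! Bernoulli bond percolation: definitions used in the statement. -/

namespace Vale.Agent.P151

variable {V : Type*}

/-- The configuration `ω` (the set of open edges) has an infinite open cluster. -/
def HasInfCluster (ω : Set (Sym2 V)) : Prop :=
  ∃ x : V, {y | (SimpleGraph.fromEdgeSet ω).Reachable x y}.Infinite

/-- Probability of an infinite open cluster when each edge of `G` is open independently with
probability `p`. -/
noncomputable def percProb (G : SimpleGraph V) (p : unitInterval) : ENNReal :=
  ProbabilityTheory.setBernoulli G.edgeSet p {ω | HasInfCluster ω}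

/-- The critical probability. -/
noncomputable def pc (G : SimpleGraph V) : unitInterval :=
  sInf {p : unitInterval | 0 < percProb G p}

/-- The critical probability is below one and at criticality there is a.s. no infinite cluster. -/
def NoCritPerc (G : SimpleGraph V) : Prop :=
  pc G < 1 ∧ percProb G (pc G) = 0

/-- The automorphism `γ` of `G` shifts the planar position `π` by the vector `t`. -/
def Shifts (G : SimpleGraph V) (π : V → ℝ × ℝ) (γ : G ≃g G) (t : ℝ × ℝ) : Prop :=
  ∀ v, π (γ v) = π v + t

/-- There is a map to the plane such that the automorphisms acting on it by translations have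
finitely many orbits on vertices, and two of these translations are linearly independent. -/
def PlanePeriodic (G : SimpleGraph V) : Prop :=
  ∃ π : V → ℝ × ℝ,
    (∃ s : Finset V, ∀ v, ∃ γ t, Shifts G π γ t ∧ γ v ∈ s) ∧
    ∃ γ₁ γ₂ t₁ t₂, Shifts G π γ₁ t₁ ∧ Shifts G π γ₂ t₂ ∧ t₁.1 * t₂.2 ≠ t₁.2 * t₂.1

/-- The nearest-neighbour lattice. -/
def zd (d : ℕ) : SimpleGraph (Fin d → ℤ) :=
  SimpleGraph.fromRel fun x y => ∑ i, |x i - y i| = 1

end Vale.Agent.P151
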