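import Vale.Agent.P151.Clus

/-! The gluing inequality of Kozma and Nitzan. -/

open Classical Finset

namespace Vale.Agent.P151

variable {V : Type*}

section
variable (F : Finset (Sym2 V)) (w : Sym2 V → ℝ) (x : V) (Y : Set V)

noncomputable def gam (g : Set V → ℝ) (S : Set V) : ℝ :=
  Ex F w (fun η => g (cl {x} (del S η)))

noncomputable def opT (g : Set V → ℝ) (K : Set V) : ℝ :=
  Ex F w (fun η => gam F w x g (cl Y (del K η)))

noncomputable def Dl (g : Set V → ℝ) (ω : Set (Sym2 V)) : ℝ :=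
  (g (cl {x} ω) - gam F w x g (cl Y ω)) * ind (x ∉ cl Y ω)

noncomputable def Psi (g : Set V → ℝ) (K : Set V) : ℝ :=
  Ex F w (fun η => (g (cl {x} (del (cl Y (del K η)) η)) - g (cl {x} (del K η)))
    * ind (x ∉ cl Y (del K η)))

noncomputable def opJ (h g : Set V → ℝ) : ℝ :=
  Ex F w (fun ω => g (cl {x} ω) * h (cl {x} ω) * ind (x ∉ cl Y ω))

end

variable {F : Finset (Sym2 V)} {w : Sym2 V → ℝ} {x : V} {Y : Set V}

lemma gam_anti (hw : Ok w) {g : Set V → ℝ} (hg : Monotone g) : Antitone (gam F w x g) :=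
  fun _ _ h => Ex_mono hw fun _ _ => hg (cl_mono subset_rfl (del_mono h subset_rfl))

lemma opT_mono (hw : Ok w) {g : Set V → ℝ} (hg : Monotone g) : Monotone (opT F w x Y g) :=
  fun _ _ h => Ex_mono hw fun _ _ => gam_anti hw hg (cl_mono subset_rfl (del_mono h subset_rfl))

lemma Psi_mono (hw : Ok w) {g : Set V → ℝ} (hg : Monotone g) : Monotone (Psi F w x Y g) := by
  intro K K' h
  refine Ex_mono hw fun η _ => ?_
  have hW : cl Y (del K' η) ⊆ cl Y (del K η) := cl_mono subset_rfl (del_mono h subset_rfl)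
  by_cases h1 : x ∈ cl Y (del K η)
  · rw [ind_false (not_not.2 h1), mul_zero]
    refine mul_nonneg' ?_
    intro h2
    refine sub_nonneg.2 (hg ?_)
    rw [← cl_del_of_disjoint (not_mem_cl_of h2)]
    exact cl_mono subset_rfl (del_mono subset_rfl (del_subset _ _))
  · have h2 : x ∉ cl Y (del K' η) := fun h' => h1 (hW h')
    rw [ind_true h1, ind_true h2, mul_one, mul_one]
    have a1 : g (cl {x} (del (cl Y (del K η)) η)) ≤ g (cl {x} (del (cl Y (del K' η)) η)) :=
      hg (cl_mono subset_rfl (del_mono hW subset_rfl))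
    have a2 : g (cl {x} (del K' η)) ≤ g (cl {x} (del K η)) :=
      hg (cl_mono subset_rfl (del_mono h subset_rfl))
    linarith
where
  mul_nonneg' {a : ℝ} {P : Prop} (h : P → 0 ≤ a) : 0 ≤ a * ind P := by
    by_cases hP : P
    · rw [ind_true hP, mul_one]; exact h hP
    · rw [ind_false hP, mul_zero]

lemma Ex_Dl_del (g : Set V → ℝ) (K : Set V) :
    Ex F w (fun η => Dl F w x Y g (del K η)) = - Psi F w x Y g K := by
  have h1 := markov F w K Y (fun S ζ => g (cl {x} ζ) * ind (x ∉ S))
  simp only [Ex_mul_const] at h1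
  unfold Dl Psi
  simp only [sub_mul]
  rw [Ex_sub, Ex_sub, h1]
  simp only [gam]
  ring

/-- the term of another cluster -/
lemma Ex_Dl_other (g φ : Set V → ℝ) (z : V) :
    Ex F w (fun ω => Dl F w x Y g ω * (φ (cl {z} ω) * ind (z ∉ cl (insert x Y) ω)))
      = - Ex F w (fun ω => Psi F w x Y g (cl {z} ω)
          * (φ (cl {z} ω) * ind (z ∉ cl (insert x Y) ω))) := by
  have h1 := markov0 F w {z}
    (fun K ζ => Dl F w x Y g ζ * (φ K * ind (¬ hit (insert x Y) K)))
  simp only [Ex_mul_const, Ex_Dl_del] at h1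
  simp only [mem_cl_iff (z := z)]
  rw [← Ex_neg]
  simp only [← neg_mul]
  rw [← h1]
  refine Ex_congr fun ω _ => ?_
  by_cases hz : hit (insert x Y) (cl {z} ω)
  · rw [ind_false (not_not.2 hz)]; simp
  · have hz' : z ∉ cl (insert x Y) ω := fun h => hz (mem_cl_iff.1 h)
    have e1 : cl {x} (del (cl {z} ω) ω) = cl {x} ω := by
      refine cl_del_of_disjoint fun v hv => not_mem_cl_of' hz' v ?_
      exact cl_mono (by simp) subset_rfl hv
    have e2 : cl Y (del (cl {z} ω) ω) = cl Y ω := by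
      refine cl_del_of_disjoint fun v hv => not_mem_cl_of' hz' v ?_
      exact cl_mono (Set.subset_insert _ _) subset_rfl hv
    simp only [Dl, e1, e2]

/-- the Harris term -/
lemma Ex_Dl_world (hw : Ok w) {g : Set V → ℝ} (hg : Monotone g)
    (u : Set V → Set (Sym2 V) → ℝ) (hu : ∀ S, Monotone (u S)) :
    0 ≤ Ex F w (fun ω => Dl F w x Y g ω * u (cl Y ω) (del (cl Y ω) ω)) := by
  have h1 := markov0 F w Y
    (fun S ζ => (g (cl {x} ζ) - gam F w x g S) * ind (x ∉ S) * u S ζ)
  have h2 : Ex F w (fun ω => Dl F w x Y g ω * u (cl Y ω) (del (cl Y ω) ω))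
      = Ex F w (fun ω => (g (cl {x} (del (cl Y ω) ω)) - gam F w x g (cl Y ω))
          * ind (x ∉ cl Y ω) * u (cl Y ω) (del (cl Y ω) ω)) := by
    refine Ex_congr fun ω _ => ?_
    by_cases hx : x ∈ cl Y ω
    · simp [Dl, hx]
    · rw [cl_del_of_disjoint (not_mem_cl_of hx)]; rfl
  rw [h2, h1]
  refine Ex_nonneg hw fun ω _ => ?_
  set S := cl Y ω
  have h3 := harris F hw (f := fun η => g (cl {x} (del S η))) (g := fun η => u S (del S η))
    (fun _ _ h => hg (cl_mono subset_rfl (del_mono subset_rfl h)))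
    (fun _ _ h => hu S (del_mono subset_rfl h))
  have h4 : Ex F w (fun η => (g (cl {x} (del S η)) - gam F w x g S) * ind (x ∉ S)
      * u S (del S η)) = ind (x ∉ S) * (Ex F w (fun η => g (cl {x} (del S η)) * u S (del S η))
        - gam F w x g S * Ex F w (fun η => u S (del S η))) := by
    rw [← Ex_const_mul, ← Ex_sub, ← Ex_const_mul]
    exact Ex_congr fun η _ => by ring
  rw [h4]
  exact mul_nonneg (ind_nonneg _) (sub_nonneg.2 h3)

lemma opJ_step (h g : Set V → ℝ) :
    opJ F w x Y h g = Ex F w (fun ω => Dl F w x Y g ω * h (cl {x} ω))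
      + opJ F w x Y h (opT F w x Y g) := by
  have h1 := markov0 F w {x}
    (fun K ζ => gam F w x g (cl Y ζ) * (h K * ind (¬ hit Y K)))
  simp only [Ex_mul_const] at h1
  have h2 : opJ F w x Y h (opT F w x Y g)
      = Ex F w (fun ω => gam F w x g (cl Y ω) * h (cl {x} ω) * ind (x ∉ cl Y ω)) := by
    unfold opJ
    simp only [mem_cl_iff (z := x), mul_assoc]
    unfold opT
    rw [← h1]
    refine Ex_congr fun ω _ => ?_
    by_cases hx : hit Y (cl {x} ω)
    · simp [hx]
    · have hx' : x ∉ cl Y ω := fun h => hx (mem_cl_iff.1 h)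
      rw [cl_del_of_disjoint (not_mem_cl_of' hx')]
  rw [h2, ← Ex_add]
  unfold opJ Dl
  exact Ex_congr fun ω _ => by ring

lemma gam_bounds (hw : Ok w) {g : Set V → ℝ} {lo r : ℝ}
    (hb : ∀ η, lo ≤ g (cl {x} η) ∧ g (cl {x} η) ≤ lo + r) (S : Set V) :
    lo + (∏ e ∈ F, (1 - w e)) * (g {x} - lo) ≤ gam F w x g S ∧
      gam F w x g S ≤ lo + (∏ e ∈ F, (1 - w e)) * (g {x} - lo)
        + (1 - ∏ e ∈ F, (1 - w e)) * r := by
  have h1 := Ex_ge_closed (F := F) hw (f := fun η => g (cl {x} (del S η)) - lo)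
    (fun η _ => sub_nonneg.2 (hb _).1)
  have h2 := Ex_ge_closed (F := F) hw (f := fun η => lo + r - g (cl {x} (del S η)))
    (fun η _ => sub_nonneg.2 (hb _).2)
  rw [Ex_sub] at h1 h2
  simp only [Ex_const, del_nil, cl_nil] at h1 h2
  unfold gam
  constructor <;> nlinarith

lemma opJ_nonneg (hw : Ok w) (hw1 : ∀ e, w e < 1) (h : Set V → ℝ)
    (h0 : opJ F w x Y h (fun _ => 1) = 0)
    (hI : ∀ g : Set V → ℝ, Monotone g → 0 ≤ Ex F w (fun ω => Dl F w x Y g ω * h (cl {x} ω)))
    (g : Set V → ℝ) (hg : Monotone g) : 0 ≤ opJ F w x Y h g := by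
  set q := ∏ e ∈ F, (1 - w e) with hq
  have hq0 : 0 < q := Finset.prod_pos fun e _ => sub_pos.2 (hw1 e)
  have hq1 : q ≤ 1 := Finset.prod_le_one (fun e _ => sub_nonneg.2 (hw e).2)
    (fun e _ => by linarith [(hw e).1])
  set M := Ex F w (fun ω => |h (cl {x} ω)|) with hM
  have key : ∀ n : ℕ, ∀ (g : Set V → ℝ) (lo r : ℝ), Monotone g →
      (∀ η, lo ≤ g (cl {x} η) ∧ g (cl {x} η) ≤ lo + r) →
      -((1 - q) ^ n * r * M) ≤ opJ F w x Y h g := by
    intro n
    induction n with
    | zero =>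
      intro g lo r _ hb
      have e1 : opJ F w x Y h g
          = Ex F w (fun ω => (g (cl {x} ω) - lo) * h (cl {x} ω) * ind (x ∉ cl Y ω)) := by
        have : opJ F w x Y h g = opJ F w x Y h g - lo * opJ F w x Y h (fun _ => 1) := by
          rw [h0]; ring
        rw [this]; unfold opJ
        rw [← Ex_const_mul, ← Ex_sub]
        exact Ex_congr fun ω _ => by ring
      rw [e1, pow_zero, one_mul, hM, ← Ex_const_mul, ← Ex_neg]
      refine Ex_mono hw fun ω _ => ?_
      have a1 := (hb ω).1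
      have a2 := (hb ω).2
      have a3 := neg_abs_le (h (cl {x} ω))
      have a4 := abs_nonneg (h (cl {x} ω))
      by_cases hx : x ∈ cl Y ω
      · rw [ind_false (not_not.2 hx), mul_zero]; nlinarith
      · rw [ind_true hx, mul_one]; nlinarith
    | succ n ih =>
      intro g lo r hg hb
      rw [opJ_step]
      have a1 := hI g hg
      have a2 := ih (opT F w x Y g) (lo + q * (g {x} - lo)) ((1 - q) * r) (opT_mono hw hg)
        (fun η => ⟨le_Ex_const hw fun ζ _ => (gam_bounds hw hb _).1,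
          Ex_le_const hw fun ζ _ => (gam_bounds hw hb _).2⟩)
      have : (1 - q) ^ (n + 1) * r * M = (1 - q) ^ n * ((1 - q) * r) * M := by ring
      rw [this]; linarith
  have hb : ∀ η, g ∅ ≤ g (cl {x} η) ∧ g (cl {x} η) ≤ g ∅ + (g Set.univ - g ∅) := fun η =>
    ⟨hg (Set.empty_subset _), by linarith [hg (Set.subset_univ (cl {x} η))]⟩
  have hlim : Filter.Tendsto (fun n : ℕ => -((1 - q) ^ n * (g Set.univ - g ∅) * M))
      Filter.atTop (nhds (-(0 * (g Set.univ - g ∅) * M))) :=
    (((tendsto_pow_atTop_nhds_zero_of_lt_one (by linarith) (by linarith)).mul_const _).mul_const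
      _).neg
  have := le_of_tendsto' hlim fun n => key n g _ _ hg hb
  simpa using this

/-- The statement carried through the induction. -/
def GlueQ (F : Finset (Sym2 V)) (w : Sym2 V → ℝ) (o : V) (Y : Set V) (A : Finset V) : Prop :=
  ∃ μ : V → ℝ, (∀ a, 0 ≤ μ a) ∧ ∀ G : Set V → ℝ, Monotone G →
    ∑ a ∈ A, μ a * Ex F w (fun ω => G (cl {a} ω) * ind (a ∉ cl Y ω))
      ≤ Ex F w (fun ω => G (cl {o} ω) * (ind (hit A (cl {o} ω)) * ind (o ∉ cl Y ω)))

theorem glueQ (hw : Ok w) (hw1 : ∀ e, w e < 1) (o : V) (A : Finset V) :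
    o ∉ A → ∀ Y : Set V, (∀ a ∈ A, a ∉ Y) → GlueQ F w o Y A := by
  induction A using Finset.induction_on with
  | empty =>
    intro _ Y _
    refine ⟨fun _ => 0, fun _ => le_rfl, fun G _ => ?_⟩
    simp [hit]
  | insert x A hxA ih =>
    intro ho Y hY
    have hox : o ≠ x := fun h => ho (h ▸ Finset.mem_insert_self _ _)
    have hxY : x ∉ Y := hY x (Finset.mem_insert_self _ _)
    obtain ⟨μ, hμ0, hμ⟩ := ih (fun h => ho (Finset.mem_insert_of_mem h)) (insert x Y) (by
      intro a ha h
      rcases h with rfl | h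
      · exact hxA ha
      · exact hY a (Finset.mem_insert_of_mem ha) h)
    set q := ∏ e ∈ F, (1 - w e) with hq
    have hq0 : 0 < q := Finset.prod_pos fun e _ => sub_pos.2 (hw1 e)
    let h' : Set V → ℝ := fun S => ind (o ∈ S) - ∑ a ∈ A, μ a * ind (a ∈ S)
    set PD := Ex F w (fun ω => ind (x ∉ cl Y ω)) with hPD
    have hPD0 : 0 < PD := by
      have := Ex_ge_closed (F := F) hw (f := fun ω => ind (x ∉ cl Y ω)) (fun _ _ => ind_nonneg _)
      simp only [cl_nil, ind_true hxY, mul_one] at this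
      exact lt_of_lt_of_le hq0 this
    set μ0 := Ex F w (fun ω => h' (cl {x} ω) * ind (x ∉ cl Y ω)) / PD with hμ0def
    let h : Set V → ℝ := fun S => h' S - μ0
    have h0 : opJ F w x Y h (fun _ => 1) = 0 := by
      have : opJ F w x Y h (fun _ => 1)
          = Ex F w (fun ω => h' (cl {x} ω) * ind (x ∉ cl Y ω)) - μ0 * PD := by
        unfold opJ
        rw [hPD, ← Ex_const_mul, ← Ex_sub]
        exact Ex_congr fun ω _ => by simp only [h]; ring
      rw [this, hμ0def]; field_simp; ring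
    have hI : ∀ g : Set V → ℝ, Monotone g →
        0 ≤ Ex F w (fun ω => Dl F w x Y g ω * h (cl {x} ω)) := by
      intro g hg
      let u : Set V → Set (Sym2 V) → ℝ := fun S η =>
        ind (hit (insert x A) (cl {o} η)) * ind (o ∉ S) - ∑ a ∈ A, μ a * ind (a ∉ S) - μ0
      have hu : ∀ S, Monotone (u S) := by
        intro S η η' hη
        have : ind (hit (insert x (A : Set V)) (cl {o} η))
            ≤ ind (hit (insert x (A : Set V)) (cl {o} η')) :=
          ind_mono (hit_mono (cl_mono subset_rfl hη))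
        have := mul_le_mul_of_nonneg_right this (ind_nonneg (o ∉ S))
        simp only [u]; linarith
      have b1 := Ex_Dl_world (F := F) (x := x) (Y := Y) hw hg u hu
      have b2 := Ex_Dl_other (F := F) (w := w) (x := x) (Y := Y) g (fun K => ind (hit A K)) o
      have b3 := fun a => Ex_Dl_other (F := F) (w := w) (x := x) (Y := Y) g (fun _ => 1) a
      have b4 := hμ _ (Psi_mono (F := F) (x := x) (Y := Y) hw hg)
      simp only [one_mul] at b3
      have b5 : Ex F w (fun ω => Dl F w x Y g ω * h (cl {x} ω))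
          = Ex F w (fun ω => Dl F w x Y g ω * u (cl Y ω) (del (cl Y ω) ω))
            - Ex F w (fun ω => Dl F w x Y g ω
              * (ind (hit A (cl {o} ω)) * ind (o ∉ cl (insert x Y) ω)))
            + ∑ a ∈ A, μ a * Ex F w (fun ω => Dl F w x Y g ω
              * ind (a ∉ cl (insert x Y) ω)) := by
        simp only [← Ex_const_mul]
        rw [← Ex_sum, ← Ex_sub, ← Ex_add]
        refine Ex_congr fun ω _ => ?_
        by_cases hx : x ∈ cl Y ω
        · simp [Dl, hx]
        · have c1 : ∀ a, ind (a ∈ cl {x} ω) = ind (a ∉ cl Y ω) - ind (a ∉ cl (insert x Y) ω) := by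
            intro a
            simp only [mem_cl_insert, ← mem_cl_single]
            by_cases h1 : a ∈ cl {x} ω
            · have := not_mem_cl_of hx a h1
              simp [h1, this]
            · by_cases h2 : a ∈ cl Y ω <;> simp [h1, h2]
          have c2 : ind (o ∈ cl {x} ω)
              = ind (hit (insert x A) (cl {o} (del (cl Y ω) ω))) * ind (o ∉ cl Y ω)
                - ind (hit A (cl {o} ω)) * ind (o ∉ cl (insert x Y) ω) := by
            by_cases h2 : o ∈ cl Y ω
            · have h1 : o ∉ cl {x} ω := fun h => not_mem_cl_of hx o h h2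
              have h3 : o ∈ cl (insert x Y) ω := mem_cl_insert.2 (Or.inr h2)
              simp [h1, h2, h3]
            · rw [cl_del_of_disjoint (not_mem_cl_of h2)]
              simp only [← mem_cl_iff, mem_cl_insert, ← mem_cl_single]
              by_cases h1 : o ∈ cl {x} ω
              · simp [h1, h2]
              · by_cases h3 : o ∈ cl (A : Set V) ω <;> simp [h1, h2, h3]
          simp only [h, h', u]
          rw [c2]
          simp only [c1, mul_sub, Finset.sum_sub_distrib, Finset.mul_sum]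
          have : ∀ a, μ a * (Dl F w x Y g ω * ind (a ∉ cl (insert x Y) ω))
              = Dl F w x Y g ω * (μ a * ind (a ∉ cl (insert x Y) ω)) := fun a => by ring
          simp only [this]
          ring
      rw [b5, b2]
      simp only [b3, mul_neg, Finset.sum_neg_distrib]
      linarith
    have hJ := opJ_nonneg hw hw1 h h0 hI
    have hμ00 : 0 ≤ μ0 := by
      have a1 := hJ (fun S => ind (¬ S ⊆ {x})) (fun S S' hS =>
        ind_mono fun h1 h2 => h1 (hS.trans h2))
      have a2 : opJ F w x Y h (fun S => ind (¬ S ⊆ {x}))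
          = opJ F w x Y h (fun _ => 1)
            + μ0 * Ex F w (fun ω => ind (cl {x} ω ⊆ {x}) * ind (x ∉ cl Y ω)) := by
        unfold opJ
        rw [← Ex_const_mul, ← Ex_add]
        refine Ex_congr fun ω _ => ?_
        by_cases hs : cl {x} ω ⊆ {x}
        · have e1 : o ∉ cl {x} ω := fun h => hox (hs h)
          have e2 : ∑ a ∈ A, μ a * ind (a ∈ cl {x} ω) = 0 := by
            refine Finset.sum_eq_zero fun a ha => ?_
            rw [ind_false, mul_zero]
            intro h
            exact hxA ((hs h) ▸ ha)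
          simp only [h, h', e2, ind_false e1, ind_true hs, ind_false (not_not.2 hs)]
          ring
        · simp [hs]
      have a3 := Ex_ge_closed (F := F) hw
        (f := fun ω => ind (cl {x} ω ⊆ {x}) * ind (x ∉ cl Y ω))
        (fun _ _ => mul_nonneg (ind_nonneg _) (ind_nonneg _))
      simp only [cl_nil, ind_true hxY, mul_one, subset_refl, ind_true] at a3
      rw [a2, h0, zero_add] at a1
      exact nonneg_of_mul_nonneg_left a1 (lt_of_lt_of_le hq0 a3)
    refine ⟨Function.update μ x μ0, fun a => ?_, fun G hG => ?_⟩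
    · by_cases ha : a = x
      · subst ha; simpa using hμ00
      · rw [Function.update_of_ne ha]; exact hμ0 a
    · rw [Finset.sum_insert hxA, Function.update_self]
      have e0 : ∑ a ∈ A, Function.update μ x μ0 a
            * Ex F w (fun ω => G (cl {a} ω) * ind (a ∉ cl Y ω))
          = ∑ a ∈ A, μ a * Ex F w (fun ω => G (cl {a} ω) * ind (a ∉ cl Y ω)) :=
        Finset.sum_congr rfl fun a ha => by
          rw [Function.update_of_ne (fun h : a = x => hxA (h ▸ ha))]
      rw [e0]
      have a1 := hJ G hG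
      have a2 := hμ G hG
      have a3 : opJ F w x Y h G
          = (Ex F w (fun ω => G (cl {o} ω)
              * (ind (hit (↑(insert x A)) (cl {o} ω)) * ind (o ∉ cl Y ω)))
            - Ex F w (fun ω => G (cl {o} ω)
              * (ind (hit A (cl {o} ω)) * ind (o ∉ cl (insert x Y) ω))))
            - (∑ a ∈ A, μ a * Ex F w (fun ω => G (cl {a} ω) * ind (a ∉ cl Y ω))
              - ∑ a ∈ A, μ a * Ex F w (fun ω => G (cl {a} ω) * ind (a ∉ cl (insert x Y) ω)))
            - μ0 * Ex F w (fun ω => G (cl {x} ω) * ind (x ∉ cl Y ω)) := by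
        unfold opJ
        simp only [← Ex_const_mul]
        rw [← Ex_sum, ← Ex_sum, ← Ex_sub, ← Ex_sub, ← Ex_sub, ← Ex_sub]
        refine Ex_congr fun ω _ => ?_
        have c1 : ∀ a, G (cl {x} ω) * ind (a ∈ cl {x} ω) * ind (x ∉ cl Y ω)
            = G (cl {a} ω) * ind (a ∉ cl Y ω) - G (cl {a} ω) * ind (a ∉ cl (insert x Y) ω) := by
          intro a
          simp only [mem_cl_insert, ← mem_cl_single]
          by_cases h1 : a ∈ cl {x} ω
          · have e1 := cl_eq_of_conn (mem_cl_single.1 h1)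
            have e2 : x ∉ cl Y ω ↔ a ∉ cl Y ω := by
              rw [mem_cl_iff, mem_cl_iff (z := a), e1]
            rw [ind_congr e2, ← e1]; simp [h1]
          · simp [h1]
        have c2 : G (cl {x} ω) * ind (o ∈ cl {x} ω) * ind (x ∉ cl Y ω)
            = G (cl {o} ω) * (ind (hit (↑(insert x A)) (cl {o} ω)) * ind (o ∉ cl Y ω))
              - G (cl {o} ω) * (ind (hit A (cl {o} ω)) * ind (o ∉ cl (insert x Y) ω)) := by
          simp only [← mem_cl_iff, Finset.coe_insert, mem_cl_insert, ← mem_cl_single]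
          by_cases h1 : o ∈ cl {x} ω
          · have e1 := cl_eq_of_conn (mem_cl_single.1 h1)
            have e2 : x ∉ cl Y ω ↔ o ∉ cl Y ω := by
              rw [mem_cl_iff, mem_cl_iff (z := o), e1]
            rw [ind_congr e2, ← e1]; simp [h1]
          · simp [h1]
        rw [← Finset.sum_sub_distrib]
        rw [← c2]
        simp only [← mul_sub, ← c1, h, h']
        simp only [mul_sub, sub_mul, Finset.mul_sum, Finset.sum_mul]
        have : ∀ a, G (cl {x} ω) * (μ a * ind (a ∈ cl {x} ω)) * ind (x ∉ cl Y ω)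
            = μ a * (G (cl {x} ω) * ind (a ∈ cl {x} ω) * ind (x ∉ cl Y ω)) := fun a => by ring
        simp only [this]
        ring
      linarith

lemma glue_lt (hw : Ok w) (hw1 : ∀ e, w e < 1) (o : V) (A : Finset V) (B : Set V) {t : ℝ}
    (ht0 : 0 ≤ t) (ht : ∀ a ∈ A, Pr F w (fun ω => a ∉ cl B ω) ≤ t) :
    Pr F w (fun ω => o ∈ cl A ω ∧ o ∉ cl B ω) ≤ t := by
  by_cases ho : o ∈ A
  · exact (Pr_mono hw fun ω _ h => h.2).trans (ht o ho)
  obtain ⟨μ, hμ0, hμ⟩ := glueQ (F := F) hw hw1 o A ho ∅ (by simp)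
  have hc : ∀ (ω : Set (Sym2 V)) (a : V), a ∉ cl (∅ : Set V) ω := by
    intro ω a; simp [cl]
  simp only [ind_true (hc _ _), mul_one] at hμ
  have a1 := hμ (fun S => - ind (¬ hit B S)) (fun S S' hS =>
    neg_le_neg (ind_mono fun h1 h2 => h1 (hit_mono hS h2)))
  have a2 := hμ (fun _ => 1) (fun _ _ _ => le_rfl)
  simp only [Ex_const, mul_one, one_mul] at a2
  simp only [neg_mul, Ex_neg, mul_neg, Finset.sum_neg_distrib, ← mem_cl_iff] at a1
  have a3 : ∑ a ∈ A, μ a * Ex F w (fun ω => ind (a ∉ cl B ω)) ≤ ∑ a ∈ A, μ a * t :=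
    Finset.sum_le_sum fun a ha => mul_le_mul_of_nonneg_left (ht a ha) (hμ0 a)
  rw [← Finset.sum_mul] at a3
  have a4 : ∑ a ∈ A, μ a ≤ 1 := a2.trans (Ex_le_const hw fun _ _ => ind_le_one _)
  have a5 : Pr F w (fun ω => o ∈ cl A ω ∧ o ∉ cl B ω)
      = Ex F w (fun ω => ind (o ∉ cl B ω) * ind (o ∈ cl A ω)) :=
    Ex_congr fun ω _ => by rw [ind_and, mul_comm]
  rw [a5]
  nlinarith

/-- The gluing inequality. -/
theorem glue (hw : Ok w) (o : V) (A : Finset V) (B : Set V) {t : ℝ}
    (ht0 : 0 ≤ t) (ht : ∀ a ∈ A, Pr F w (fun ω => a ∉ cl B ω) ≤ t) :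
    Pr F w (fun ω => o ∈ cl A ω ∧ o ∉ cl B ω) ≤ t := by
  let ws : ℝ → Sym2 V → ℝ := fun s e => s * w e
  have hc : ∀ f, Continuous fun s => Ex F (ws s) f := fun f =>
    Ex_continuous F ws (fun e => by simp only [ws]; fun_prop) f
  have h1 : ws 1 = w := by ext e; simp [ws]
  let L : ℝ → ℝ := fun s => Pr F (ws s) (fun ω => o ∈ cl A ω ∧ o ∉ cl B ω)
  let R : ℝ → ℝ := fun s => t + ∑ a ∈ A,
    |Pr F (ws s) (fun ω => a ∉ cl B ω) - Pr F w (fun ω => a ∉ cl B ω)|
  have hL : Continuous L := hc _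
  have hR : Continuous R := continuous_const.add
    (continuous_finset_sum _ fun a _ => ((hc _).sub continuous_const).abs)
  have hle : ∀ s ∈ Set.Ioo (0 : ℝ) 1, L s ≤ R s := by
    intro s hs
    have hws : Ok (ws s) := fun e => ⟨mul_nonneg hs.1.le (hw e).1, by
      simp only [ws]; nlinarith [(hw e).1, (hw e).2, hs.1, hs.2]⟩
    have hws1 : ∀ e, ws s e < 1 := fun e => by
      simp only [ws]; nlinarith [(hw e).1, (hw e).2, hs.1, hs.2]
    refine glue_lt hws hws1 o A B (add_nonneg ht0 (Finset.sum_nonneg fun _ _ => abs_nonneg _)) ?_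
    intro a ha
    have b1 := Finset.single_le_sum (s := A) (f := fun a =>
      |Pr F (ws s) (fun ω => a ∉ cl B ω) - Pr F w (fun ω => a ∉ cl B ω)|)
      (fun _ _ => abs_nonneg _) ha
    have b2 := le_abs_self (Pr F (ws s) (fun ω => a ∉ cl B ω) - Pr F w (fun ω => a ∉ cl B ω))
    have b3 := ht a ha
    simp only [R]; linarith
  have h2 : L 1 ≤ R 1 := by
    have := le_on_closure hle hL.continuousOn hR.continuousOn (x := 1)
      (by rw [closure_Ioo (by norm_num)]; simp)
    exact this
  simpa [L, R, h1] using h2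

end Vale.Agent.P151
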