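import Vale.Agent.P151.Crit
import Vale.Agent.P151.Bridge

/-! The main theorem for plane-periodic graphs. -/

open Classical Finset unitInterval

namespace Vale.Agent.P151

variable {V : Type*} {G : SimpleGraph V}

lemma Ex_one {E : Type*} (F : Finset E) (f : Set E → ℝ) : Ex F (fun _ => 1) f = f F := by
  induction F using Finset.induction_on generalizing f with
  | empty => simp
  | insert a F ha ih => rw [Ex_insert ha, ih, ih]; simp

lemma stepP_near {Δ : ℕ} (hΔ : DegLe G Δ) {pl ph η ε : ℝ} {m : ℕ} (h0 : 0 ≤ pl) (h1 : pl ≤ 1)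
    (hε : 0 ≤ ε) (h : ε + (1 - pl ^ (((Δ + 1) ^ m) ^ 2)) ≤ η) : StepP G pl ph η ε m 0 := by
  intro F w M T o hF hw ho _ hs
  have hη : 0 ≤ η := by linarith [pow_le_one₀ (n := ((Δ + 1) ^ m) ^ 2) h0 h1]
  let A : Finset V := (F.biUnion fun e => e.toFinset).filter fun a => a ∈ M ∧ a ∈ nb G Mᶜ 1
  refine le_trans (Pr_mono hw fun ω hω h => ?_) (glue hw o A T hη fun a ha => ?_)
  · refine ⟨?_, h.2⟩
    obtain ⟨y, hy, hc⟩ := h.1
    obtain ⟨u, v, b1, b2, b3, b4⟩ := exit_of_conn (G := G) (R := Mᶜ) (hω.trans hF) hc.symm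
      (fun h => ho (subset_nb M _ h)) (not_not.2 hy)
    refine ⟨v, Finset.mem_coe.2 (Finset.mem_filter.2 ⟨Finset.mem_biUnion.2 ⟨_, hω b3, by simp⟩,
      not_not.1 b4, Or.inr ⟨u, b2, hF (hω b3)⟩⟩), ?_⟩
    exact ((b1.mono Set.inter_subset_left).tail b3).symm
  · obtain ⟨-, a1, a2⟩ := Finset.mem_filter.1 ha
    obtain ⟨b1, b2⟩ := hs a a1 (nb_mono _ (by omega) a2)
    have hsub : ∀ e ∈ Fb hΔ a m, e ∈ F ∧ pl ≤ w e := fun e he =>
      b1 e (inE_mono (ball_mono a (Nat.le_succ m)) ((mem_Fb hΔ).1 he))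
    have c1 : Pr F w (fun ω => ¬ ((Fb hΔ a m : Finset _) : Set (Sym2 V)) ⊆ ω)
        ≤ 1 - pl ^ (((Δ + 1) ^ m) ^ 2) := by
      rw [Pr_not, Pr_open fun e he => (hsub e he).1]
      obtain ⟨s, hs1, hs2⟩ := inE_card hΔ a m
      have hc : (Fb hΔ a m).card ≤ ((Δ + 1) ^ m) ^ 2 :=
        (Finset.card_le_card (fun x hx => hs2 ((mem_Fb hΔ).1 hx))).trans hs1
      have : pl ^ (((Δ + 1) ^ m) ^ 2) ≤ ∏ e ∈ Fb hΔ a m, w e :=
        calc _ ≤ pl ^ (Fb hΔ a m).card := pow_le_pow_of_le_one h0 h1 hc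
          _ = ∏ _x ∈ Fb hΔ a m, pl := by simp
          _ ≤ _ := Finset.prod_le_prod (fun _ _ => h0) fun x hx => (hsub x hx).2
      linarith
    refine le_trans (Pr_le_add hw fun ω _ h => ?_) ((add_le_add b2 c1).trans h)
    by_cases hh : ((Fb hΔ a m : Finset _) : Set (Sym2 V)) ⊆ ω
    · left
      rwa [Set.union_eq_left.2 fun e he => hh ((mem_Fb hΔ).2 he)]
    · exact Or.inr hh

lemma loc_one {Δ : ℕ} (hΔ : DegLe G Δ) {o : V} {X Y : V → ℝ} {κ : ℝ} (γ : G ≃g G) {k d r : ℕ}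
    (hk : 0 < k) (hX : ∀ v, X (γ v) = X v + 1 / k) (hY : ∀ v, Y (γ v) = Y v)
    (hXo : X o = 0) (hYo : Y o = 0) (hd : γ o ∈ ball G o d) (l3 : Lip G X κ) (l4 : Lip G Y κ)
    (hκ : 0 ≤ κ) (hκd : κ * d ≤ 1) (hr : k * d ≤ r) : loc hΔ o r 0 X Y 1 = 0 := by
  have hk' : (0 : ℝ) < k := by exact_mod_cast hk
  have key : ∀ j ≤ k, ∃ u, u ∈ ball G o (j * d) ∧ γ u ∈ ball G u d ∧ X u = j / k ∧ Y u = 0 ∧
      Conn (inE G (Rg0 G o r X Y)) o u := by
    intro j hj
    induction j with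
    | zero => exact ⟨o, self_mem_ball _ _, hd, by simp [hXo], hYo, Conn.refl _ _⟩
    | succ j ih =>
      obtain ⟨u, h1, h2, h3, h4, h5⟩ := ih (by omega)
      have e : (j + 1) * d = j * d + d := by ring
      refine ⟨γ u, e ▸ ball_trans h1 h2, iso_ball γ h2, by rw [hX, h3]; push_cast; ring,
        by rw [hY, h4], h5.trans (conn_of_ball (inE_mono fun v hv => ?_) h2)⟩
      have a1 := abs_le.1 ((l3.ball hκ hv).trans hκd)
      have a2 := abs_le.1 ((l4.ball hκ hv).trans hκd)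
      have a3 : (0 : ℝ) ≤ j / k := by positivity
      have a4 : (j : ℝ) / k ≤ 1 := by
        rw [div_le_one hk']; exact_mod_cast (by omega : j ≤ k)
      have a5 : (j + 1) * d ≤ k * d := Nat.mul_le_mul_right d hj
      exact ⟨ball_mono o (by omega) (ball_trans h1 hv), by linarith, by linarith, by linarith,
        by linarith⟩
  obtain ⟨u, h1, -, h3, h4, h5⟩ := key k le_rfl
  rw [div_self hk'.ne'] at h3
  unfold loc Pr
  rw [Ex_one, ind_false]
  refine not_not.2 ⟨u, ⟨ball_mono o hr h1, by linarith, by linarith, by linarith, by linarith⟩,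
    (h5.mono fun e he => ?_).symm⟩
  exact ⟨Or.inl ((mem_Fb hΔ).2 (inE_mono Set.inter_subset_left he)), he⟩

lemma Shifts.symm {π : V → ℝ × ℝ} {γ : G ≃g G} {t : ℝ × ℝ} (h : Shifts G π γ t) :
    Shifts G π γ.symm (-t) := fun v => by
  have := h (γ.symm v)
  rw [RelIso.apply_symm_apply] at this
  rw [this]; abel

lemma Shifts.pow {π : V → ℝ × ℝ} {γ : G ≃g G} {t : ℝ × ℝ} (h : Shifts G π γ t) (k : ℕ) :
    ∃ γ' : G ≃g G, Shifts G π γ' ((k : ℝ) • t) := by
  induction k with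
  | zero => exact ⟨RelIso.refl _, fun v => by simp⟩
  | succ k ih =>
    obtain ⟨γ', h'⟩ := ih
    refine ⟨γ'.trans γ, fun v => ?_⟩
    rw [RelIso.trans_apply, h, h']; push_cast; rw [add_smul, one_smul, add_assoc]

lemma degLe_of (hl : ∀ v, (G.neighborSet v).Finite) {s : Finset V}
    (hs : ∀ v, ∃ γ : G ≃g G, γ v ∈ s) : ∃ Δ, DegLe G Δ := by
  refine ⟨s.sup fun a => (hl a).toFinset.card, fun x => ?_⟩
  obtain ⟨γ, hγ⟩ := hs x
  refine ⟨(hl (γ x)).toFinset.image γ.symm, Finset.card_image_le.trans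
    (Finset.le_sup (f := fun a => (hl a).toFinset.card) hγ), fun y hy => ?_⟩
  exact Finset.mem_image.2 ⟨γ y, (Set.Finite.mem_toFinset _).2 (γ.map_adj_iff.2 hy),
    γ.symm_apply_apply y⟩

lemma lip_of (hl : ∀ v, (G.neighborSet v).Finite) {s : Finset V} {Z : V → ℝ}
    (hs : ∀ v, ∃ γ : G ≃g G, (∃ t, ∀ u, Z (γ u) = Z u + t) ∧ γ v ∈ s) : ∃ L ≥ 0, Lip G Z L := by
  refine ⟨∑ a ∈ s, ∑ b ∈ (hl a).toFinset, |Z a - Z b|, by positivity, fun u v huv => ?_⟩
  obtain ⟨γ, ⟨t, ht⟩, hγ⟩ := hs u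
  have e : Z u - Z v = Z (γ u) - Z (γ v) := by rw [ht, ht]; ring
  rw [e]
  refine le_trans (Finset.single_le_sum (f := fun b => |Z (γ u) - Z b|) (fun _ _ => abs_nonneg _)
    ((Set.Finite.mem_toFinset (hl (γ u))).2 (γ.map_adj_iff.2 huv))) ?_
  exact Finset.single_le_sum (f := fun a => ∑ b ∈ (hl a).toFinset, |Z a - Z b|)
    (fun _ _ => by positivity) hγ

lemma spread_of (hc : G.Connected) {o : V} {x y : V → ℝ} {R0 : ℕ} (hC : Cover G o x y R0)
    {a1 b1 a2 b2 : ℝ} (hdet : a1 * b2 ≠ b1 * a2)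
    (h1 : ∀ k : ℕ, ∃ u, x u = k * a1 ∧ y u = k * b1)
    (h2 : ∀ k : ℕ, ∃ u, x u = k * a2 ∧ y u = k * b2) : Spread G x y := by
  intro l hl
  have hD : 0 < |a1 * b2 - b1 * a2| := abs_pos.2 (sub_ne_zero.2 hdet)
  set D := |a1 * b2 - b1 * a2| with hDdef
  set C := |a1| + |b1| + |a2| + |b2| with hCdef
  obtain ⟨k, hk⟩ := exists_nat_gt (4 * C / (l * D))
  rw [div_lt_iff₀ (by positivity)] at hk
  obtain ⟨u1, e1, f1⟩ := h1 k
  obtain ⟨u2, e2, f2⟩ := h2 k
  obtain ⟨d1, hd1⟩ := exists_ball_of_reachable (hc o u1)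
  obtain ⟨d2, hd2⟩ := exists_ball_of_reachable (hc o u2)
  refine ⟨R0 + (d1 + d2), fun α β hαβ a => ?_⟩
  obtain ⟨γ, ha, hγ⟩ := hC a
  by_contra hcon
  push Not at hcon
  have c0 := abs_le.1 (hcon (γ o) (ball_mono a (by omega) (ball_symm ha)))
  have c1 := abs_le.1 (hcon (γ u1) (ball_mono a (by omega)
    (ball_trans (ball_symm ha) (iso_ball γ hd1))))
  have c2 := abs_le.1 (hcon (γ u2) (ball_mono a (by omega)
    (ball_trans (ball_symm ha) (iso_ball γ hd2))))
  rw [(hγ u1).1, (hγ u1).2, e1, f1] at c1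
  rw [(hγ u2).1, (hγ u2).2, e2, f2] at c2
  have g1 : |k * (α * a1 + β * b1)| ≤ 2 := abs_le.2 ⟨by linarith, by linarith⟩
  have g2 : |k * (α * a2 + β * b2)| ≤ 2 := abs_le.2 ⟨by linarith, by linarith⟩
  set P := k * (α * a1 + β * b1)
  set Q := k * (α * a2 + β * b2)
  have i1 : k * |α| * D = |P * b2 - Q * b1| := by
    rw [hDdef, ← abs_of_nonneg (Nat.cast_nonneg k : (0 : ℝ) ≤ k), ← abs_mul, ← abs_mul]
    congr 1; simp only [P, Q]; ring
  have i2 : k * |β| * D = |Q * a1 - P * a2| := by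
    rw [hDdef, ← abs_of_nonneg (Nat.cast_nonneg k : (0 : ℝ) ≤ k), ← abs_mul, ← abs_mul]
    congr 1; simp only [P, Q]; ring
  have j1 := abs_sub (P * b2) (Q * b1)
  have j2 := abs_sub (Q * a1) (P * a2)
  rw [abs_mul P, abs_mul Q] at j1 j2
  have k0 : (0 : ℝ) ≤ k := Nat.cast_nonneg k
  have m1 : k * (l * D) ≤ k * |α| * D + k * |β| * D := by
    have := mul_le_mul_of_nonneg_left hαβ (mul_nonneg k0 hD.le)
    linarith
  nlinarith [abs_nonneg a1, abs_nonneg b1, abs_nonneg a2, abs_nonneg b2,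
    mul_le_mul_of_nonneg_right g1 (abs_nonneg b2), mul_le_mul_of_nonneg_right g2 (abs_nonneg b1),
    mul_le_mul_of_nonneg_right g2 (abs_nonneg a1), mul_le_mul_of_nonneg_right g1 (abs_nonneg a2)]

theorem near_one {Δ : ℕ} (hΔ : DegLe G Δ) (hc : G.Connected) {o : V} {x y : V → ℝ}
    (hx : x o = 0) (hy : y o = 0) {L : ℝ} (hL : 0 ≤ L) (lx : Lip G x L) (ly : Lip G y L) {R0 : ℕ}
    (hC : Cover G o x y R0) {a1 b1 a2 b2 : ℝ} (hdet : a1 * b2 ≠ b1 * a2) (γ1 γ2 : G ≃g G)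
    (h1 : ∀ v, x (γ1 v) = x v + a1 ∧ y (γ1 v) = y v + b1)
    (h2 : ∀ v, x (γ2 v) = x v + a2 ∧ y (γ2 v) = y v + b2) :
    ∃ q, 0 < q ∧ q < 1 ∧ ∃ θ > 0, ∀ R, θ ≤ arm hΔ o q R := by
  have hD : a1 * b2 - b1 * a2 ≠ 0 := sub_ne_zero.2 hdet
  set D := a1 * b2 - b1 * a2 with hDdef
  obtain ⟨d1, hd1⟩ := exists_ball_of_reachable (hc o (γ1 o))
  obtain ⟨d2, hd2⟩ := exists_ball_of_reachable (hc o (γ2 o))
  set d := d1 + d2 with hd
  set C := (|b2 / D| + |a2 / D| + |b1 / D| + |a1 / D|) * L with hCdef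
  have hC0 : 0 ≤ C := by positivity
  obtain ⟨k, hk⟩ := exists_nat_gt (1000 * C * (d + R0 + 1))
  have hk0 : (0 : ℝ) < k := lt_of_le_of_lt (by positivity) hk
  have hk0' : 0 < k := by exact_mod_cast hk0
  let X : V → ℝ := fun v => b2 / D / k * x v + -a2 / D / k * y v
  let Y : V → ℝ := fun v => -b1 / D / k * x v + a1 / D / k * y v
  have hab : ∀ t : ℝ, |t / D / k| = |t / D| / k := fun t => by rw [abs_div _ (k : ℝ), abs_of_pos hk0]
  have lX : Lip G X (C / k) := (lx.comb ly _ _).mono (by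
    rw [hab, hab, neg_div, abs_neg, hCdef, le_div_iff₀ hk0]
    field_simp
    nlinarith [abs_nonneg (b1 / D), abs_nonneg (a1 / D)])
  have lY : Lip G Y (C / k) := (lx.comb ly _ _).mono (by
    rw [hab, hab, neg_div, abs_neg, hCdef, le_div_iff₀ hk0]
    field_simp
    nlinarith [abs_nonneg (b2 / D), abs_nonneg (a2 / D)])
  have hκ0 : 0 ≤ C / k := by positivity
  have hκ : C / k * (d + R0 + 1) ≤ 1 / 1000 := by
    rw [div_mul_eq_mul_div, div_le_iff₀ hk0]; linarith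
  have d0 : (0 : ℝ) ≤ d := Nat.cast_nonneg _
  have r0 : (0 : ℝ) ≤ R0 := Nat.cast_nonneg _
  have hXo : X o = 0 := by simp [X, hx, hy]
  have hYo : Y o = 0 := by simp [Y, hx, hy]
  have k5 : loc hΔ o (k * d + 1) 0 X Y 1 = 0 := loc_one hΔ γ1 hk0'
    (fun v => by simp only [X, (h1 v).1, (h1 v).2]; field_simp; rw [hDdef]; ring)
    (fun v => by simp only [Y, (h1 v).1, (h1 v).2]; ring)
    hXo hYo (ball_mono o (by omega) hd1) lX lY hκ0 (by nlinarith) (Nat.le_succ _)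
  have k6 : loc hΔ o (k * d + 1) 0 Y X 1 = 0 := loc_one hΔ γ2 hk0'
    (fun v => by simp only [Y, (h2 v).1, (h2 v).2]; field_simp; rw [hDdef]; ring)
    (fun v => by simp only [X, (h2 v).1, (h2 v).2]; ring)
    hYo hXo (ball_mono o (by omega) hd2) lY lX hκ0 (by nlinarith) (Nat.le_succ _)
  have hcont : ∀ X Y : V → ℝ, Continuous (loc hΔ o (k * d + 1) 0 X Y) := fun X Y => by
    unfold loc Pr
    exact Ex_continuous _ (fun s _ => s) (fun _ => continuous_id) _
  set ε : ℝ := 1 / 10 ^ 10 / 2 with hε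
  have hε0 : 0 < ε := by positivity
  have e1 := (hcont X Y).continuousAt.eventually_lt (g := fun _ => ε) continuousAt_const
    (show loc hΔ o (k * d + 1) 0 X Y 1 < ε by linarith)
  have e2 := (hcont Y X).continuousAt.eventually_lt (g := fun _ => ε) continuousAt_const
    (show loc hΔ o (k * d + 1) 0 Y X 1 < ε by linarith)
  have e3 : ∀ᶠ q in nhds (1 : ℝ), 0 < q := lt_mem_nhds (by linarith)
  have e4 := (show Continuous fun q : ℝ => 1 - q ^ (((Δ + 1) ^ (0 + R0)) ^ 2) by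
    fun_prop).continuousAt.eventually_lt (g := fun _ => ε) (x₀ := 1) continuousAt_const
    (by simpa using hε0)
  obtain ⟨q, ⟨q1, q2, q3, q5⟩, q4⟩ := ((((e1.and (e2.and (e3.and e4))).filter_mono
    (nhdsWithin_le_nhds (s := Set.Iio 1))).and self_mem_nhdsWithin)).exists
  have q4' : q < 1 := q4
  have hsm : C / k * ((0 : ℕ) + R0) ≤ 1 / 1000 := by push_cast; nlinarith
  refine ⟨q, q3, q4', arm_of_dat hΔ (pl := q) (ph := 1) (ε := ε) (κ := C / k) (m := 0 + R0)
    (J := 0) (r := k * d + 1 + R0) (X := X) (Y := Y)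
    ⟨stepP_near hΔ q3.le q4'.le hε0.le
      (le_trans (add_le_add le_rfl q5.le) (le_of_eq (by rw [hε]; ring))), le_rfl, hε0.le,
      hκ0, lX, lY, by push_cast; nlinarith, by omega,
      move_of_loc hΔ q3.le q4'.le hx hy hC ⟨_, _, fun _ => rfl⟩ ⟨_, _, fun _ => rfl⟩ lX lY hκ0
        hsm (by omega) q1.le,
      move_of_loc hΔ q3.le q4'.le hx hy hC ⟨_, _, fun _ => rfl⟩ ⟨_, _, fun _ => rfl⟩ lY lX hκ0
        hsm (by omega) q2.le⟩
    (by rw [hε]; norm_num) q3 q4'.le q4'.le hXo hYo⟩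

theorem periodic (hc : G.Connected) (hl : ∀ v, (G.neighborSet v).Finite) (hP : PlanePeriodic G) :
    NoCritPerc G := by
  obtain ⟨π, ⟨s, hs⟩, γ1, γ2, t1, t2, h1, h2, hdet⟩ := hP
  obtain ⟨Δ, hΔ⟩ := degLe_of hl (s := s) fun v => by
    obtain ⟨γ, t, -, h⟩ := hs v; exact ⟨γ, h⟩
  have data : ∀ o : V, ∃ (x y : V → ℝ) (L : ℝ) (R0 : ℕ), x o = 0 ∧ y o = 0 ∧ 1 ≤ L ∧ Lip G x L ∧
      Lip G y L ∧ Cover G o x y R0 ∧ ∀ γ t, Shifts G π γ t →
        ∀ v, x (γ v) = x v + t.1 ∧ y (γ v) = y v + t.2 := by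
    intro o
    let x : V → ℝ := fun v => (π v).1 - (π o).1
    let y : V → ℝ := fun v => (π v).2 - (π o).2
    have hsh : ∀ γ t, Shifts G π γ t → ∀ v, x (γ v) = x v + t.1 ∧ y (γ v) = y v + t.2 := by
      intro γ t h v
      simp only [x, y, h v, Prod.fst_add, Prod.snd_add]
      constructor <;> ring
    obtain ⟨L1, l1, l2⟩ := lip_of hl (s := s) (Z := x) fun v => by
      obtain ⟨γ, t, h, h'⟩ := hs v; exact ⟨γ, ⟨t.1, fun u => (hsh γ t h u).1⟩, h'⟩
    obtain ⟨L2, l3, l4⟩ := lip_of hl (s := s) (Z := y) fun v => by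
      obtain ⟨γ, t, h, h'⟩ := hs v; exact ⟨γ, ⟨t.2, fun u => (hsh γ t h u).2⟩, h'⟩
    choose r hr using fun v => exists_ball_of_reachable (hc o v)
    have hxo : x o = 0 := by simp [x]
    have hyo : y o = 0 := by simp [y]
    refine ⟨x, y, 1 + L1 + L2, s.sup r, hxo, hyo, by linarith, l2.mono (by linarith),
      l4.mono (by linarith), fun a => ?_, hsh⟩
    obtain ⟨γ, t, h, h'⟩ := hs a
    refine ⟨γ.symm, ?_, fun v => ?_⟩
    · have := iso_ball γ.symm (ball_mono o (Finset.le_sup (f := r) h') (hr (γ a)))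
      rwa [RelIso.symm_apply_apply] at this
    · rw [(hsh _ _ h.symm v).1, (hsh _ _ h.symm v).2, (hsh _ _ h.symm o).1,
        (hsh _ _ h.symm o).2, hxo, hyo]
      simp
  have hlt : pc G < 1 := by
    obtain ⟨o⟩ := hc.nonempty
    obtain ⟨x, y, L, R0, a1, a2, a3, a4, a5, a6, a7⟩ := data o
    obtain ⟨q, q0, q1, θ, hθ, h⟩ := near_one hΔ hc a1 a2 (by linarith) a4 a5 a6 hdet γ1 γ2
      (a7 _ _ h1) (a7 _ _ h2)
    have := perc_of_arm hΔ hc (p := ⟨q, q0.le, q1.le⟩) hθ h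
    exact lt_of_le_of_lt (sInf_le (show (⟨q, q0.le, q1.le⟩ : I) ∈
      {p : unitInterval | 0 < percProb G p} from this)) q1
  refine ⟨hlt, ?_⟩
  by_contra hne
  obtain ⟨o, θ, hθ, h⟩ := arm_of_perc hΔ hc (pos_iff_ne_zero.2 hne)
  obtain ⟨x, y, L, R0, a1, a2, a3, a4, a5, a6, a7⟩ := data o
  have hp0 : (0 : ℝ) < pc G := by
    refine lt_of_le_of_ne (pc G).2.1 fun h0 => ?_
    have := h 0
    rw [← h0, arm_zero] at this
    linarith
  have hS : Spread G x y := spread_of hc a6 hdet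
    (fun k => by
      obtain ⟨γ, hγ⟩ := h1.pow k
      exact ⟨γ o, by simpa [a1, a2] using a7 _ _ hγ o⟩)
    (fun k => by
      obtain ⟨γ, hγ⟩ := h2.pow k
      exact ⟨γ o, by simpa [a1, a2] using a7 _ _ hγ o⟩)
  obtain ⟨q, q0, q1, θ', hθ', h'⟩ := crit hΔ a1 a2 a3 a4 a5 hS a6 hp0 hlt hθ h
  have q2 : q ≤ 1 := q1.le.trans (pc G).2.2
  have := perc_of_arm hΔ hc (p := ⟨q, q0.le, q2⟩) hθ' h'
  have h3 : pc G ≤ ⟨q, q0.le, q2⟩ := sInf_le (show (⟨q, q0.le, q2⟩ : I) ∈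
      {p : unitInterval | 0 < percProb G p} from this)
  exact absurd q1 (not_lt.2 h3)

lemma zd_adj {d : ℕ} {x y : Fin d → ℤ} : (zd d).Adj x y ↔ ∑ i, |x i - y i| = 1 := by
  unfold zd
  rw [SimpleGraph.fromRel_adj]
  constructor
  · rintro ⟨_, h | h⟩
    · exact h
    · simpa [abs_sub_comm] using h
  · intro h
    refine ⟨?_, Or.inl h⟩
    rintro rfl
    simp at h

def zdShift {d : ℕ} (t : Fin d → ℤ) : zd d ≃g zd d where
  toEquiv := Equiv.addRight t
  map_rel_iff' := by intro a b; simp [zd_adj]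

theorem zd_main {d : ℕ} (hd : 2 ≤ d) : NoCritPerc (zd d) := by
  refine periodic ?_ ?_ ?_
  · have key : ∀ x y : Fin d → ℤ, (zd d).Reachable y (y + x) := by
      intro x
      have one : ∀ i y, (zd d).Reachable y (y + Pi.single i 1) := fun i y => by
        refine SimpleGraph.Adj.reachable (zd_adj.2 ?_)
        rw [Finset.sum_eq_single i]
        · simp
        · intro j _ hj; simp [hj]
        · simp
      have sgl : ∀ i (n : ℤ) y, (zd d).Reachable y (y + Pi.single i n) := by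
        intro i n
        induction n using Int.induction_on with
        | zero => intro y; simp
        | succ n ih =>
          intro y
          rw [Pi.single_add, ← add_assoc]
          exact (ih y).trans (one i _)
        | pred n ih =>
          intro y
          refine (ih y).trans ?_
          have := (one i (y + Pi.single i (-(n : ℤ) - 1))).symm
          rwa [add_assoc, ← Pi.single_add, sub_add_cancel] at this
      induction x using Pi.single_induction with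
      | zero => intro y; simp
      | add f g hf hg => intro y; rw [← add_assoc]; exact (hf y).trans (hg _)
      | single i n => exact sgl i n
    exact ⟨fun a b => by simpa using key (b - a) a⟩
  · intro v
    refine (Set.finite_Icc (v - 1) (v + 1)).subset fun y hy => ?_
    have h := zd_adj.1 hy
    have h2 : ∀ i, |v i - y i| ≤ 1 := fun i => h ▸
      Finset.single_le_sum (f := fun i => |v i - y i|) (fun _ _ => abs_nonneg _) (Finset.mem_univ i)
    constructor <;> intro i <;> have := abs_le.1 (h2 i) <;> simp <;> omega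
  · let i0 : Fin d := ⟨0, by omega⟩
    let i1 : Fin d := ⟨1, by omega⟩
    have hne : i0 ≠ i1 := by simp [i0, i1]
    have hsh : ∀ t : Fin d → ℤ, Shifts (zd d) (fun x => ((x i0 : ℝ), (x i1 : ℝ))) (zdShift t)
        ((t i0 : ℝ), (t i1 : ℝ)) := fun t v => by
      simp [zdShift]
    refine ⟨fun x => ((x i0 : ℝ), (x i1 : ℝ)), ⟨{0}, fun v => ⟨_, _, hsh (-v), ?_⟩⟩,
      _, _, _, _, hsh (Pi.single i0 1), hsh (Pi.single i1 1), ?_⟩
    · simp [zdShift]
    · simp [hne, hne.symm]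

def cayShift {H : Type*} [Group H] (S : Set H) (k : H) :
    SimpleGraph.mulCayley S ≃g SimpleGraph.mulCayley S where
  toEquiv := Equiv.mulLeft k
  map_rel_iff' := by intro a b; simp

theorem cayley_main {H : Type*} [Group H] (S : Finset H) (hS : Subgroup.closure (S : Set H) = ⊤)
    (K : Subgroup H) (hK : K.FiniteIndex) (ρ : K →* Multiplicative (ℤ × ℤ))
    (hρ : Function.Surjective ρ) : NoCritPerc (SimpleGraph.mulCayley (S : Set H)) := by
  refine periodic ?_ ?_ ?_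
  · have key : ∀ x : H, (SimpleGraph.mulCayley (S : Set H)).Reachable 1 x := by
      intro x
      have hx : x ∈ Subgroup.closure (S : Set H) := hS ▸ Subgroup.mem_top x
      have one : ∀ x, ∀ y ∈ (S : Set H), (SimpleGraph.mulCayley (S : Set H)).Reachable x (x * y) := by
        intro x y hy
        by_cases h : x = x * y
        · rw [← h]
        · exact SimpleGraph.Adj.reachable
            ((SimpleGraph.mulCayley_adj' _ _ _).2 ⟨h, y, hy, Or.inl rfl⟩)
      induction hx using Subgroup.closure_induction_right with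
      | one => rfl
      | mul_right x _ y hy ih => exact ih.trans (one x y hy)
      | mul_inv_cancel x _ y hy ih =>
        refine ih.trans ?_
        simpa using (one (x * y⁻¹) y hy).symm
    exact ⟨fun a b => (key a).symm.trans (key b)⟩
  · intro v
    refine ((S.finite_toSet.image (v * ·)).union (S.finite_toSet.image (v * ·⁻¹))).subset
      fun y hy => ?_
    obtain ⟨-, g, hg, h | h⟩ := (SimpleGraph.mulCayley_adj' _ _ _).1 hy
    · exact Or.inl ⟨g, hg, h⟩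
    · exact Or.inr ⟨g, hg, by simp [h]⟩
  · haveI : Finite (Quotient (QuotientGroup.rightRel K)) :=
      Finite.of_equiv _ (QuotientGroup.quotientRightRelEquivQuotientLeftRel K).symm
    let rep : H → H := fun h => (Quotient.mk (QuotientGroup.rightRel K) h).out
    have hrep : ∀ h, h * (rep h)⁻¹ ∈ K := fun h =>
      QuotientGroup.rightRel_apply.1 (Quotient.mk_out (s := QuotientGroup.rightRel K) h)
    have hrep2 : ∀ (k : K) h, rep (k * h) = rep h := fun k h => by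
      simp only [rep]
      congr 1
      exact (Quotient.sound (QuotientGroup.rightRel_apply.2 (by simp))).symm
    let c : ℤ × ℤ → ℝ × ℝ := fun z => ((z.1 : ℝ), (z.2 : ℝ))
    let π : H → ℝ × ℝ := fun h => c (ρ ⟨h * (rep h)⁻¹, hrep h⟩).toAdd
    have hsh : ∀ k : K, Shifts _ π (cayShift (S : Set H) k) (c (ρ k).toAdd) := by
      intro k v
      have : (⟨k * v * (rep (k * v))⁻¹, hrep _⟩ : K) = ⟨v * (rep v)⁻¹, hrep v⟩ * 1 * 1 * 1 *
          (⟨v * (rep v)⁻¹, hrep v⟩⁻¹ * k * ⟨v * (rep v)⁻¹, hrep v⟩) := by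
        apply Subtype.ext
        simp [hrep2, mul_assoc]
      show c (ρ ⟨k * v * (rep (k * v))⁻¹, hrep _⟩).toAdd = _
      rw [this]
      simp only [map_mul, map_inv, map_one, mul_one, inv_mul_cancel_comm, toAdd_mul, π, c,
        Prod.fst_add, Prod.snd_add, Int.cast_add, Prod.mk_add_mk]
    obtain ⟨k1, hk1⟩ := hρ (Multiplicative.ofAdd (1, 0))
    obtain ⟨k2, hk2⟩ := hρ (Multiplicative.ofAdd (0, 1))
    refine ⟨π, ⟨(Set.finite_range (fun q : Quotient (QuotientGroup.rightRel K) => q.out)).toFinset,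
      fun v => ⟨_, _, hsh ⟨v * (rep v)⁻¹, hrep v⟩⁻¹, ?_⟩⟩, _, _, _, _, hsh k1, hsh k2, ?_⟩
    · rw [Set.Finite.mem_toFinset]
      exact ⟨Quotient.mk _ v, by simp [cayShift, rep]⟩
    · simp [hk1, hk2, c]

end Vale.Agent.P151
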