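import Vale.Agent.P151.Exit

/-! Finding two good directions in general position. -/

open Classical Finset

namespace Vale.Agent.P151

variable {V : Type*} {G : SimpleGraph V}

def Lin (x y Z : V → ℝ) : Prop := ∃ α β : ℝ, ∀ v, Z v = α * x v + β * y v

lemma Lin.comb {x y Z W : V → ℝ} (h1 : Lin x y Z) (h2 : Lin x y W) (a b : ℝ) :
    Lin x y (fun v => a * Z v + b * W v) := by
  obtain ⟨α, β, h⟩ := h1
  obtain ⟨α', β', h'⟩ := h2
  exact ⟨a * α + b * α', a * β + b * β', fun v => by simp only [h, h']; ring⟩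

lemma Lip.comb {Z W : V → ℝ} {κ κ' : ℝ} (h1 : Lip G Z κ) (h2 : Lip G W κ') (a b : ℝ) :
    Lip G (fun v => a * Z v + b * W v) (|a| * κ + |b| * κ') := by
  intro u v huv
  have e : a * Z u + b * W u - (a * Z v + b * W v) = a * (Z u - Z v) + b * (W u - W v) := by ring
  rw [e]
  refine (abs_add_le _ _).trans ?_
  rw [abs_mul, abs_mul]
  exact add_le_add (mul_le_mul_of_nonneg_left (h1 u v huv) (abs_nonneg _))
    (mul_le_mul_of_nonneg_left (h2 u v huv) (abs_nonneg _))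

lemma Lip.mono {Z : V → ℝ} {κ κ' : ℝ} (h1 : Lip G Z κ) (h : κ ≤ κ') : Lip G Z κ' :=
  fun u v huv => (h1 u v huv).trans h

lemma Ext_imp {Δ : ℕ} (hΔ : DegLe G Δ) {o : V} {r : ℕ} {R : Set V} (ho : o ∈ R) {Q : Set V}
    {ω : Set (Sym2 V)} (hω : ω ⊆ Fb hΔ o r) (he : Ext G o R Q ω) :
    ∃ u v, u ∈ R ∧ G.Adj u v ∧ u ∈ ball G o r ∧ v ∈ ball G o r ∧ v ∉ R ∧ v ∈ Q ∧
      Conn (ω ∩ inE G R) o u ∧ s(u, v) ∈ ω ∧ ∀ Q', v ∈ Q' → Ext G o R Q' ω := by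
  obtain ⟨u, v, h1, h2, h3, h4⟩ := he
  obtain ⟨a1, a2, a3⟩ := mk_mem_inE.1 ((mem_Fb hΔ).1 (hω h2))
  exact ⟨u, v, conn_inE_mem h1 ho, a1, a2, a3, h3, h4, h1, h2, fun Q' h => ⟨u, v, h1, h2, h3, h⟩⟩

lemma Pr_not_of_never {E : Type*} {F : Finset E} {w : E → ℝ} {A : Set E → Prop}
    (h : ∀ ω : Set E, ω ⊆ F → ¬ A ω) : Pr F w (fun ω => ¬ A ω) = 1 := by
  have : Pr F w (fun ω => ¬ A ω) = Ex F w (fun _ => 1) := Ex_congr fun ω hω => ind_true (h ω hω)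
  rw [this, Ex_const]

lemma Ext_of_strip {o : V} {r0 : ℕ} {R Q T : Set V} (ho : o ∈ R) (hT : ∀ v ∈ T, v ∉ R)
    (hQ : ball G o r0 ⊆ Q) {ω : Set (Sym2 V)} (h : o ∈ cl T (ω ∩ inE G (ball G o r0))) :
    Ext G o R Q ω := by
  obtain ⟨y, hy, hc⟩ := h
  obtain ⟨u, v, h1, _, h3, h4⟩ := exit_of_conn (G := G) (fun e he => he.2.1) hc.symm ho (hT y hy)
  refine ⟨u, v, h1.mono fun e he => ?_, h3.1, h4, hQ (mk_mem_inE.1 h3.2).2.2⟩
  exact ⟨he.1.1, he.2⟩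

lemma shear {Δ : ℕ} (hΔ : DegLe G Δ) {o : V} {r : ℕ} {w : Sym2 V → ℝ} (hw : Ok w)
    {x ζ : V → ℝ} {ε κ L : ℝ} (hε : 0 < ε) (hε1 : ε < 1) (hκ1 : κ ≤ 1) (hζL : Lip G ζ κ)
    (ho0 : o ∈ {v | |ζ v| ≤ 1}) (hxr : ∀ v ∈ ball G o r, |x v| ≤ L * r)
    (htop : Pr (Fb hΔ o r) w (fun ω =>
      ¬ Ext G o {v | |ζ v| ≤ 1} {v | 1 < ζ v} ω) ≤ ε ^ 4) : ∃ c : ℝ,
      Pr (Fb hΔ o r) w (fun ω =>
        ¬ Ext G o {v | |ζ v| ≤ 1} {v | 1 < ζ v ∧ x v - c * ζ v ≤ 0} ω) ≤ ε ^ 2 ∧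
      Pr (Fb hΔ o r) w (fun ω =>
        ¬ Ext G o {v | |ζ v| ≤ 1} {v | 1 < ζ v ∧ -2 ≤ x v - c * ζ v} ω) ≤ ε ^ 2 := by
  have e42 : ε ^ 4 ≤ ε ^ 2 := pow_le_pow_of_le_one hε.le hε1.le (by norm_num)
  have e21 : ε ^ 2 < 1 := pow_lt_one₀ hε.le hε1 (by norm_num)
  set F := Fb hΔ o r with hF
  set R0 : Set V := {v | |ζ v| ≤ 1} with hR0
  obtain ⟨a0, ha0⟩ := exists_nat_gt (L * r)
  have ha00 : (0 : ℝ) ≤ a0 := Nat.cast_nonneg _
  have hex : ∃ i : ℕ, Pr F w (fun ω =>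
      ¬ Ext G o R0 {v | 1 < ζ v ∧ x v - ((i : ℝ) - a0) * ζ v ≤ 0} ω) ≤ ε ^ 2 := by
    refine ⟨2 * a0, le_trans (Pr_mono hw fun ω hω h1 => ?_) (htop.trans e42)⟩
    refine fun h2 => h1 ?_
    obtain ⟨u, v, -, -, -, c4, -, c6, -, -, c9⟩ := Ext_imp hΔ ho0 hω h2
    refine c9 _ ⟨c6, ?_⟩
    have d1 := abs_le.1 (hxr v c4)
    have d2 : 1 < ζ v := c6
    push_cast
    nlinarith [d1.2]
  have h0 : Nat.find hex ≠ 0 := by
    intro h0
    have := Nat.find_spec hex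
    rw [h0, Pr_not_of_never] at this
    · linarith
    · intro ω hω h2
      obtain ⟨u, v, -, -, -, c4, -, ⟨d2, d3⟩, -⟩ := Ext_imp hΔ ho0 hω h2
      have d1 := abs_le.1 (hxr v c4)
      push_cast at d3
      nlinarith [d1.1]
  obtain ⟨i, hi⟩ := Nat.exists_eq_succ_of_ne_zero h0
  have h1 := Nat.find_spec hex
  have h2 := Nat.find_min hex (m := i) (by omega)
  rw [hi] at h1
  refine ⟨_, h1, two_split hw Ext_mono Ext_mono (fun ω hω h => ?_) (by positivity)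
    (htop.trans (le_of_eq (by ring))) (not_le.1 h2)⟩
  obtain ⟨u, v, c1, c2, -, -, -, c6, -, -, c9⟩ := Ext_imp hΔ ho0 hω h
  have d2 : 1 < ζ v := c6
  by_cases hv : x v - ((i : ℝ) - a0) * ζ v ≤ 0
  · exact Or.inl (c9 _ ⟨d2, hv⟩)
  · refine Or.inr (c9 _ ⟨d2, ?_⟩)
    have d3 := abs_le.1 (hζL u v c2)
    have d4 := abs_le.1 (show |ζ u| ≤ 1 from c1)
    push_cast
    linarith [d3.1, d4.2]

theorem shape {Δ : ℕ} (hΔ : DegLe G Δ) {o : V} {p ε0 ε κ L : ℝ} (hp0 : 0 < p) (hp1 : p < 1)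
    {x y : V → ℝ} (hx : x o = 0) (hy : y o = 0) (hL : 1 ≤ L) (lx : Lip G x L) (ly : Lip G y L)
    (hS : Spread G x y) {m : ℕ} (hε0 : 0 < ε0) (hε : 0 < ε) (hε1 : ε < 1) (hεε : 2 * ε0 ≤ ε ^ 8)
    (hb : ∀ R, m ≤ R → ∀ F : Finset (Sym2 V),
      (F : Set (Sym2 V)) ⊆ G.edgeSet → inE G (ball G o (R + 1)) ⊆ F →
      Pr F (wS p (inE G (ball G o m))) (fun ω => ¬ far G o R ω) ≤ ε0)
    (hκ : 0 < κ) (hκ1 : κ ≤ 1) :
    ∃ r, m + 1 ≤ r ∧ ∃ ξ ζ : V → ℝ, Lin x y ξ ∧ Lin x y ζ ∧ Lip G ξ κ ∧ Lip G ζ κ ∧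
      ∃ c : ℝ, 1 ≤ c ∧ c ≤ 1 + κ ∧
      Pr (Fb hΔ o r) (wS p (inE G (ball G o m)))
        (fun ω => ¬ Ext G o {v | |ζ v| ≤ 1 ∧ |ξ v| ≤ 1} {v | |ζ v| ≤ 1} ω) ≤ ε ∧
      ∀ τ : ℝ, τ = 1 ∨ τ = -1 → Pr (Fb hΔ o r) (wS p (inE G (ball G o m)))
        (fun ω => ¬ Ext G o {v | |ζ v| ≤ 1 ∧ |ξ v| ≤ c} {v | 1 < ζ v ∧ -(2 * κ) ≤ τ * ξ v} ω)
          ≤ ε := by
  have hL0 : 0 < L := by linarith
  obtain ⟨r0, hr0, hs0⟩ := strip hΔ hp0 hp1 hS hε0 hb (l := κ / L) (by positivity)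
  set n : ℝ := L * (r0 + 1) / κ with hn
  have hn0 : 0 < n := by positivity
  obtain ⟨r1, -, hs1⟩ := strip hΔ hp0 hp1 hS hε0 hb (l := 1 / n) (by positivity)
  set r := max r0 r1 with hr
  set F := Fb hΔ o r with hF
  set w := wS p (inE G (ball G o m)) with hwdef
  have hw : Ok w := wS_ok hp0.le hp1.le _
  have hF0 : inE G (ball G o r0) ⊆ F := fun e he =>
    (mem_Fb hΔ).2 (inE_mono (ball_mono o (le_max_left _ _)) he)
  have hF1 : inE G (ball G o r1) ⊆ F := fun e he =>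
    (mem_Fb hΔ).2 (inE_mono (ball_mono o (le_max_right _ _)) he)
  have e84 : ε ^ 8 ≤ ε := by
    have := pow_le_pow_of_le_one hε.le hε1.le (show 1 ≤ 8 by norm_num); simpa using this
  -- Step 1
  obtain ⟨b, hb1, htop⟩ : ∃ b : ℝ, |b| = 1 / n ∧ Pr F w (fun ω =>
      ¬ Ext G o {v | |b * y v| ≤ 1} {v | 1 < b * y v} ω) ≤ ε ^ 4 := by
    by_cases hc : Pr F w (fun ω =>
      ¬ Ext G o {v | |1 / n * y v| ≤ 1} {v | 1 < 1 / n * y v} ω) ≤ ε ^ 4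
    · exact ⟨1 / n, abs_of_pos (by positivity), hc⟩
    · refine ⟨-(1 / n), by rw [abs_neg, abs_of_pos (by positivity)], ?_⟩
      simp only [neg_mul, abs_neg]
      have a1 := hs1 0 (1 / n) (by rw [abs_zero, zero_add, abs_of_pos (by positivity)]) F hF1
      refine two_split hw (Ext_mono) (Ext_mono) (fun ω hω h => ?_) (by positivity)
        (a1.trans (hεε.trans (le_of_eq (by ring)))) (not_le.1 hc)
      have ho : o ∈ {v | |1 / n * y v| ≤ 1} := by simp [hy]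
      obtain ⟨u, v, -, -, -, -, c5, -, -, -, c9⟩ := Ext_imp hΔ ho hω
        (Ext_of_strip (Q := Set.univ) ho (fun v hv => by simpa using hv) (Set.subset_univ _) h)
      simp only [Set.mem_setOf_eq, not_le, lt_abs] at c5
      exact c5.imp (c9 _) (c9 _)
  set ζ : V → ℝ := fun v => b * y v with hζ
  have hζL : Lip G ζ κ := by
    intro u v huv
    simp only [hζ]
    rw [← mul_sub, abs_mul, hb1]
    have h1 := ly u v huv
    have h2 : L ≤ κ * n := by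
      rw [hn]; field_simp; nlinarith [(Nat.cast_nonneg r0 : (0 : ℝ) ≤ r0)]
    rw [div_mul_eq_mul_div, div_le_iff₀ hn0]; linarith
  have hζ0 : ∀ v ∈ ball G o r0, |ζ v| ≤ 1 := by
    intro v hv
    have h1 := ly.ball hL0.le hv
    rw [hy, sub_zero] at h1
    simp only [hζ]
    rw [abs_mul, hb1, div_mul_eq_mul_div, div_le_iff₀ hn0]
    have h2 : L * r0 ≤ n := by
      rw [hn, le_div_iff₀ hκ]
      have : 0 ≤ L * r0 := by positivity
      nlinarith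
    linarith
  set R0 : Set V := {v | |ζ v| ≤ 1} with hR0
  have ho0 : o ∈ R0 := hζ0 o (self_mem_ball _ _)
  have hxr : ∀ v ∈ ball G o r, |x v| ≤ L * r := fun v hv => by
    simpa [hx] using lx.ball hL0.le hv
  obtain ⟨c, hleft, hright⟩ := shear hΔ hw hε hε1 hκ1 hζL ho0 hxr htop
  -- Step 3
  set φ : V → ℝ := fun v => x v - c * ζ v with hφ
  set N : ℝ := 1 + |c * b| with hN
  have hN1 : 1 ≤ N := by linarith [abs_nonneg (c * b)]
  have hφe : ∀ v, φ v = 1 * x v + (-(c * b)) * y v := fun v => by simp only [hφ, hζ]; ring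
  have hφL : Lip G φ (L * N) := by
    have := lx.comb ly 1 (-(c * b))
    simp only [← hφe] at this
    refine this.mono (le_of_eq ?_)
    rw [abs_one, abs_neg, hN]; ring
  have hφo : φ o = 0 := by rw [hφe, hx, hy]; ring
  set l0 : ℝ := L * N / κ with hl0
  have hl00 : 0 < l0 := by positivity
  have hoR : ∀ l : ℝ, 0 ≤ l → o ∈ {v | |ζ v| ≤ 1 ∧ |φ v| ≤ l} := fun l hl =>
    ⟨ho0, by rw [hφo, abs_zero]; exact hl⟩
  have hex : ∃ i : ℕ, ε < Pr F w (fun ω =>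
      ¬ Ext G o {v | |ζ v| ≤ 1 ∧ |φ v| ≤ l0 + i} R0 ω) := by
    obtain ⟨i, hi⟩ := exists_nat_ge (L * N * r)
    refine ⟨i, ?_⟩
    rw [Pr_not_of_never]
    · exact hε1
    · intro ω hω h2
      obtain ⟨u, v, -, -, -, c4, c5, c6, -⟩ := Ext_imp hΔ (hoR _ (by positivity)) hω h2
      refine c5 ⟨c6, ?_⟩
      have := hφL.ball (by positivity) c4
      rw [hφo, sub_zero] at this
      linarith
  have h0 : Nat.find hex ≠ 0 := by
    intro h0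
    have a0 := Nat.find_spec hex
    rw [h0] at a0
    have a1 := hs0 (1 / l0) (-(c * b) / l0) (by
      rw [abs_div 1, abs_div (-(c * b)), abs_one, abs_neg, abs_of_pos hl00, ← add_div, ← hN, hl0]
      exact le_of_eq (by field_simp)) F hF0
    refine absurd a0 (not_lt.2 (le_trans (Pr_mono hw fun ω _ h1 => ?_)
      (a1.trans (hεε.trans e84))))
    refine fun h2 => h1 (Ext_of_strip (hoR _ (by positivity)) (fun v hv hv' => ?_) hζ0 h2)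
    have d1 : 1 < |1 / l0 * x v + -(c * b) / l0 * y v| := hv
    have d2 : 1 / l0 * x v + -(c * b) / l0 * y v = φ v / l0 := by rw [hφe]; ring
    rw [d2, abs_div, abs_of_pos hl00, lt_div_iff₀ hl00] at d1
    have d3 := hv'.2
    push_cast at d3
    linarith
  obtain ⟨i, hi⟩ := Nat.exists_eq_succ_of_ne_zero h0
  have h1 := Nat.find_spec hex
  have h2 := not_lt.1 (Nat.find_min hex (m := i) (by omega))
  rw [hi] at h1
  set l : ℝ := l0 + i with hl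
  have hi0 : (0 : ℝ) ≤ i := Nat.cast_nonneg _
  have hlp : 0 < l := by positivity
  have hlκ : L * N ≤ κ * l := by
    have : L * N = κ * l0 := by rw [hl0]; field_simp
    rw [this, hl]; nlinarith
  have hlκ1 : 1 ≤ κ * l := by nlinarith
  have e1 : l0 + ((i.succ : ℕ) : ℝ) = l + 1 := by rw [hl]; push_cast; ring
  rw [e1] at h1
  have hset : ∀ t : ℝ, {v | |ζ v| ≤ 1 ∧ |φ v / l| ≤ t} = {v | |ζ v| ≤ 1 ∧ |φ v| ≤ t * l} := by
    intro t; ext v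
    simp only [Set.mem_setOf_eq]
    rw [abs_div, abs_of_pos hlp, div_le_iff₀ hlp]
  refine ⟨r, hr0.trans (le_max_left _ _), fun v => φ v / l, ζ,
    ⟨1 / l, -(c * b) / l, fun v => by simp only [hφe]; ring⟩, ⟨0, b, fun v => by simp [hζ]⟩, ?_, hζL,
    (l + 1) / l, by rw [le_div_iff₀ hlp]; linarith, by rw [div_le_iff₀ hlp]; linarith, ?_, ?_⟩
  · intro u v huv
    rw [← sub_div, abs_div, abs_of_pos hlp, div_le_iff₀ hlp]
    exact (hφL u v huv).trans hlκ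
  · rw [hset, one_mul]; exact h2
  · intro τ hτ
    rw [hset, div_mul_cancel₀ _ hlp.ne']
    have key : ∀ Q Q' : Set V, Q ⊆ Q' → Pr F w (fun ω => ¬ Ext G o R0 Q ω) ≤ ε ^ 2 →
        Pr F w (fun ω => ¬ Ext G o {v | |ζ v| ≤ 1 ∧ |φ v| ≤ l + 1} Q' ω) ≤ ε := by
      intro Q Q' hQ h
      refine two_split hw Ext_mono Ext_mono (fun ω _ he => ?_) hε h h1
      refine (Ext_shrink (hoR _ (by positivity)) (fun v hv => hv.1) he).imp id ?_
      rintro ⟨u, v, b1, b2, b3, b4⟩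
      exact ⟨u, v, b1, b2, b3, hQ b4⟩
    rcases hτ with rfl | rfl
    · refine key _ _ (fun v hv => ⟨hv.1, ?_⟩) hright
      have d1 : -2 ≤ φ v := hv.2
      rw [one_mul, le_div_iff₀ hlp]; linarith
    · refine key _ _ (fun v hv => ⟨hv.1, ?_⟩) hleft
      have d1 : φ v ≤ 0 := hv.2
      have d2 : φ v / l ≤ 0 := div_nonpos_of_nonpos_of_nonneg d1 hlp.le
      linarith

end Vale.Agent.P151
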