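import Vale.Agent.P151.Glue
import Vale.Agent.P151.Ball

/-! The step lemma: reaching a set surrounded by many fresh shells lets one reach the target. -/

open Classical Finset

namespace Vale.Agent.P151

lemma greedy {ι : Type*} (R : ι → ι → Prop) (hR : ∀ i j, R i j → R j i) (D : ℕ) (hD : 0 < D)
    (k : ℕ) : ∀ C : Finset ι, (∀ i ∈ C, ∃ s : Finset ι, s.card ≤ D ∧ i ∈ s ∧
      ∀ j ∈ C, R i j → j ∈ s) → k * D ≤ C.card →
      ∃ I ⊆ C, I.card = k ∧ ∀ i ∈ I, ∀ j ∈ I, i ≠ j → ¬ R i j := by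
  induction k with
  | zero => intro C _ _; exact ⟨∅, by simp, rfl, by simp⟩
  | succ k ih =>
    intro C hC hk
    have hne : C.Nonempty := by
      rw [← Finset.card_pos]; nlinarith
    obtain ⟨i, hi⟩ := hne
    obtain ⟨s, hs1, hs2, hs3⟩ := hC i hi
    have h1 : k * D ≤ (C \ s).card := by
      have := Finset.le_card_sdiff s C
      have : (k + 1) * D = k * D + D := by ring
      omega
    obtain ⟨I, hI1, hI2, hI3⟩ := ih (C \ s) (fun j hj => by
      obtain ⟨t, ht1, ht2, ht3⟩ := hC j (Finset.mem_sdiff.1 hj).1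
      exact ⟨t, ht1, ht2, fun l hl => ht3 l (Finset.mem_sdiff.1 hl).1⟩) h1
    have hiI : i ∉ I := fun h => (Finset.mem_sdiff.1 (hI1 h)).2 hs2
    have key : ∀ j ∈ I, ¬ R i j := fun j hj h =>
      (Finset.mem_sdiff.1 (hI1 hj)).2 (hs3 j (Finset.mem_sdiff.1 (hI1 hj)).1 h)
    refine ⟨insert i I, ?_, by rw [Finset.card_insert_of_notMem hiI, hI2], ?_⟩
    · intro j hj
      rcases Finset.mem_insert.1 hj with rfl | hj
      · exact hi
      · exact (Finset.mem_sdiff.1 (hI1 hj)).1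
    · intro a ha b hb hab
      rcases Finset.mem_insert.1 ha with rfl | ha' <;> rcases Finset.mem_insert.1 hb with rfl | hb'
      · exact absurd rfl hab
      · exact key b hb'
      · exact fun h => key a ha' (hR _ _ h)
      · exact hI3 a ha' b hb' hab

lemma subsum {ι : Type*} (ρ : ι → ℝ) (L : ℝ) (hL : 0 ≤ L) (I : Finset ι)
    (h1 : ∀ i ∈ I, ρ i ≤ 1) (h : L ≤ ∑ i ∈ I, ρ i) :
    ∃ I' ⊆ I, L ≤ ∑ i ∈ I', ρ i ∧ ∑ i ∈ I', ρ i ≤ L + 1 := by
  induction I using Finset.induction_on with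
  | empty => exact ⟨∅, subset_rfl, h, by simp; linarith⟩
  | insert a I ha ih =>
    by_cases hc : L ≤ ∑ i ∈ I, ρ i
    · obtain ⟨I', h2, h3⟩ := ih (fun i hi => h1 i (Finset.mem_insert_of_mem hi)) hc
      exact ⟨I', h2.trans (Finset.subset_insert _ _), h3⟩
    · refine ⟨insert a I, subset_rfl, h, ?_⟩
      rw [Finset.sum_insert ha]
      have := h1 a (Finset.mem_insert_self _ _)
      linarith

lemma Pr_none_open {E ι : Type*} (F : Finset E) (w : E → ℝ) (sd : ι → Finset E) (I : Finset ι)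
    (hd : ∀ i ∈ I, ∀ j ∈ I, i ≠ j → ¬ ∃ e, e ∈ sd i ∧ e ∈ sd j) :
    Pr F w (fun η => ∀ i ∈ I, ¬ (sd i : Set E) ⊆ η)
      = ∏ i ∈ I, (1 - Pr F w (fun η => (sd i : Set E) ⊆ η)) := by
  induction I using Finset.induction_on with
  | empty => simp [Pr]
  | insert a I ha ih =>
    rw [Finset.prod_insert ha, ← ih (fun i hi j hj => hd i (Finset.mem_insert_of_mem hi) j
      (Finset.mem_insert_of_mem hj)), ← Pr_not]
    unfold Pr
    rw [← Ex_indep F w (sd a : Set E)]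
    · refine Ex_congr fun ω _ => ?_
      rw [← ind_and]; exact ind_congr (by simp)
    · intro ω η
      refine ind_congr (not_congr ⟨fun h e he => ?_, fun h e he => Or.inl ⟨h he, he⟩⟩)
      rcases h he with h' | h'
      · exact h'.1
      · exact absurd he h'.2
    · intro ω η
      refine ind_congr (forall₂_congr fun i hi => not_congr ?_)
      have hne : i ≠ a := fun h => ha (h ▸ hi)
      have hd' := hd i (Finset.mem_insert_of_mem hi) a (Finset.mem_insert_self _ _) hne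
      refine ⟨fun h e he => ?_, fun h e he => Or.inr ⟨h he, fun h' => hd' ⟨e, he, h'⟩⟩⟩
      rcases h he with h' | h'
      · exact absurd ⟨e, he, h'.2⟩ hd'
      · exact h'.1

variable {V : Type*} {G : SimpleGraph V}

def contact (B O : Set V) (e : Sym2 V) : Prop := ∃ u v, e = s(u, v) ∧ u ∈ O ∧ v ∈ B

noncomputable def conts (F : Finset (Sym2 V)) (B : Set V) (o : V) (ω : Set (Sym2 V)) :
    Finset (Sym2 V) := F.filter (contact B (cl {o} (del B ω)))

lemma cl_del_not_mem {B : Set V} {o : V} (ho : o ∉ B) {ω : Set (Sym2 V)} {v : V}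
    (hv : v ∈ cl {o} (del B ω)) : v ∉ B := by
  have hv' := mem_cl_single.1 hv
  clear hv
  induction hv' with
  | refl => exact ho
  | tail _ h2 _ => exact fun h => h2.2 (mk_mem_touch.2 (Or.inr h))

lemma cut {F : Finset (Sym2 V)} {B : Set V} {o : V} {ω : Set (Sym2 V)} (hω : ω ⊆ F)
    (ho : o ∉ B) (h : ∀ e ∈ conts F B o ω, e ∉ ω) : o ∉ cl B ω := by
  rintro ⟨b, hb, hc⟩
  have : ∀ v, Conn ω o v → v ∈ cl {o} (del B ω) := by
    intro v hv
    induction hv with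
    | refl => exact mem_cl_single.2 (Conn.refl _ _)
    | @tail a c _ h2 ih =>
      refine cl_conn ih (Conn.single ⟨h2, fun ht => ?_⟩)
      rcases mk_mem_touch.1 ht with h3 | h3
      · exact cl_del_not_mem ho ih h3
      · exact h _ (Finset.mem_filter.2 ⟨hω h2, a, c, rfl, ih, h3⟩) h2
  exact cl_del_not_mem ho (this b hc.symm) hb

lemma del_mix_compl (B : Set V) (ω η : Set (Sym2 V)) :
    del B (mix (touch B)ᶜ ω η) = del B ω := by
  ext e; simp only [del, Set.mem_diff, mem_mix, Set.mem_compl_iff]; tauto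

lemma conts_mix (F : Finset (Sym2 V)) (B : Set V) (o : V) (ω η : Set (Sym2 V)) :
    conts F B o (mix (touch B)ᶜ ω η) = conts F B o ω := by
  unfold conts; rw [del_mix_compl]

lemma conts_touch {F : Finset (Sym2 V)} {B : Set V} {o : V} {ω : Set (Sym2 V)} {e : Sym2 V}
    (he : e ∈ conts F B o ω) : e ∈ touch B := by
  obtain ⟨_, u, v, rfl, _, hv⟩ := Finset.mem_filter.1 he
  exact mk_mem_touch.2 (Or.inr hv)

lemma level_le {F : Finset (Sym2 V)} (hF : (F : Set (Sym2 V)) ⊆ G.edgeSet) {w : Sym2 V → ℝ}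
    (hw : Ok w) {B : Set V} {ph : ℝ} (hph0 : 0 ≤ ph) (hph : ph ≤ 1)
    (hi : ∀ e ∈ F, e ∈ touch B → w e ≤ ph) {o : V} (ho : o ∉ B) (k : ℕ) :
    (1 - ph) ^ k * Pr F w (fun ω => (conts F B o ω).Nonempty ∧ (conts F B o ω).card ≤ k)
      ≤ Pr F w (fun ω => o ∈ cl (nb G B 1) ω ∧ o ∉ cl B ω) := by
  unfold Pr
  rw [resample_fixed F w (touch B)ᶜ (fun ω => ind (o ∈ cl (nb G B 1) ω ∧ o ∉ cl B ω)),
    ← Ex_const_mul]
  refine Ex_mono hw fun ω hω => ?_
  by_cases hE : (conts F B o ω).Nonempty ∧ (conts F B o ω).card ≤ k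
  · rw [ind_true hE, mul_one]
    have h1 : (1 - ph) ^ k ≤ Pr F w (fun η => ∀ e ∈ conts F B o ω, e ∉ η) := by
      rw [Pr_closed (s := conts F B o ω) (Finset.filter_subset _ _)]
      calc (1 - ph) ^ k ≤ (1 - ph) ^ (conts F B o ω).card :=
            pow_le_pow_of_le_one (by linarith) (by linarith) hE.2
        _ = ∏ _e ∈ conts F B o ω, (1 - ph) := by simp
        _ ≤ _ := Finset.prod_le_prod (fun _ _ => by linarith) fun e he => by
            linarith [hi e (Finset.mem_filter.1 he).1 (conts_touch he)]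
    refine h1.trans (Pr_mono hw fun η hη h => ⟨?_, ?_⟩)
    · obtain ⟨e, he⟩ := hE.1
      obtain ⟨heF, u, v, rfl, hu, hv⟩ := Finset.mem_filter.1 he
      refine ⟨u, Or.inr ⟨v, hv, (hF heF : G.Adj u v).symm⟩, ?_⟩
      refine ((mem_cl_single.1 hu).mono ?_).symm
      intro e he; exact Or.inl he
    · refine cut (mix_subset hω hη) ho ?_
      rw [conts_mix]
      rintro e he (h' | h')
      · exact h'.2 (conts_touch he)
      · exact h e he h'.1
  · rw [ind_false hE, mul_zero]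
    exact Ex_nonneg hw fun _ _ => ind_nonneg _

lemma exists_level {F : Finset (Sym2 V)} (hF : (F : Set (Sym2 V)) ⊆ G.edgeSet) {w : Sym2 V → ℝ}
    (hw : Ok w) {M : Set V} {ph : ℝ} (hph0 : 0 ≤ ph) (hph : ph ≤ 1) (m J : ℕ) (hJ : 0 < J)
    (hi : ∀ e ∈ F, e ∈ touch (nb G M (m + J)) → w e ≤ ph) {o : V} (ho : o ∉ nb G M (m + J))
    (k : ℕ) : ∃ j < J, (1 - ph) ^ k * J * Pr F w (fun ω =>
      (conts F (nb G M (m + j)) o ω).Nonempty ∧ (conts F (nb G M (m + j)) o ω).card ≤ k) ≤ 1 := by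
  by_contra hc
  push Not at hc
  have hJ' : (0 : ℝ) < J := by exact_mod_cast hJ
  have h1 : ∀ j ∈ Finset.range J, 1 / (J : ℝ) <
      Pr F w (fun ω => o ∈ cl (nb G M (m + (j + 1))) ω)
        - Pr F w (fun ω => o ∈ cl (nb G M (m + j)) ω) := by
    intro j hj
    have hj' := Finset.mem_range.1 hj
    have hsub : nb G M (m + j) ⊆ nb G M (m + J) := nb_mono M (by omega)
    have a1 := level_le hF hw hph0 hph (B := nb G M (m + j))
      (fun e he ht => hi e he (touch_mono hsub ht)) (fun h => ho (hsub h)) k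
    have a2 := hc j hj'
    rw [nb_nb] at a1
    have a3 : Pr F w (fun ω => o ∈ cl (nb G M (m + j + 1)) ω ∧ o ∉ cl (nb G M (m + j)) ω)
        = Pr F w (fun ω => o ∈ cl (nb G M (m + (j + 1))) ω)
          - Pr F w (fun ω => o ∈ cl (nb G M (m + j)) ω) := by
      unfold Pr
      rw [← Ex_sub]
      refine Ex_congr fun ω _ => ?_
      by_cases h : o ∈ cl (nb G M (m + j)) ω
      · have : o ∈ cl (nb G M (m + (j + 1))) ω := cl_mono (nb_mono M (by omega)) subset_rfl h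
        simp [h, this]
      · simp [h, add_assoc]
    rw [← a3, div_lt_iff₀ hJ']
    nlinarith
  have h2 := Finset.sum_lt_sum_of_nonempty ⟨0, Finset.mem_range.2 hJ⟩ h1
  rw [Finset.sum_range_sub (fun j => Pr F w (fun ω => o ∈ cl (nb G M (m + j)) ω))] at h2
  simp only [Finset.sum_const, Finset.card_range, nsmul_eq_mul] at h2
  rw [mul_one_div_cancel hJ'.ne'] at h2
  linarith [Pr_le_one (F := F) hw (fun ω => o ∈ cl (nb G M (m + J)) ω),
    Pr_nonneg (F := F) hw (fun ω => o ∈ cl (nb G M (m + 0)) ω)]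

/-- conditional failure probability given the edges of `S` -/
noncomputable def zf (F : Finset (Sym2 V)) (w : Sym2 V → ℝ) (S : Set (Sym2 V)) (T : Set V)
    (ω : Set (Sym2 V)) (a : V) : ℝ := Pr F w (fun η => a ∉ cl T (mix S ω η))

noncomputable def relays (F : Finset (Sym2 V)) (w : Sym2 V → ℝ) (S : Set (Sym2 V)) (T : Set V)
    (δ : ℝ) (ω : Set (Sym2 V)) : Finset V :=
  (F.biUnion fun e => e.toFinset).filter fun a => zf F w S T ω a ≤ δ

lemma mix_mix (S ω η ζ : Set (Sym2 V)) : mix S (mix S ω η) ζ = mix S ω ζ := by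
  ext e; simp only [mem_mix]; tauto

lemma mix_mix_compl (S ω η ζ : Set (Sym2 V)) : mix S (mix Sᶜ ω η) ζ = mix S η ζ := by
  ext e; simp only [mem_mix, Set.mem_compl_iff]; tauto

lemma mem_relays {F : Finset (Sym2 V)} {w : Sym2 V → ℝ} {S : Set (Sym2 V)} {T : Set V}
    {δ : ℝ} {ω : Set (Sym2 V)} {a : V} : a ∈ relays F w S T δ ω ↔
      a ∈ (F.biUnion fun e => e.toFinset) ∧ zf F w S T ω a ≤ δ := Finset.mem_filter

lemma relay_glue {F : Finset (Sym2 V)} {w : Sym2 V → ℝ} (hw : Ok w) (S : Set (Sym2 V))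
    (T : Set V) {δ : ℝ} (hδ : 0 ≤ δ) (o : V) :
    Pr F w (fun ω => o ∈ cl (relays F w S T δ ω) ω ∧ o ∉ cl T ω) ≤ δ := by
  unfold Pr
  rw [resample_fixed F w S]
  refine Ex_le_const hw fun ω hω => ?_
  have h1 : ∀ η, relays F w S T δ (mix S ω η) = relays F w S T δ ω := by
    intro η; ext a; simp only [mem_relays, zf, mix_mix]
  simp only [h1]
  rw [← Ex_condW F w S hω (fun ζ => ind (o ∈ cl (relays F w S T δ ω) ζ ∧ o ∉ cl T ζ))]
  refine glue (condW_ok hw) o _ T hδ fun a ha => ?_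
  have := (Finset.mem_filter.1 ha).2
  unfold Pr
  rw [Ex_condW F w S hω]
  exact this

lemma seed_bad {F : Finset (Sym2 V)} {w : Sym2 V → ℝ} (hw : Ok w) {S : Set (Sym2 V)}
    {T : Set V} {δ ε : ℝ} (hδ : 0 < δ) {sd : Finset (Sym2 V)} (hS : (sd : Set (Sym2 V)) ⊆ S)
    {v : V} (hv : Pr F w (fun η => v ∉ cl T (η ∪ sd)) ≤ ε) :
    Pr F w (fun η => (sd : Set (Sym2 V)) ⊆ η ∧ δ < zf F w S T η v)
      ≤ Pr F w (fun η => (sd : Set (Sym2 V)) ⊆ η) * (ε / δ) := by
  have h1 : Pr F w (fun η => (sd : Set (Sym2 V)) ⊆ η ∧ δ < zf F w S T η v) * δ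
      ≤ Ex F w (fun η => ind ((sd : Set (Sym2 V)) ⊆ η) * zf F w S T η v) := by
    unfold Pr
    rw [← Ex_mul_const]
    refine Ex_mono hw fun η _ => ?_
    by_cases h : (sd : Set (Sym2 V)) ⊆ η ∧ δ < zf F w S T η v
    · rw [ind_true h, ind_true h.1]; linarith [h.2]
    · rw [ind_false h, zero_mul]
      exact mul_nonneg (ind_nonneg _) (Pr_nonneg hw _)
  have h2 : Ex F w (fun η => ind ((sd : Set (Sym2 V)) ⊆ η) * zf F w S T η v)
      = Ex F w (fun η => ind ((sd : Set (Sym2 V)) ⊆ η) * ind (v ∉ cl T η)) := by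
    rw [resample_fixed F w S (fun η => ind ((sd : Set (Sym2 V)) ⊆ η) * ind (v ∉ cl T η))]
    refine Ex_congr fun η _ => ?_
    unfold zf Pr
    rw [← Ex_const_mul]
    refine Ex_congr fun ζ _ => ?_
    congr 1
    refine ind_congr ⟨fun h e he => Or.inl ⟨h he, hS he⟩, fun h e he => ?_⟩
    rcases h he with h' | h'
    · exact h'.1
    · exact absurd (hS he) h'.2
  have h3 : Ex F w (fun η => ind ((sd : Set (Sym2 V)) ⊆ η) * ind (v ∉ cl T η))
      ≤ Pr F w (fun η => (sd : Set (Sym2 V)) ⊆ η) * ε := by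
    rw [resample_fixed F w (sd : Set (Sym2 V))]
    unfold Pr
    rw [← Ex_mul_const]
    refine Ex_mono hw fun η _ => ?_
    by_cases h : (sd : Set (Sym2 V)) ⊆ η
    · rw [ind_true h, one_mul]
      refine le_trans (Ex_mono hw fun ζ _ => ?_) hv
      have : mix (sd : Set (Sym2 V)) η ζ = ζ ∪ sd := by
        ext e; simp only [mem_mix, Set.mem_union]
        have := @h e
        tauto
      rw [this]
      exact mul_le_of_le_one_left (ind_nonneg _) (ind_le_one _)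
    · rw [ind_false h, zero_mul]
      refine Ex_le_const hw fun ζ _ => ?_
      rw [ind_false, zero_mul]
      intro h'
      refine h fun e he => ?_
      rcases h' he with h2 | h2
      · exact h2.1
      · exact absurd he h2.2
  rw [← mul_div_assoc, le_div_iff₀ hδ]
  linarith

lemma many_contacts {Δ : ℕ} (hΔ : DegLe G Δ) {F : Finset (Sym2 V)}
    (hF : (F : Set (Sym2 V)) ⊆ G.edgeSet) {w : Sym2 V → ℝ} (hw : Ok w) {M T : Set V} {o : V}
    {m j : ℕ} (ho : o ∉ nb G M (m + j)) {pl ε δ L : ℝ} (hpl : 0 ≤ pl) (hpl1 : pl ≤ 1)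
    (hε : 0 ≤ ε) (hδ : 0 < δ) (hL : 0 ≤ L) (k : ℕ)
    (hk : L ≤ k * pl ^ (((Δ + 1) ^ (m + 1)) ^ 2))
    (hs : ∀ a ∈ nb G M j, a ∈ nb G Mᶜ (m + 1) →
      (∀ e ∈ inE G (ball G a (m + 1)), e ∈ F ∧ pl ≤ w e) ∧
        Pr F w (fun η => a ∉ cl T (η ∪ inE G (ball G a m))) ≤ ε) :
    Pr F w (fun ω => k * ((Δ + 1) ^ (3 * m + 3)) ^ 2 ≤ (conts F (nb G M (m + j)) o ω).card ∧
        o ∉ cl (relays F w (touch (nb G M (m + j))) T δ ω) ω)
      ≤ Real.exp (-L) + (L + 1) * (ε / δ) := by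
  set B := nb G M (m + j) with hB
  unfold Pr
  rw [resample_fixed F w (touch B)ᶜ]
  have hnn : 0 ≤ Real.exp (-L) + (L + 1) * (ε / δ) := by positivity
  refine Ex_le_const hw fun ω hω => ?_
  have h1 : ∀ η, relays F w (touch B) T δ (mix (touch B)ᶜ ω η) = relays F w (touch B) T δ η := by
    intro η; ext a; simp only [mem_relays, zf, mix_mix_compl]
  simp only [h1, conts_mix]
  by_cases hC : k * ((Δ + 1) ^ (3 * m + 3)) ^ 2 ≤ (conts F B o ω).card
  swap
  · refine Ex_le_const hw fun η _ => ?_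
    rw [ind_false (fun h => hC h.1)]; exact hnn
  have hch : ∀ e, e ∈ conts F B o ω → ∃ u v a, e = s(u, v) ∧ u ∈ cl {o} (del B ω) ∧
      v ∈ ball G a m ∧ a ∈ nb G M j ∧ G.Adj u v := by
    intro e he
    obtain ⟨heF, u, v, rfl, hu, hv⟩ := Finset.mem_filter.1 he
    rw [hB, add_comm, ← nb_nb] at hv
    obtain ⟨a, ha, hva⟩ := mem_nb_iff.1 hv
    exact ⟨u, v, a, rfl, hu, hva, ha, hF heF⟩
  haveI : Nonempty V := ⟨o⟩
  choose! u v a he hu hv ha hadj using hch
  have hball : ∀ e ∈ conts F B o ω, ball G (a e) m ⊆ B := fun e h x hx => by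
    rw [hB, add_comm]; exact nb_trans (ha e h) hx
  have hua : ∀ e ∈ conts F B o ω, u e ∈ ball G (a e) (m + 1) := fun e h =>
    ball_adj (hv e h) (hadj e h).symm
  have hrel : ∀ e ∈ conts F B o ω, a e ∈ nb G Mᶜ (m + 1) := fun e h =>
    mem_nb_iff.2 ⟨u e, fun hM => cl_del_not_mem ho (hu e h) (subset_nb M _ hM),
      ball_symm (hua e h)⟩
  have hein : ∀ e ∈ conts F B o ω, e ∈ inE G (ball G (a e) (m + 1)) := fun e h => by
    have := mk_mem_inE.2 ⟨hadj e h, hua e h, ball_mono _ (Nat.le_succ m) (hv e h)⟩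
    rwa [← he e h] at this
  let sd : Sym2 V → Finset (Sym2 V) := fun e =>
    F.filter fun e' => e' = e ∨ e' ∈ inE G (ball G (a e) m)
  have hsd1 : ∀ e ∈ conts F B o ω, (sd e : Set (Sym2 V)) ⊆ inE G (ball G (a e) (m + 1)) := by
    intro e h e' he'
    rcases (Finset.mem_filter.1 he').2 with rfl | h'
    · exact hein _ h
    · exact inE_mono (ball_mono _ (Nat.le_succ m)) h'
  have hsd2 : ∀ e ∈ conts F B o ω, (sd e : Set (Sym2 V)) ⊆ touch B := by
    intro e h e' he'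
    rcases (Finset.mem_filter.1 he').2 with rfl | h'
    · exact conts_touch h
    · exact ⟨e'.out.1, hball e h (h'.2 _ (Sym2.out_fst_mem _)), Sym2.out_fst_mem _⟩
  have hsd3 : ∀ e ∈ conts F B o ω, inE G (ball G (a e) m) ⊆ sd e := fun e h e' he' =>
    Finset.mem_filter.2 ⟨((hs _ (ha e h) (hrel e h)).1 e'
      (inE_mono (ball_mono _ (Nat.le_succ m)) he')).1, Or.inr he'⟩
  have hsd4 : ∀ e ∈ conts F B o ω, e ∈ sd e := fun e h =>
    Finset.mem_filter.2 ⟨(Finset.mem_filter.1 h).1, Or.inl rfl⟩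
  let ρ : Sym2 V → ℝ := fun e => Pr F w (fun η => (sd e : Set (Sym2 V)) ⊆ η)
  have hρ : ∀ e ∈ conts F B o ω, pl ^ (((Δ + 1) ^ (m + 1)) ^ 2) ≤ ρ e := by
    intro e h
    obtain ⟨s, hs1, hs2⟩ := inE_card hΔ (a e) (m + 1)
    have hc : (sd e).card ≤ ((Δ + 1) ^ (m + 1)) ^ 2 :=
      (Finset.card_le_card (fun x hx => hs2 (hsd1 e h hx))).trans hs1
    simp only [ρ]
    rw [Pr_open (s := sd e) (Finset.filter_subset _ _)]
    calc pl ^ (((Δ + 1) ^ (m + 1)) ^ 2) ≤ pl ^ (sd e).card := pow_le_pow_of_le_one hpl hpl1 hc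
      _ = ∏ _x ∈ sd e, pl := by simp
      _ ≤ _ := Finset.prod_le_prod (fun _ _ => hpl) fun x hx =>
          ((hs _ (ha e h) (hrel e h)).1 x (hsd1 e h hx)).2
  obtain ⟨I, hI1, hI2, hI3⟩ := greedy (fun e e' => ∃ x, x ∈ sd e ∧ x ∈ sd e')
    (fun _ _ ⟨x, h1, h2⟩ => ⟨x, h2, h1⟩) (((Δ + 1) ^ (3 * m + 3)) ^ 2) (by positivity) k
    (conts F B o ω) (by
      intro e h
      obtain ⟨s, hs1, hs2⟩ := inE_card hΔ (a e) (3 * m + 3)
      refine ⟨s, hs1, hs2 (inE_mono (ball_mono _ (by omega)) (hein e h)), ?_⟩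
      rintro e' h' ⟨x, hx1, hx2⟩
      have b1 := (hsd1 e h hx1).2 _ (Sym2.out_fst_mem x)
      have b2 := (hsd1 e' h' hx2).2 _ (Sym2.out_fst_mem x)
      have b3 := ball_trans b1 (ball_symm b2)
      refine hs2 (inE_mono (fun y hy => ?_) (hein e' h'))
      exact ball_mono _ (by omega) (ball_trans b3 hy)) hC
  obtain ⟨I', hI'1, hI'2, hI'3⟩ := subsum ρ L hL I (fun _ _ => Pr_le_one hw _) (by
    refine hk.trans ?_
    rw [← hI2, ← nsmul_eq_mul]
    exact Finset.card_nsmul_le_sum I ρ _ fun e h => hρ e (hI1 h))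
  have hI'C : ∀ e ∈ I', e ∈ conts F B o ω := fun e h => hI1 (hI'1 h)
  have c1 : Pr F w (fun η => k * ((Δ + 1) ^ (3 * m + 3)) ^ 2 ≤ (conts F B o ω).card ∧
        o ∉ cl (relays F w (touch B) T δ η) (mix (touch B)ᶜ ω η))
      ≤ Pr F w (fun η => ∀ e ∈ I', ¬ (sd e : Set (Sym2 V)) ⊆ η)
        + Pr F w (fun η => ∃ e ∈ I', (sd e : Set (Sym2 V)) ⊆ η ∧
          δ < zf F w (touch B) T η (v e)) := by
    refine Pr_le_add hw fun η _ h => ?_
    by_contra hc
    push Not at hc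
    obtain ⟨⟨e, heI, hopen⟩, hc2⟩ := hc
    have hC' := hI'C e heI
    refine h.2 ⟨v e, Finset.mem_coe.2 (Finset.mem_filter.2 ⟨?_, hc2 e heI hopen⟩), ?_⟩
    · refine Finset.mem_biUnion.2 ⟨e, (Finset.mem_filter.1 hC').1, ?_⟩
      rw [Sym2.mem_toFinset]
      have := Sym2.mem_mk_right (u e) (v e)
      rwa [← he e hC'] at this
    · refine Conn.symm (Conn.tail ((mem_cl_single.1 (hu e hC')).mono
        (fun x hx => Or.inl hx)) ?_)
      rw [← he e hC']
      exact Or.inr ⟨hopen (hsd4 e hC'), not_not.2 (conts_touch hC')⟩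
  have c2 : Pr F w (fun η => ∀ e ∈ I', ¬ (sd e : Set (Sym2 V)) ⊆ η) ≤ Real.exp (-L) := by
    rw [Pr_none_open F w sd I' (fun i hi j hj => hI3 i (hI'1 hi) j (hI'1 hj))]
    calc ∏ i ∈ I', (1 - ρ i) ≤ ∏ i ∈ I', Real.exp (-ρ i) :=
          Finset.prod_le_prod (fun i _ => sub_nonneg.2 (Pr_le_one hw _))
            fun i _ => by linarith [Real.add_one_le_exp (-ρ i)]
      _ = Real.exp (-∑ i ∈ I', ρ i) := by rw [← Real.exp_sum, Finset.sum_neg_distrib]
      _ ≤ _ := Real.exp_le_exp.2 (by linarith)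
  have c3 : Pr F w (fun η => ∃ e ∈ I', (sd e : Set (Sym2 V)) ⊆ η ∧
      δ < zf F w (touch B) T η (v e)) ≤ (L + 1) * (ε / δ) := by
    refine (Pr_le_sum hw I' fun η _ h => h).trans ?_
    refine le_trans (Finset.sum_le_sum (g := fun e => ρ e * (ε / δ)) fun e h => ?_) ?_
    · have hC' := hI'C e h
      refine seed_bad hw hδ (hsd2 e hC') ?_
      refine le_trans (Pr_mono hw fun η _ h1 => ?_) (hs _ (ha e hC') (hrel e hC')).2
      refine fun h2 => h1 ?_
      refine cl_conn (cl_mono subset_rfl (Set.union_subset_union_right _ (hsd3 e hC')) h2) ?_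
      exact conn_of_ball ((hsd3 e hC').trans Set.subset_union_right) (hv e hC')
    · rw [← Finset.sum_mul]
      exact mul_le_mul_of_nonneg_right hI'3 (by positivity)
  exact c1.trans (add_le_add c2 c3)

/-- What the step lemma provides. -/
def StepP (G : SimpleGraph V) (pl ph η ε : ℝ) (m J : ℕ) : Prop :=
  ∀ (F : Finset (Sym2 V)) (w : Sym2 V → ℝ) (M T : Set V) (o : V),
    (F : Set (Sym2 V)) ⊆ G.edgeSet → Ok w → o ∉ nb G M (m + J) →
    (∀ e ∈ F, e ∈ touch (nb G M (m + J)) → w e ≤ ph) →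
    (∀ a ∈ nb G M J, a ∈ nb G Mᶜ (m + 1) →
      (∀ e ∈ inE G (ball G a (m + 1)), e ∈ F ∧ pl ≤ w e) ∧
        Pr F w (fun η => a ∉ cl T (η ∪ inE G (ball G a m))) ≤ ε) →
    Pr F w (fun ω => o ∈ cl M ω ∧ o ∉ cl T ω) ≤ η

theorem step {Δ : ℕ} (hΔ : DegLe G Δ) {η : ℝ} (hη : 0 < η) : ∃ ε > 0,
    ∀ pl ph : ℝ, 0 < pl → pl ≤ 1 → 0 ≤ ph → ph < 1 → ∀ m : ℕ, ∃ J : ℕ, StepP G pl ph η ε m J := by
  obtain ⟨L, hL0, hL⟩ : ∃ L : ℝ, 0 ≤ L ∧ Real.exp (-L) ≤ η / 4 := by
    refine ⟨4 / η, by positivity, ?_⟩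
    have h1 := Real.add_one_le_exp (4 / η)
    rw [Real.exp_neg, inv_le_comm₀ (Real.exp_pos _) (by positivity), inv_div]
    linarith
  refine ⟨(η / 4) ^ 2 / (L + 1), by positivity, fun pl ph hpl hpl1 hph0 hph m => ?_⟩
  obtain ⟨k, hk⟩ := exists_nat_ge (L / pl ^ (((Δ + 1) ^ (m + 1)) ^ 2))
  rw [div_le_iff₀ (by positivity)] at hk
  set K := k * ((Δ + 1) ^ (3 * m + 3)) ^ 2 with hK
  have hq : 0 < (1 - ph) ^ K := pow_pos (by linarith) _
  obtain ⟨J, hJ⟩ := exists_nat_gt (4 / (η * (1 - ph) ^ K))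
  have hJ0 : (0 : ℝ) < J := lt_trans (by positivity) hJ
  rw [div_lt_iff₀ (by positivity)] at hJ
  refine ⟨J, fun F w M T o hF hw ho hi hs => ?_⟩
  obtain ⟨j, hj, hlev⟩ := exists_level hF hw hph0 hph.le m J (by exact_mod_cast hJ0) hi ho K
  set B := nb G M (m + j) with hB
  have hoB : o ∉ B := fun h => ho (nb_mono M (by omega) h)
  have a1 : Pr F w (fun ω => (conts F B o ω).Nonempty ∧ (conts F B o ω).card ≤ K) ≤ η / 4 := by
    by_contra hc
    push Not at hc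
    have : 0 < (1 - ph) ^ K * J := by positivity
    nlinarith
  have a2 := many_contacts hΔ hF hw (T := T) hoB (δ := η / 4) hpl.le hpl1
    (ε := (η / 4) ^ 2 / (L + 1)) (by positivity) (by positivity) hL0 k hk
    (fun a ha => hs a (nb_mono M hj.le ha))
  have a3 := relay_glue (F := F) hw (touch B) T (δ := η / 4) (by positivity) o
  have a4 : (L + 1) * ((η / 4) ^ 2 / (L + 1) / (η / 4)) = η / 4 := by field_simp
  have a5 : Pr F w (fun ω => o ∈ cl M ω ∧ o ∉ cl T ω)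
      ≤ Pr F w (fun ω => o ∈ cl (relays F w (touch B) T (η / 4) ω) ω ∧ o ∉ cl T ω)
        + Pr F w (fun ω => o ∈ cl M ω ∧ o ∉ cl (relays F w (touch B) T (η / 4) ω) ω) := by
    refine Pr_le_add hw fun ω _ h => ?_
    by_cases h' : o ∈ cl (relays F w (touch B) T (η / 4) ω) ω
    · exact Or.inl ⟨h', h.2⟩
    · exact Or.inr ⟨h.1, h'⟩
  have a6 : Pr F w (fun ω => o ∈ cl M ω ∧ o ∉ cl (relays F w (touch B) T (η / 4) ω) ω)
      ≤ Pr F w (fun ω => (conts F B o ω).Nonempty ∧ (conts F B o ω).card ≤ K)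
        + Pr F w (fun ω => K ≤ (conts F B o ω).card ∧
          o ∉ cl (relays F w (touch B) T (η / 4) ω) ω) := by
    refine Pr_le_add hw fun ω hω h => ?_
    by_cases h' : K ≤ (conts F B o ω).card
    · exact Or.inr ⟨h', h.2⟩
    · refine Or.inl ⟨?_, by omega⟩
      by_contra hne
      rw [Finset.not_nonempty_iff_eq_empty] at hne
      exact cut hω hoB (by simp [hne]) (cl_mono (subset_nb M _) subset_rfl h.1)
  linarith

end Vale.Agent.P151
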